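import Crest.Agent.N346.P2.Core6

/-! Row 346, P2: the main estimate `core : FieldsStmt → CoreStmt`. -/

set_option autoImplicit false
set_option linter.unusedSectionVars false
open MeasureTheory Set
open scoped InnerProductSpace

noncomputable section
namespace Crest.Agent.N346.P2

variable {X : Type} [MeasurableSpace X] {V : Type} [NormedAddCommGroup V] [InnerProductSpace ℝ V]
  {ν : Measure X}

/-- the numerical conditions used at a fixed critical point -/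
structure Num (a μ q τ₀ ω I bb K s m γ k θ c0 κ : ℝ) : Prop where
  a0 : 0 ≤ a
  a1 : a ≤ 1
  q0 : 0 ≤ q
  qI : q < I
  μI : μ < I
  IK : I ≤ K
  k0K : I / (I ^ 2 - q ^ 2) ≤ K
  kK : |k| ≤ K
  γ0 : 0 < γ
  γI : γ * (I - μ) ≤ 1
  m0 : 0 < m
  hm : 1200 * K ^ 8 * s ≤ m
  mγ : m ≤ γ
  mθ : m ≤ θ / 2
  m1 : m ≤ 1
  mτ : m ≤ τ₀ / 4
  mc : m ≤ c0
  θ1 : θ ≤ 1
  θk : θ * (I / (I ^ 2 - q ^ 2)) ≤ γ / 8
  ω0 : 0 ≤ ω
  ω1 : ω ≤ 1
  ωτ : ω ^ 2 ≤ τ₀ / 4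
  w1 : (I / (I ^ 2 - q ^ 2)) ^ 2 * (ω * bb) ≤ γ / 64
  w2 : 16 * (I / (I ^ 2 - q ^ 2)) ^ 2 * (ω ^ 2 * bb) ≤ γ * (τ₀ / 4)
  w3 : 8 * (I / (I ^ 2 - q ^ 2)) ^ 2 * (ω ^ 2 * bb ^ 2) ≤ γ * c0
  w4 : 256 * (I / (I ^ 2 - q ^ 2)) ^ 2 * (ω ^ 2 * bb) ≤ γ * (θ / 4)
  hc : 20 * c0 ≤ γ * (I - μ) ^ 2
  κ0 : 0 ≤ κ
  κ1 : κ ≤ 1
  hA : 1 / (I - μ) + γ - γ / 16 ≤ I / (I ^ 2 - q ^ 2) + a * κ * (I / (I ^ 2 - q ^ 2)) - k
  hA0 : γ ≤ I / (I ^ 2 - q ^ 2) - k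

namespace Crit
variable {𝒟 : DClass ν V} {a q τ₀ ω : ℝ} {nk : Neck 𝒟 a q τ₀ ω} {s C0 : ℝ}
  {pr : Prof (s ^ 4) C0} {c : Crit 𝒟 nk.W pr} (P : Pair 𝒟 nk.ρ) {K μ m γ k θ c0 κ : ℝ}

theorem Sc.a0 (h : c.Sc K) (n : Num a μ q τ₀ ω c.I c.bb K s m γ k θ c0 κ) (hS : c.Stab k) :
    P.t * c.Qt - 2 * P.t * c.x1 (c.zf P) + (c.I / (c.I ^ 2 - q ^ 2) - k - γ / 4) * c.x1 (c.zf P) ^ 2
      + θ * c.HH P + c.DD P + 2 * c.Qξ P + 2 * c.Fm P + 3 / 4 * τ₀ * P.S nk.W - c0 * P.t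
      - 464 * K ^ 8 * s * c.EE P ≤ c.K0 P - a * P.S nk.W := by
  obtain ⟨n1, n2, n3, n4, n5, n6, n7⟩ := h.nn P
  have hI : 0 < c.I := n.q0.trans_lt n.qI
  have hd : 0 < c.I ^ 2 - q ^ 2 := by nlinarith [n.q0, n.qI]
  have hbb : 0 ≤ c.bb := integral_nonneg fun x => mul_nonneg (nk.W_nonneg x) (sq_nonneg _)
  have p := alg_proj (T := q / c.I) (x1 := c.x1 (c.zf P)) n.γ0 (by positivity) n.k0K hI.le n.IK
    (div_nonneg n.q0 hI.le) ((div_le_one hI).2 n.qI.le) (by field_simp) (by field_simp)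
    h.s_pos.le (by linarith [h.s_le]) ((c.Qt_le nk.wok).trans (c.Φt_le_I nk.wok h.par))
    (c.r2_abs n.ω0) n.w1 (c.proj h.par (c.z_D P) _ _)
  exact alg0 h.s_pos h.s_le h.K1 n.kK n.γ0 n.hm n.mγ (by linarith [n.m0, n.mθ]) n.θ1 n.θk n7
    (n1.trans n2) n3 n4 n5 n6 n.w2 n.w3 (h.a1 P hS) (h.a2 P) p
    ((c.r1_sq (DClass.bd (c.z_D P))).trans
      (mul_le_mul_of_nonneg_left (c.Wz_le P) (by positivity)))

theorem Sc.H1 (h : c.Sc K) (n : Num a μ q τ₀ ω c.I c.bb K s m γ k θ c0 κ) (hS : c.Stab k) {Γ : ℝ}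
    (F : Fields μ q c.I (κ / Real.sqrt (1 - (q / c.I) ^ 2)) Γ) (hΓ : Γ ≤ K) :
    P.t * ((1 + a) * μ + c0) ≤ c.K1 P a (c.βf F.α₁ F.γ₁) (c.βf F.α₂ F.γ₂) := by
  obtain ⟨n1, n2, n3, n4, n5, n6, n7⟩ := h.nn P
  have hI : 0 < c.I := n.q0.trans_lt n.qI
  have hd : 0 < c.I ^ 2 - q ^ 2 := by nlinarith [n.q0, n.qI]
  have hT0 : 0 ≤ q / c.I := div_nonneg n.q0 hI.le
  have hT : q / c.I < 1 := (div_lt_one hI).2 n.qI
  have hj : 0 < Real.sqrt (1 - (q / c.I) ^ 2) := Real.sqrt_pos.2 (by nlinarith)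
  have hε := h.par.ε_pos
  have hΦ : 7 * s ^ 4 * c.Φ ≤ 7 * s ^ 4 * K := mul_le_mul_of_nonneg_left h.Φ_le (by positivity)
  have f := alg_field (x1 := c.x1 (c.zf P)) (θ := θ) n.γ0 (by positivity) n.k0K h.K1 hI.le n.IK
    hT0 hT.le (by field_simp) (by field_simp) h.s_pos h.s_le (c.Φt_le_I nk.wok h.par)
    (c.r2_abs n.ω0) n.w1 hj (c.bogo hT0 hT) n.κ0 n.κ1 n7 P.t_le (n1.trans n2)
    (by linarith [n.m0, n.mθ]) (c.xd_sq h.par (c.z_D P) n.ω0 n.ω1) n.w4 c.xe_nonneg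
    ((c.xe_le h.par).trans hΦ)
  exact alg1 h.s_pos h.s_le h.K1 n.γ0 n.hm n.mγ n.mθ n.m1 n.mτ n.mc n.ωτ n.a0 n.a1 n7 P.t_sq
    (n1.trans n2) n3 n4 n5 n6 (sub_pos.2 n.μI) n.γI n.hc n.hA
    (by linarith [c.le_Qt nk.wok h.par]) (h.a0 P n hS) f
    (h.a9 P F ((c.I_le_Φ hε nk.wok).trans (c.Φ_le_Φt nk.wok hε)) (div_nonneg n.κ0 hj.le) n.a0 hΓ _)

theorem Sc.H0 (h : c.Sc K) (n : Num a μ q τ₀ ω c.I c.bb K s m γ k θ c0 κ) (hS : c.Stab k)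
    {I Bc Γ : ℝ} (F : Fields μ q I Bc Γ) (ht : P.t = 0) :
    ∫ x, (‖P.G₁ x‖ ^ 2 + ‖P.G₂ x‖ ^ 2 + ‖c.βf F.α₁ F.γ₁ x‖ ^ 2 * P.Y₁ x ^ 2
      + ‖c.βf F.α₂ F.γ₂ x‖ ^ 2 * P.Y₂ x ^ 2) ∂ν
      ≤ (2 * (2 + 8 * (C0 / s ^ 4)) + 288 * Γ ^ 2) * (2 / m) * c.K0 P := by
  obtain ⟨n1, n2, n3, n4, n5, n6, n7⟩ := h.nn P
  have hH := n1.trans n2
  have hE := h.EE_nonneg P
  have hm := n.m0
  have h1 := h.a0 P n hS
  have h2 := c.H0_le P h.par F ht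
  have b1 := mul_le_mul_of_nonneg_right n.hm hE
  have c1 := mul_le_mul_of_nonneg_right n.mθ hH
  have c2 := mul_le_mul_of_nonneg_right n.m1 n3
  have c3 := mul_le_mul_of_nonneg_right n.m1 n4
  have c4 := mul_le_mul_of_nonneg_right n.m1 n5
  have c5 := mul_le_mul_of_nonneg_right n.mτ n6
  have c6 := mul_nonneg n.a0 n6
  have c7 := mul_nonneg (show 0 ≤ c.I / (c.I ^ 2 - q ^ 2) - k - γ / 4 by linarith [n.hA0, n.γ0])
    (sq_nonneg (c.x1 (c.zf P)))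
  have d1 := mul_nonneg hm.le hH
  have d2 := mul_nonneg hm.le n6
  have d3 := mul_nonneg hm.le hE
  have e : m * c.EE P = m * c.HH P + m * c.DD P + m * c.Qξ P + m * c.Fm P + m * P.S nk.W := by
    unfold EE; rw [ht]; ring
  rw [ht] at h1
  have h3 : m * c.EE P ≤ 2 * c.K0 P := by linarith
  have h4 : c.EE P ≤ 2 / m * c.K0 P := by
    rw [div_mul_eq_mul_div, le_div_iff₀ hm]; linarith
  set C := 2 * (2 + 8 * (C0 / s ^ 4)) + 288 * Γ ^ 2 with hC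
  have hC2 : 2 ≤ C := by
    have := pr.C0_nonneg
    have := sq_nonneg Γ
    linarith
  have g1 := mul_le_mul_of_nonneg_left h4 (by linarith : 0 ≤ C)
  have g2 : C * c.JJ P + C * c.Qξ P + C * P.S nk.W ≤ C * c.EE P := by
    rw [← mul_add, ← mul_add]
    exact mul_le_mul_of_nonneg_left (by unfold EE; linarith) (by linarith)
  have g3 := mul_le_mul_of_nonneg_right hC2 n4
  have g4 := mul_le_mul_of_nonneg_right hC2 n6
  unfold JJ at g2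
  linarith

end Crit

theorem kappa_nonneg {μ q Is I s₀ : ℝ} (hq : 0 ≤ q) (hqμ : q < μ) (hμ : μ < Is) (hI : Is ≤ I)
    (hs : 1 < s₀) (h : s₀ * (μ * Is - q ^ 2) ≤ Is * (Is - μ)) :
    0 ≤ 1 / s₀ - (μ * I - q ^ 2) / (I * (I - μ)) := by
  have h1 : 0 < s₀ * (μ ^ 2 - q ^ 2) := mul_pos (by linarith) (by nlinarith)
  have h2 : 0 < (Is - μ) * (Is - s₀ * μ) := by nlinarith
  have h3 : 0 < Is - s₀ * μ := pos_of_mul_pos_left' h2 (by linarith)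
  have h4 : 0 ≤ (I - Is) * (I + Is - (1 + s₀) * μ) := mul_nonneg (by linarith) (by linarith)
  rw [sub_nonneg, div_le_div_iff₀ (mul_pos (by linarith) (by linarith)) (by linarith)]
  nlinarith
where pos_of_mul_pos_left' {x y : ℝ} (h : 0 < x * y) (hx : 0 < x) : 0 < y := by
        by_contra hy
        nlinarith [not_lt.1 hy]

theorem basic_facts {q Is η₁ I Ib γ : ℝ} (hq : 0 ≤ q) (hqI : q < Is) (hI : Is ≤ I)
    (hIb : I ≤ Ib) (hγ : 0 < γ) (hηγ : η₁ ^ 2 ≤ γ ^ 2 * I ^ 3) :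
    I / (I ^ 2 - q ^ 2) * I ≤ Is ^ 2 / (Is ^ 2 - q ^ 2) ∧ η₁ * Real.sqrt Is ≤ γ * I ^ 2 ∧
      η₁ * Real.sqrt Is / (Ib ^ 2 + 1) ≤ γ := by
  have hI0 : 0 < Is := by linarith
  have Ip : 0 < I := by linarith
  have hd0 : 0 < Is ^ 2 - q ^ 2 := by nlinarith
  have hd : 0 < I ^ 2 - q ^ 2 := by nlinarith
  have f3 : η₁ * Real.sqrt Is ≤ γ * I ^ 2 := by
    refine (abs_le_of_sq_le_sq' ?_ (by positivity)).2
    rw [mul_pow, Real.sq_sqrt hI0.le]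
    have := mul_le_mul hηγ hI hI0.le (by positivity)
    linarith
  refine ⟨?_, f3, ?_⟩
  · rw [div_mul_eq_mul_div, div_le_div_iff₀ hd hd0]
    have : q ^ 2 * Is ^ 2 ≤ q ^ 2 * I ^ 2 := by gcongr
    linarith
  · rw [div_le_iff₀ (by positivity)]
    have : I ^ 2 ≤ Ib ^ 2 := by gcongr
    have := mul_le_mul_of_nonneg_left this hγ.le
    linarith

theorem num_of {a μ q Is η₁ τ₀ bb cb I γ ω κ0 g0 c0 γ0 σ m K s : ℝ} (ha : 0 < a) (ha1 : a ≤ 1)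
    (hq : 0 ≤ q) (hqμ : q < μ) (hμI : μ < Is) (hI : Is ≤ I) (hγ : 0 < γ)
    (hηγ : η₁ ^ 2 ≤ γ ^ 2 * I ^ 3) (hγI : γ * I ≤ 1) (κ0_one : 1 ≤ κ0) (g0_pos : 0 < g0)
    (hc0 : c0 = ((Is - μ) / Is) ^ 2 * g0 / 20) (f1 : I / (I ^ 2 - q ^ 2) * I ≤ κ0)
    (f3 : g0 ≤ γ * I ^ 2) (f5 : γ0 ≤ γ) (cb0 : 0 ≤ cb) (cbb : cb ≤ bb) (hω0 : 0 ≤ ω) (ω1 : ω ≤ 1)
    (ωτ : ω ≤ τ₀ / 4) (O1 : κ0 ^ 2 / g0 * bb * ω ≤ 1 / 64) (O2 : 64 * (κ0 ^ 2 / g0) * bb * ω ≤ τ₀)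
    (O3 : 8 * (κ0 ^ 2 / g0) * bb ^ 2 * ω ≤ c0) (O4 : 8192 * κ0 ^ 3 * bb * ω ≤ η₁ ^ 2)
    (σp : 0 < σ) (hs0 : (1 + σ) * (μ * Is - q ^ 2) ≤ Is * (Is - μ)) (S2 : κ0 / Is * σ ≤ γ0 / 16)
    (mp : 0 < m) (m1 : m ≤ γ0) (m2 : m ≤ γ0 * Is / (8 * κ0) / 2) (m3 : m ≤ 1) (m4 : m ≤ τ₀ / 4)
    (m5 : m ≤ c0) (hm : 1200 * K ^ 8 * s ≤ m) (K1 : I ≤ K)
    (K2 : 4 * (κ0 / Is) + 2 * (1 / (Is - μ)) + 1 / Is ≤ K) :
    Num a μ q τ₀ ω I cb K s m γ (kstar a μ q I - γ) (γ * I / (8 * κ0)) c0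
      (1 / (1 + σ) - (μ * I - q ^ 2) / (I * (I - μ))) := by
  have hμ : 0 < μ := by linarith
  have hI0 : 0 < Is := by linarith
  have Ip : 0 < I := by linarith
  have hh : 0 < I - μ := by linarith
  have hh0 : 0 < Is - μ := by linarith
  have hd : 0 < I ^ 2 - q ^ 2 := sub_pos.2 (pow_lt_pow_left₀ (by linarith) hq two_ne_zero)
  have eks : kstar a μ q I = (1 + 2 * a) * (I / (I ^ 2 - q ^ 2)) - (1 + a) * (1 / (I - μ)) := by
    rw [kstar]; ring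
  have eρ : I / (I ^ 2 - q ^ 2) * ((μ * I - q ^ 2) / (I * (I - μ)))
      = 1 / (I - μ) - I / (I ^ 2 - q ^ 2) := by field_simp; ring
  have ρ0 : 0 ≤ (μ * I - q ^ 2) / (I * (I - μ)) := by
    refine div_nonneg ?_ (by positivity)
    have := mul_le_mul hqμ.le (show q ≤ I by linarith) hq hμ.le
    linarith
  have k0p : 0 < I / (I ^ 2 - q ^ 2) := by positivity
  have hκ := kappa_nonneg hq hqμ hμI hI (by linarith) hs0
  generalize hk0 : I / (I ^ 2 - q ^ 2) = k0 at *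
  generalize (μ * I - q ^ 2) / (I * (I - μ)) = ϱ at ρ0 eρ hκ ⊢
  have hp1 : 0 < κ0 / Is := by positivity
  have hp2 : 0 < 1 / (Is - μ) := by positivity
  have hp3 : 0 < 1 / Is := by positivity
  have f2 : k0 ≤ κ0 / Is := by
    rw [le_div_iff₀ hI0]
    exact (mul_le_mul_of_nonneg_left hI k0p.le).trans f1
  have f4 : k0 ^ 2 ≤ κ0 ^ 2 / g0 * γ := by
    rw [div_mul_eq_mul_div, le_div_iff₀ g0_pos]
    have u1 := mul_le_mul_of_nonneg_left f3 (sq_nonneg k0)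
    have u2 := mul_le_mul_of_nonneg_left (pow_le_pow_left₀ (by positivity) f1 2) hγ.le
    linarith
  have f6 : 1 / (I - μ) ≤ 1 / (Is - μ) := one_div_le_one_div_of_le hh0 (by linarith)
  have f7 : γ ≤ 1 / Is := by
    rw [le_div_iff₀ hI0]
    exact (mul_le_mul_of_nonneg_left hI hγ.le).trans hγI
  have hh' : 0 < 1 / (I - μ) := by positivity
  have ω2 : ω ^ 2 ≤ ω := by
    have := mul_le_mul_of_nonneg_left ω1 hω0
    linarith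
  have wb1 : ω * cb ≤ ω * bb := by gcongr
  have wb2 : ω ^ 2 * cb ≤ ω * bb := by gcongr
  have wb3 : ω ^ 2 * cb ^ 2 ≤ ω * bb ^ 2 := by gcongr
  have Ap : 0 ≤ κ0 ^ 2 / g0 * γ := by positivity
  generalize κ0 ^ 2 / g0 = A at *
  have hσ0 : 1 / (1 + σ) ≤ 1 := by rw [div_le_one (by linarith)]; linarith
  have hσ1 : 1 - 1 / (1 + σ) ≤ σ := by
    rw [sub_le_comm, le_div_iff₀ (by linarith)]
    linarith [sq_nonneg σ]
  exact
    { a0 := ha.le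
      a1 := ha1
      q0 := hq
      qI := by linarith
      μI := by linarith
      IK := K1
      k0K := by linarith
      kK := by
        have u1 := mul_le_mul_of_nonneg_right ha1 k0p.le
        have u2 := mul_le_mul_of_nonneg_right ha1 hh'.le
        have u3 := mul_nonneg ha.le k0p.le
        have u4 := mul_nonneg ha.le hh'.le
        rw [eks, abs_le]; constructor <;> linarith
      γ0 := hγ
      γI := by linarith [mul_pos hγ hμ]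
      m0 := mp
      hm := hm
      mγ := m1.trans f5
      mθ := m2.trans (by have : 0 ≤ γ0 := by linarith
                         gcongr)
      m1 := m3
      mτ := m4
      mc := m5
      θ1 := by rw [div_le_one (by positivity)]; linarith
      θk := by
        rw [hk0, div_mul_eq_mul_div, div_le_div_iff₀ (by positivity) (by norm_num)]
        have := mul_le_mul_of_nonneg_left f1 hγ.le
        linarith
      ω0 := hω0
      ω1 := ω1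
      ωτ := by linarith
      w1 := by
        have u1 := mul_le_mul f4 wb1 (by positivity) Ap
        have u2 := mul_le_mul_of_nonneg_left O1 hγ.le
        rw [hk0]; linarith
      w2 := by
        have u1 := mul_le_mul f4 wb2 (by positivity) Ap
        have u2 := mul_le_mul_of_nonneg_left O2 hγ.le
        rw [hk0]; linarith
      w3 := by
        have u1 := mul_le_mul f4 wb3 (by positivity) Ap
        have u2 := mul_le_mul_of_nonneg_left O3 hγ.le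
        rw [hk0]; linarith
      w4 := by
        have u1 := mul_le_mul (pow_le_pow_left₀ (by positivity) f1 2) wb2 (by positivity)
          (sq_nonneg κ0)
        have u2 := mul_le_mul_of_nonneg_left u1 (by positivity : 0 ≤ 8192 * κ0)
        have u4 : 8192 * κ0 * (k0 ^ 2 * (ω ^ 2 * cb)) * I ^ 2 ≤ γ ^ 2 * I * I ^ 2 := by
          linarith
        have u5 := le_of_mul_le_mul_right u4 (by positivity)
        have e : γ * (γ * I / (8 * κ0) / 4) = γ ^ 2 * I / (32 * κ0) := by field_simp; ring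
        rw [hk0, e, le_div_iff₀ (by positivity)]
        linarith
      hc := by
        have u1 : (Is - μ) / Is * I ≤ I - μ := by
          rw [div_mul_eq_mul_div, div_le_iff₀ hI0]
          linarith [mul_le_mul_of_nonneg_left hI hμ.le]
        have u2 := pow_le_pow_left₀ (by positivity) u1 2
        have u3 := mul_le_mul_of_nonneg_left u2 hγ.le
        have u4 := mul_le_mul_of_nonneg_left f3 (sq_nonneg ((Is - μ) / Is))
        linarith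
      κ0 := hκ
      κ1 := by linarith
      hA := by
        have u2 := mul_le_mul f2 hσ1 (by linarith) hp1.le
        have u3 : a * (k0 * (1 - 1 / (1 + σ))) ≤ 1 * (γ / 16) :=
          mul_le_mul ha1 (by linarith) (mul_nonneg k0p.le (by linarith)) zero_le_one
        have u4 : a * (k0 * ϱ) = a * (1 / (I - μ) - k0) := by rw [eρ]
        rw [eks, hk0]; linarith
      hA0 := by
        have u1 := mul_nonneg k0p.le ρ0
        rw [eρ] at u1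
        have u2 := mul_nonneg ha.le u1
        have u3 := mul_le_mul_of_nonneg_right ha1 k0p.le
        rw [eks, hk0]; linarith }

theorem core (hF : FieldsStmt) : CoreStmt := by
  intro a μ q Is η₁ τ₀ bb C0 ha ha1 hq hqμ hIs hη hτ hbb hC0
  have hsq := Real.sqrt_nonneg (μ ^ 2 - q ^ 2)
  have hμI : μ < Is := by linarith
  have hμ : 0 < μ := by linarith
  have hI0 : 0 < Is := by linarith
  have hρ : 0 < Is * (Is - μ) - (μ * Is - q ^ 2) := by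
    have h1 : Real.sqrt (μ ^ 2 - q ^ 2) ^ 2 = μ ^ 2 - q ^ 2 := Real.sq_sqrt (by nlinarith)
    have h2 : Real.sqrt (μ ^ 2 - q ^ 2) ^ 2 < (Is - μ) ^ 2 := by gcongr; linarith
    nlinarith
  have hd0 : 0 < Is ^ 2 - q ^ 2 := by nlinarith
  have hh0 : 0 < Is - μ := by linarith
  obtain ⟨κ0, hκ0⟩ : ∃ κ0, κ0 = Is ^ 2 / (Is ^ 2 - q ^ 2) := ⟨_, rfl⟩
  have κ0_one : 1 ≤ κ0 := by rw [hκ0, le_div_iff₀ hd0]; linarith [sq_nonneg q]
  obtain ⟨g0, hg0⟩ : ∃ g0, g0 = η₁ * Real.sqrt Is := ⟨_, rfl⟩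
  have g0_pos : 0 < g0 := hg0 ▸ mul_pos hη (Real.sqrt_pos.2 hI0)
  obtain ⟨c0, hc0⟩ : ∃ c0, c0 = ((Is - μ) / Is) ^ 2 * g0 / 20 := ⟨_, rfl⟩
  have c0_pos : 0 < c0 := by rw [hc0]; positivity
  obtain ⟨o1, o1p, O1⟩ := exists_small (κ0 ^ 2 / g0 * bb) (1 / 64) (by norm_num)
  obtain ⟨o2, o2p, O2⟩ := exists_small (64 * (κ0 ^ 2 / g0) * bb) τ₀ hτ
  obtain ⟨o3, o3p, O3⟩ := exists_small (8 * (κ0 ^ 2 / g0) * bb ^ 2) c0 c0_pos
  obtain ⟨o4, o4p, O4⟩ := exists_small (8192 * κ0 ^ 3 * bb) (η₁ ^ 2) (by positivity)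
  refine ⟨min (min 1 (τ₀ / 4)) (min (min o1 o2) (min o3 o4)), by positivity, c0, c0_pos, ?_⟩
  intro Ib CZ Λb hCZ
  obtain ⟨γ0, hγ0⟩ : ∃ γ0, γ0 = g0 / (Ib ^ 2 + 1) := ⟨_, rfl⟩
  have γ0_pos : 0 < γ0 := by rw [hγ0]; positivity
  obtain ⟨σ1, σ1p, S1⟩ := exists_small (μ * Is - q ^ 2) _ hρ
  obtain ⟨σ2, σ2p, S2⟩ := exists_small (κ0 / Is) (γ0 / 16) (by positivity)
  obtain ⟨σ, σp, σa, σb⟩ : ∃ σ, 0 < σ ∧ σ ≤ σ1 ∧ σ ≤ σ2 :=
    ⟨min σ1 σ2, lt_min σ1p σ2p, min_le_left _ _, min_le_right _ _⟩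
  have hs0 : (1 + σ) * (μ * Is - q ^ 2) ≤ Is * (Is - μ) := by linarith [S1 σ σp.le σa]
  obtain ⟨Γ, hΓ0, hΓ⟩ := hF μ q Is (1 + σ) hq hqμ hμI (by linarith) hs0
  obtain ⟨m, mp, hm⟩ : ∃ m, 0 < m ∧
      m ≤ min (min γ0 (γ0 * Is / (8 * κ0) / 2)) (min 1 (min (τ₀ / 4) c0)) :=
    ⟨_, by positivity, le_rfl⟩
  simp only [le_min_iff] at hm
  obtain ⟨⟨m1, m2⟩, m3, m4, m5⟩ := hm
  have hp1 : 0 < κ0 / Is := by positivity
  have hp2 : 0 < 1 / (Is - μ) := by positivity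
  have hp3 : 0 < 1 / Is := by positivity
  obtain ⟨K, hK⟩ : ∃ K, K = 1 + 2 * |Ib| + Λb ^ 2 + C0 + CZ + Γ + bb
    + (4 * (κ0 / Is) + 2 * (1 / (Is - μ)) + 1 / Is) := ⟨_, rfl⟩
  have hIb := abs_nonneg Ib
  have hΛb := sq_nonneg Λb
  obtain ⟨s1, s1p, T1⟩ := exists_small (1200 * K ^ 8) m mp
  refine ⟨(min s1 (1 / 2)) ^ 4, by positivity, fun ε hε hε0 => ⟨ε ^ 3, by positivity, ?_⟩⟩
  obtain ⟨s, sp, rfl⟩ : ∃ s : ℝ, 0 < s ∧ ε = s ^ 4 := by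
    refine ⟨Real.sqrt (Real.sqrt ε), Real.sqrt_pos.2 (Real.sqrt_pos.2 hε), ?_⟩
    rw [show (4 : ℕ) = 2 * 2 from rfl, pow_mul, Real.sq_sqrt (Real.sqrt_nonneg _),
      Real.sq_sqrt hε.le]
  have hs : s ≤ min s1 (1 / 2) := (pow_le_pow_iff_left₀ sp.le (by positivity) (by norm_num)).1 hε0
  intro X _ V _ _ ν 𝒟 ω nk pr c γ hω0 hω hI hIb' hΛ hdσ hSob hvol hb hγ hηγ hγI hStab
  simp only [le_min_iff] at hω hs
  obtain ⟨⟨ω1, ωτ⟩, ⟨ωa, ωb⟩, ωc, ωd⟩ := hω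
  have hW := nk.wok
  have hε8 : s ^ 4 ≤ 1 / 16 := (pow_le_pow_left₀ sp.le hs.2 4).trans (by norm_num)
  have IK : 2 * c.I ≤ K := by linarith [le_abs_self Ib]
  have cbb0 : 0 ≤ c.bb := integral_nonneg fun x => mul_nonneg (nk.W_nonneg x) (sq_nonneg _)
  have cbb : c.bb ≤ bb := hb
  have sc : c.Sc K :=
    { s_pos := sp
      s_le := hs.2
      K1 := by linarith
      Φ_le := by
        have h1 := c.Φ_le hε hW
        have h2 := mul_le_mul_of_nonneg_right hε8 (c.Φ_nonneg hε hW)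
        linarith
      Λ2 := by
        have := pow_le_pow_left₀ c.Λ_pos.le hΛ 2
        linarith
      Λ1 := by
        have := pow_le_pow_left₀ c.Λ_pos.le hΛ 2
        linarith [sq_nonneg (c.Λ - 1), sq_nonneg c.Λ]
      C0_le := by linarith
      C0_nonneg := by linarith
      sob := fun hz => (hSob hz).trans (mul_le_mul_of_nonneg_right (by linarith)
        (integral_nonneg fun _ => sq_nonneg _))
      vol := hvol.trans (by linarith)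
      bb := by linarith
      dσ := hdσ }
  obtain ⟨f1, f3, f5⟩ := basic_facts hq (hqμ.trans hμI) hI hIb' hγ hηγ
  rw [← hκ0] at f1
  rw [← hg0] at f3 f5
  rw [← hγ0] at f5
  have n := num_of (K := K) ha ha1 hq hqμ hμI hI hγ hηγ hγI κ0_one g0_pos hc0 f1 f3 f5 cbb0 cbb
    hω0 ω1 ωτ (O1 ω hω0 ωa) (O2 ω hω0 ωb) (O3 ω hω0 ωc) (O4 ω hω0 ωd) σp hs0 (S2 σ σp.le σb)
    mp m1 m2 m3 m4 m5 (T1 s sp.le hs.1) (by linarith) (by linarith)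
  obtain ⟨F⟩ := hΓ c.I hI
  have hΓK : Γ ≤ K := by linarith
  refine ⟨c.βf F.α₁ F.γ₁, c.βf F.α₂ F.γ₂, c.βf2 (Crit.cont_of F.hα₁) (Crit.cont_of F.hγ₁),
    c.βf2 (Crit.cont_of F.hα₂) (Crit.cont_of F.hγ₂), c.βf_vanish F, ?_,
    (2 * (2 + 8 * (C0 / s ^ 4)) + 288 * Γ ^ 2) * (2 / m), ?_⟩
  · intro t Y₁ Y₂ G₁ G₂ ht hP
    exact sc.H1 ⟨t, Y₁, Y₂, G₁, G₂, hP, ht⟩ n hStab F hΓK
  · intro Y₁ Y₂ G₁ G₂ hP
    have := sc.H0 ⟨0, Y₁, Y₂, G₁, G₂, hP, Or.inl rfl⟩ n hStab F rfl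
    rwa [← c.Kf_zero _ a (c.βf F.α₁ F.γ₁) (c.βf F.α₂ F.γ₂)] at this

end Crest.Agent.N346.P2
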