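import Crest.Agent.N346.P2.ConcD
import Crest.Agent.R335.KRellich

/-! Row 346, P2h (helper66): Rellich (`rel : RelStmt`) and compactness in the Dirichlet class
(`cpt`). -/

set_option autoImplicit false
open MeasureTheory Filter Topology Set Metric
open scoped ENNReal InnerProductSpace
open Crest.GeometryTopology.CoordMetric
open Crest.MathPhysics.ExteriorData

noncomputable section
namespace Crest.Agent.N346.P2
open Crest.Agent.N346.Bs

variable {n : ℕ}

/-- a positive `C¹` weight in `L²` whose logarithm is Lipschitz -/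
theorem exists_weight (hn : 0 < n) : ∃ s : E n → ℝ, ContDiff ℝ 1 s ∧ (∀ x, 0 < s x) ∧
    (∀ x, s x ≤ 1) ∧ MemLp s 2 volume ∧ ∀ x, ‖fderiv ℝ s x‖ ≤ n * s x := by
  have hp : ∀ x : E n, 0 < 1 + ‖x‖ ^ 2 := fun x => by positivity
  have hn' : (0 : ℝ) < n := by exact_mod_cast hn
  have hc : ContDiff ℝ 1 fun x : E n => (1 + ‖x‖ ^ 2) ^ (-(n : ℝ)) :=
    (contDiff_const.add (contDiff_norm_sq ℝ)).rpow_const_of_ne fun x => (hp x).ne'
  refine ⟨_, hc, fun x => Real.rpow_pos_of_pos (hp x) _, fun x =>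
    Real.rpow_le_one_of_one_le_of_nonpos (by nlinarith [sq_nonneg ‖x‖]) (by linarith), ?_,
    fun x => ?_⟩
  · rw [memLp_two_iff_integrable_sq hc.continuous.aestronglyMeasurable]
    refine (integrable_rpow_neg_one_add_norm_sq (E := E n) (μ := volume) (r := 4 * n)
      (by rw [finrank_euclideanSpace_fin]; linarith)).congr (.of_forall fun x => ?_)
    simp only
    rw [← Real.rpow_natCast (_ ^ (-(n : ℝ))) 2, ← Real.rpow_mul (hp x).le]
    congr 1
    push_cast
    ring
  · have h1 := ((hasStrictFDerivAt_norm_sq x).hasFDerivAt.const_add 1).rpow_const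
      (p := -(n : ℝ)) (Or.inl (hp x).ne')
    rw [h1.fderiv, norm_smul, two_smul, Real.norm_eq_abs, abs_mul, abs_neg, abs_of_pos hn',
      abs_of_pos (Real.rpow_pos_of_pos (hp x) _), Real.rpow_sub_one (hp x).ne', mul_assoc]
    refine mul_le_mul_of_nonneg_left ?_ hn'.le
    rw [div_mul_eq_mul_div, div_le_iff₀ (hp x)]
    refine mul_le_mul_of_nonneg_left ((norm_add_le _ _).trans ?_) (Real.rpow_pos_of_pos (hp x) _).le
    rw [innerSL_apply_norm]
    nlinarith [sq_nonneg (‖x‖ - 1)]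

/-- Rellich for bounded `C¹_c` functions with bounded Dirichlet energy -/
theorem rel_flat (hn : 0 < n) {v : ℕ → E n → ℝ} (h1 : ∀ j, ContDiff ℝ 1 (v j))
    (h2 : ∀ j, HasCompactSupport (v j)) {M C : ℝ} (hM : ∀ j x, |v j x| ≤ M)
    (hC : ∀ j, ∫ x, ‖fderiv ℝ (v j) x‖ ^ 2 ≤ C) :
    ∃ (φ : ℕ → ℕ) (w : E n → ℝ), StrictMono φ ∧
      ∀ᵐ x, Tendsto (fun j => v (φ j) x) atTop (𝓝 (w x)) := by
  obtain ⟨s, s1, s0, sle, sm, sd⟩ := exists_weight hn
  have hM0 : 0 ≤ M := (abs_nonneg _).trans (hM 0 0)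
  have f1 : ∀ j, ContDiff ℝ 1 fun x => s x * v j x := fun j => s1.mul (h1 j)
  have f2 : ∀ j, HasCompactSupport fun x => s x * v j x := fun j => (h2 j).mul_left
  have hg : ∀ j, MemLp (R335.gr fun x => s x * v j x) 2 volume := fun j =>
    Continuous.memLp_of_hasCompactSupport ((PiLp.continuous_toLp 2 _).comp
      (continuous_pi fun i => continuous_pd (f1 j) i)) (R335.hasCompactSupport_gr (f2 j))
  have hH : ∀ j, R335.H1 (fun x => s x * v j x) (R335.gr fun x => s x * v j x) := fun j =>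
    ⟨(f1 j).continuous.memLp_of_hasCompactSupport (f2 j), hg j,
      R335.WG.of_contDiffOn isOpen_univ (f1 j).contDiffOn⟩
  have hi : ∀ j, Integrable fun x => ‖fderiv ℝ (v j) x‖ ^ 2 := fun j =>
    (((h1 j).continuous_fderiv one_ne_zero).memLp_of_hasCompactSupport (p := 2)
      ((h2 j).fderiv ℝ)).norm.integrable_sq
  obtain ⟨f, g, hf, ht, -⟩ := R335.exists_limit hH (s := fun x => M * s x) (sm.const_mul M)
    (fun j => .of_forall fun x => by
      rw [abs_mul, abs_of_pos (s0 x), mul_comm]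
      exact mul_le_mul_of_nonneg_right (hM j x) (s0 x).le)
    (C := 2 * C + 2 * (M * n) ^ 2 * ∫ x, s x ^ 2) fun j => by
      refine (integral_mono (hg j).norm.integrable_sq (((hi j).const_mul 2).add
        (sm.integrable_sq.const_mul (2 * (M * n) ^ 2))) fun x => ?_).trans ?_
      · have e : ‖R335.gr (fun x => s x * v j x) x‖ = ‖fderiv ℝ (fun x => s x * v j x) x‖ :=
          norm_euclidGrad _ x
        have h3 : ‖fderiv ℝ (fun x => s x * v j x) x‖ ≤ ‖fderiv ℝ (v j) x‖ + M * n * s x := by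
          rw [fderiv_fun_mul (s1.differentiable one_ne_zero x) ((h1 j).differentiable one_ne_zero x)]
          refine (norm_add_le _ _).trans (add_le_add ?_ ?_)
          · rw [norm_smul, Real.norm_of_nonneg (s0 x).le]
            exact mul_le_of_le_one_left (norm_nonneg _) (sle x)
          · rw [norm_smul, mul_assoc]
            exact mul_le_mul (hM j x) (sd x) (norm_nonneg _) hM0
        have h4 := pow_le_pow_left₀ (norm_nonneg _) h3 2
        simp only [e, Pi.add_apply]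
        nlinarith [sq_nonneg (‖fderiv ℝ (v j) x‖ - M * n * s x)]
      · simp only [Pi.add_apply]
        rw [integral_add ((hi j).const_mul 2) (sm.integrable_sq.const_mul _), integral_const_mul,
          integral_const_mul]
        linarith [hC j]
  have ht' : Tendsto (fun j => (hH j).memf.toLp _) (hyperfilter ℕ : Filter ℕ)
      (𝓝 (hf.memf.toLp f)) := by
    rw [tendsto_iff_norm_sub_tendsto_zero]
    have := ht.sqrt
    rw [Real.sqrt_zero] at this
    refine this.congr fun j => ?_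
    rw [← MemLp.toLp_sub, ← Real.sqrt_sq (norm_nonneg (MemLp.toLp _ _)), L2T.norm_toLp_sq]
    simp
  obtain ⟨θ, hθ, hθ'⟩ := subseq_tendsto_of_neBot (f := 𝓝 (hf.memf.toLp f))
    (u := fun j => (hH j).memf.toLp _)
    (NeBot.mono inferInstance (le_inf ht' (map_mono Nat.hyperfilter_le_atTop)))
  obtain ⟨ψ, hψ, hψ'⟩ := (tendstoInMeasure_of_tendsto_eLpNorm two_ne_zero
    (fun j => (hH (θ j)).memf.1) hf.memf.1
    (L2T.of_toLp (fun j => (hH (θ j)).memf) hf.memf hθ')).exists_seq_tendsto_ae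
  refine ⟨θ ∘ ψ, fun x => f x / s x, hθ.comp hψ, hψ'.mono fun x hx => ?_⟩
  refine (hx.div_const (s x)).congr fun j => ?_
  rw [mul_div_cancel_left₀ _ (s0 x).ne']
  rfl

theorem rel : RelStmt := by
  intro n hn g F h u G M hu h01 hM
  choose a a1 a2 a3 a4 a5 using fun k => (hu k).approx_bdd h zero_le_one fun x =>
    abs_le.2 ⟨by linarith [(h01 k x).1], by linarith [(h01 k x).2]⟩
  obtain ⟨J, hJ, hJ'⟩ := exists_diag_ae (ν := nu g) (v := fun k j x => a k j x - (u k x - 1))
    (w := fun _ _ => 0) (w0 := fun _ => 0)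
    (fun k j => (a1 k j).continuous.aestronglyMeasurable.sub
      ((hu k).meas.sub_const 1).aestronglyMeasurable)
    (fun k => (a4 k).mono fun x hx => tendsto_sub_nhds_zero_iff.2 hx)
    (.of_forall fun _ => tendsto_const_nhds)
    (P := fun k j => ∫ x, ‖fgrad F (a k j) x‖ ^ 2 ∂(nu g) ≤ M + 1)
    fun k => ((a5 k).tendsto_normSq (fun j => h.memLp_fgrad (a1 k j) (a2 k j) 2)
      (hu k).memG).eventually (ge_mem_nhds (by linarith [hM k]))
  obtain ⟨K, hK1, hK⟩ := h.exists_grad_bd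
  obtain ⟨L, hL1, hL⟩ := h.exists_vol_bd
  obtain ⟨φ, w, hφ, hw⟩ := rel_flat (by omega) (fun k => a1 k (J k)) (fun k => a2 k (J k))
    (fun k => a3 k (J k)) (C := K ^ 2 * L * (M + 1)) fun k => by
      refine le_trans ?_ (mul_le_mul_of_nonneg_left (hJ k) (by positivity))
      rw [integral_nu h.riem, ← integral_const_mul]
      refine integral_mono_of_nonneg (.of_forall fun x => by positivity)
        (((integrable_nu_iff' h.riem _).1
          (h.memLp_fgrad (a1 k _) (a2 k _) 2).norm.integrable_sq).const_mul _)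
        (.of_forall fun x => ?_)
      have h1 := pow_le_pow_left₀ (norm_nonneg _) (hK (a k (J k)) x).2 2
      have h2 : 1 ≤ L * volDensity g x := by
        have := (hL x).1
        rwa [inv_le_iff_one_le_mul₀' (by linarith)] at this
      calc ‖fderiv ℝ (a k (J k)) x‖ ^ 2 ≤ (K * ‖fgrad F (a k (J k)) x‖) ^ 2 * 1 := by
            rwa [mul_one]
        _ ≤ (K * ‖fgrad F (a k (J k)) x‖) ^ 2 * (L * volDensity g x) := by gcongr
        _ = _ := by ring
  obtain ⟨v, mv, hv⟩ := measurable_limit_of_tendsto_metrizable_ae (μ := nu g)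
    (f := fun j => u (φ j)) (L := atTop) (fun j => (hu _).meas.aemeasurable) (by
      filter_upwards [(ae_nu_iff h.riem).2 hw, hJ'] with x h1 h2
      refine ⟨w x - 0 + 1, ((h1.sub (h2.comp hφ.tendsto_atTop)).add_const 1).congr fun j => ?_⟩
      simp)
  refine ⟨φ, fun x => max 0 (min (v x) 1), hφ, measurable_const.max (mv.min measurable_const),
    fun x => ⟨le_max_left _ _, max_le zero_le_one (min_le_right _ _)⟩, hv.mono fun x hx => ?_⟩
  have := isClosed_Icc.mem_of_tendsto hx (.of_forall fun j => h01 (φ j) x)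
  simpa only [min_eq_left this.2, max_eq_right this.1] using hx

/-- Mazur's lemma -/
theorem mem_closure_of_weak {H : Type*} [NormedAddCommGroup H] [InnerProductSpace ℝ H]
    [CompleteSpace H] {x : ℕ → H} {y : H}
    (hw : ∀ Φ, Tendsto (fun j => ⟪x j, Φ⟫_ℝ) (hyperfilter ℕ : Filter ℕ) (𝓝 ⟪y, Φ⟫_ℝ))
    {K : Set H} (hK : Convex ℝ K) (hx : ∀ᶠ j in atTop, x j ∈ K) : y ∈ _root_.closure K := by
  by_contra hy
  obtain ⟨f, c, h1, h2⟩ := geometric_hahn_banach_point_closed hK.closure isClosed_closure hy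
  have e : ∀ z, ⟪z, (InnerProductSpace.toDual ℝ H).symm f⟫_ℝ = f z := fun z => by
    rw [real_inner_comm, InnerProductSpace.toDual_symm_apply]
  have h3 := hw ((InnerProductSpace.toDual ℝ H).symm f)
  simp only [e] at h3
  exact h1.not_ge (ge_of_tendsto h3 ((hx.filter_mono Nat.hyperfilter_le_atTop).mono
    fun j hj => (h2 _ (subset_closure hj)).le))

theorem cpt : ClassStmt → ClosureStmt → RelStmt → CptStmt := by
  intro _ hcl hrel n hn g F h u G M hu h01 hM
  obtain ⟨L, -, θ, hθ, hL⟩ := (isCompact_Icc (a := (0 : ℝ)) (b := M)).tendsto_subseq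
    (x := fun j => ∫ x, ‖G j x‖ ^ 2 ∂(nu g))
    fun j => ⟨integral_nonneg fun x => by positivity, hM j⟩
  obtain ⟨ψ, v, hψ, mv, v01, hv⟩ := hrel n hn g F h (fun j => u (θ j)) (fun j => G (θ j)) M
    (fun j => hu _) (fun j => h01 _) fun j => hM _
  have hL' := hL.comp hψ.tendsto_atTop
  set X : ℕ → Lp (E n) 2 (nu g) := fun j => (hu (θ (ψ j))).memG.toLp _ with hX
  have hXn : ∀ j, ‖X j‖ ^ 2 = ∫ x, ‖G (θ (ψ j)) x‖ ^ 2 ∂(nu g) := fun j => L2T.norm_toLp_sq _
  obtain ⟨Y, -, hY⟩ := R335.exists_weak_limit X (M := √M) fun j =>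
    Real.le_sqrt_of_sq_le ((hXn j).trans_le (hM _))
  let K : ℕ → Set (Lp (E n) 2 (nu g)) := fun k => {Z | ∃ w, DD g F w 1 Z ∧
    ∀ x, ∀ S : Set ℝ, Convex ℝ S → (∀ j, k ≤ j → u (θ (ψ j)) x ∈ S) → w x ∈ S}
  have hK : ∀ k, Convex ℝ (K k) := by
    rintro k Z ⟨w, hw, hw'⟩ Z' ⟨w', hz, hz'⟩ a b ha hb hab
    refine ⟨fun x => a * w x + b * w' x, ?_, fun x S hS hj => hS (hw' x S hS hj) (hz' x S hS hj)
      ha hb hab⟩
    have := (hw.smul h a).add h (hz.smul h b)
    rw [mul_one, mul_one, hab] at this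
    refine this.congr_G ?_
    filter_upwards [Lp.coeFn_add (a • Z) (b • Z'), Lp.coeFn_smul a Z, Lp.coeFn_smul b Z']
      with x h1 h2 h3
    rw [h1, Pi.add_apply, h2, h3]
    rfl
  have hYK : ∀ k : ℕ, ∃ Z ∈ K k, dist Y Z < 1 / ((k : ℝ) + 1) := fun k =>
    Metric.mem_closure_iff.1 (mem_closure_of_weak hY (hK k) ((eventually_ge_atTop k).mono
      fun j hj => ⟨_, (hu _).congr_G (MemLp.coeFn_toLp _), fun x S _ h => h j hj⟩)) _ (by positivity)
  choose Z hZ hZ' using hYK
  choose w hw hw' using hZ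
  have habs : ∀ t ∈ Icc (0 : ℝ) 1, |t| ≤ 1 := fun t ht => abs_le.2 ⟨by linarith [ht.1], ht.2⟩
  refine ⟨θ ∘ ψ, v, Y, hθ.comp hψ, ?_, v01, hv, fun δ hδ => ?_⟩
  · refine hcl n g F h w (fun k => Z k) 1 1 v Y hw
      (fun k x => habs _ (hw' k x _ (convex_Icc 0 1) fun j _ => h01 _ x)) mv
      (fun x => habs _ (v01 x)) (Lp.memLp Y) (hv.mono fun x hx => ?_) ?_
    · rw [Metric.tendsto_atTop] at hx ⊢
      intro ε hε
      obtain ⟨N, hN⟩ := hx ε hε
      exact ⟨N, fun k hk => hw' k x (ball (v x) ε) (convex_ball _ _) fun j hj => hN j (hk.trans hj)⟩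
    · refine (Lp.tendsto_Lp_iff_tendsto_eLpNorm' Z Y).1 ?_
      rw [tendsto_iff_dist_tendsto_zero]
      refine squeeze_zero (fun _ => dist_nonneg) (fun k => ?_)
        tendsto_one_div_add_atTop_nhds_zero_nat
      rw [dist_comm]
      exact (hZ' k).le
  · have hL0 : 0 ≤ L := ge_of_tendsto' hL fun j => integral_nonneg fun x => by positivity
    have h1 := mem_closure_of_weak hY (convex_closedBall 0 √(L + δ / 2))
      ((hL'.eventually (ge_mem_nhds (show L < L + δ / 2 by linarith))).mono fun j hj =>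
        mem_closedBall_zero_iff.2 (Real.le_sqrt_of_sq_le ((hXn j).trans_le hj)))
    rw [closure_closedBall, mem_closedBall_zero_iff,
      Real.le_sqrt (norm_nonneg _) (by linarith)] at h1
    have h2 := L2T.norm_toLp_sq (Lp.memLp Y)
    rw [Lp.toLp_coeFn] at h2
    filter_upwards [hL'.eventually (le_mem_nhds (show L - δ / 2 < L by linarith))] with j hj
    have h3 : L - δ / 2 ≤ ∫ x, ‖G (θ (ψ j)) x‖ ^ 2 ∂(nu g) := hj
    show _ ≤ ∫ x, ‖G (θ (ψ j)) x‖ ^ 2 ∂(nu g) + δ
    linarith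

theorem cpt' : CptStmt := cpt classStmt closure rel

end Crest.Agent.N346.P2

end
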