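import Crest.Agent.N346.P2.Conc
import Crest.Agent.N346.P2.Basic
import Crest.Agent.N346.Basic2

/-! Row 346, P2: `cut : CutStmt` (helper14). -/

set_option autoImplicit false
open MeasureTheory Filter Topology Set Matrix
open scoped ContDiff ENNReal Convolution
open Crest.GeometryTopology.CoordMetric
open Crest.MathPhysics.ExteriorData
open Crest.Agent.N346.Bs

noncomputable section
namespace Crest.Agent.N346.P2
namespace Cut

variable {n : ℕ} {g F : MetricField n} {u v : E n → ℝ} {x : E n}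

theorem norm_fg (h : Fr g F) (u : E n → ℝ) (x : E n) : ‖fgrad F u x‖ = √(gradSq g u x) := by
  have h1 : (g x)⁻¹ = ((F x)ᵀ)ᵀ * Matrix.diagonal (fun _ => 1) * (F x)ᵀ := by
    refine inv_eq_left_inv ?_
    rw [diagonal_one, Matrix.mul_one, transpose_transpose, Matrix.mul_assoc]
    exact mul_eq_one_comm.1 (h.orth x)
  rw [← Real.sqrt_sq (norm_nonneg _), norm_sq_eq, gradSq, gradDot_eq, h1, qb_conj]
  simp [fgrad, mulVec, dotProduct]

theorem fg_mul (hu : DifferentiableAt ℝ u x) (hv : DifferentiableAt ℝ v x) :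
    fgrad F (fun y => u y * v y) x = u x • fgrad F v x + v x • fgrad F u x := by
  ext a
  simp only [fgrad, pd_mul hu hv, PiLp.add_apply, PiLp.smul_apply, smul_eq_mul, Finset.mul_sum,
    ← Finset.sum_add_distrib]
  exact Finset.sum_congr rfl fun i _ => by ring

theorem fg_sub (hu : DifferentiableAt ℝ u x) (hv : DifferentiableAt ℝ v x) :
    fgrad F (fun y => u y - v y) x = fgrad F u x - fgrad F v x := by
  ext a
  simp only [fgrad, pd_sub hu hv, PiLp.sub_apply, mul_sub, Finset.sum_sub_distrib]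

theorem fg_const_add (c : ℝ) : fgrad F (fun y => c + u y) x = fgrad F u x := by
  simp only [fgrad, pd_const_add]

theorem fg_of_fderiv (h : fderiv ℝ u x = 0) : fgrad F u x = 0 := by
  ext a; simp [fgrad, pderiv, h]

theorem continuous_fg (h : Fr g F) (hu : ContDiff ℝ 1 u) : Continuous (fgrad F u) :=
  (PiLp.continuous_toLp 2 _).comp (continuous_pi fun a => continuous_finsetSum _ fun i _ =>
    (h.smooth i a).continuous.mul (continuous_pd hu i))

theorem hcs_fg (hu : HasCompactSupport u) : HasCompactSupport (fgrad F u) :=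
  .intro hu fun y hy => by ext a; simp [fgrad, pd_of_notMem hy]

theorem exists_fg_le (h : Fr g F) : ∃ C : ℝ, 0 < C ∧ ∀ u x, ‖fgrad F u x‖ ≤ C * ‖fderiv ℝ u x‖ := by
  obtain ⟨Λ, hΛ, h1, -⟩ := h.bd
  refine ⟨√Λ, by positivity, fun u x => ?_⟩
  rw [norm_fg h, ← Real.sqrt_sq (norm_nonneg (fderiv ℝ u x)), ← Real.sqrt_mul (by positivity)]
  simpa using Real.sqrt_le_sqrt (gradSq_le h.riem (by positivity) (h1 x) u)

theorem locFin (h : Fr g F) : IsLocallyFiniteMeasure (nu g) :=
  IsLocallyFiniteMeasure.withDensity_ofReal (contDiff_volDensity h.riem).continuous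

theorem int_nu (h : Fr g F) (f : E n → ℝ) : ∫ x, f x ∂(nu g) = ∫ x, f x * volDensity g x := by
  rw [nu, integral_withDensity_eq_integral_toReal_smul
    (contDiff_volDensity h.riem).continuous.measurable.ennreal_ofReal (by simp)]
  simp only [ENNReal.toReal_ofReal (volDensity_pos h.riem _).le, smul_eq_mul, mul_comm]

theorem dd_of (h : Fr g F) (hu : ContDiff ℝ 1 u) (hc : HasCompactSupport u) :
    DD g F u 0 (fgrad F u) := by
  have := locFin h
  obtain ⟨M, hM⟩ := hu.continuous.bounded_above_of_compact_support hc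
  exact ⟨hu.continuous.measurable, ⟨M, hM⟩,
    (continuous_fg h hu).memLp_of_hasCompactSupport (hcs_fg hc),
    fun _ => u, M, fun _ => hu, fun _ => hc, fun _ => hM, .of_forall fun _ => by simp, by simp⟩

/-- uniform `C¹` approximation by smooth functions -/
theorem exists_smooth (hu : ContDiff ℝ 1 u) (hc : HasCompactSupport u) {ε : ℝ} (hε : 0 < ε) :
    ∃ w : E n → ℝ, ContDiff ℝ ∞ w ∧ (∀ x, |w x - u x| ≤ ε) ∧
      ∀ x, ‖fderiv ℝ w x - fderiv ℝ u x‖ ≤ ε := by
  have hc' := hu.continuous_fderiv one_ne_zero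
  obtain ⟨δ₁, h₁, H₁⟩ := Metric.uniformContinuous_iff.1
    (hc.uniformContinuous_of_continuous hu.continuous) ε hε
  obtain ⟨δ₂, h₂, H₂⟩ := Metric.uniformContinuous_iff.1
    ((hc.fderiv (𝕜 := ℝ)).uniformContinuous_of_continuous hc') ε hε
  have h₃ : 0 < min δ₁ δ₂ := lt_min h₁ h₂
  let φ : ContDiffBump (0 : E n) := ⟨min δ₁ δ₂ / 2, min δ₁ δ₂, by positivity, by linarith⟩
  refine ⟨φ.normed volume ⋆[ContinuousLinearMap.lsmul ℝ ℝ, volume] u,
    φ.hasCompactSupport_normed.contDiff_convolution_left _ φ.contDiff_normed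
      hu.continuous.locallyIntegrable, fun x => ?_, fun x => ?_⟩
  · exact φ.dist_normed_convolution_le hu.continuous.aestronglyMeasurable fun y hy =>
      (H₁ (hy.trans_le (min_le_left _ _))).le
  · rw [(hc.hasFDerivAt_convolution_right _ φ.continuous_normed.locallyIntegrable hu x).fderiv,
      ← dist_eq_norm]
    exact φ.dist_normed_convolution_le hc'.aestronglyMeasurable fun y hy =>
      (H₂ (hy.trans_le (min_le_right _ _))).le

end Cut
open Cut

theorem cut : CutStmt := by
  intro n _ g F h d Λ ℓ A hd hdΛ hℓ hA l hl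
  have := locFin h
  obtain ⟨C₁, hC₁, hfg⟩ := exists_fg_le h
  obtain ⟨C₂, hC₂, hη⟩ := exists_eta_grad n
  obtain ⟨R, hR0, hRΛ, hRl⟩ : ∃ R : ℝ, 0 < R ∧ Λ ≤ R ∧ C₁ * C₂ / l ≤ R :=
    ⟨max 1 (max Λ (C₁ * C₂ / l)), by positivity, by simp, by simp⟩
  have hb : ∀ r, R ≤ r → ∀ x, ‖fgrad F (eta r) x‖ ≤ l := fun r hr x => by
    refine (hfg _ x).trans ((mul_le_mul_of_nonneg_left (hη r (by linarith) x) hC₁.le).trans ?_)
    rw [← mul_div_assoc, div_le_iff₀ (by linarith), mul_comm l, ← div_le_iff₀ hl]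
    linarith
  have hR2 : 0 < 2 * R := by positivity
  have e1 := fun r => smooth_one (contDiff_eta (n := n) r)
  have c2 := hasCompactSupport_eta (n := n) hR2
  refine ⟨eta (2 * R), fgrad F (eta (2 * R)), eta R, fgrad F (eta R), dd_of h (e1 _) c2,
    fun x => ⟨eta_nonneg _ x, eta_le_one _ x⟩, (e1 _).continuous.integrable_of_hasCompactSupport c2,
    (continuous_fg h (e1 _)).integrable_of_hasCompactSupport (hcs_fg c2), hb _ (by linarith),
    dd_of h (e1 _) (hasCompactSupport_eta hR0), fun x => ⟨eta_nonneg _ x, eta_le_one _ x⟩,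
    hb _ le_rfl, fun x hx => eta_eq_one hR2 (not_lt.1 fun h => hx (eta_eq_zero hR0 h.le)),
    fun x hx => ?_, fun φ G hφ _ hφ0 hφ1 hG => ?_⟩
  · have := (mem_closedBall_zero_iff.1 hx).trans hRΛ
    exact ⟨eta_eq_one hR0 this, fg_of_fderiv (fderiv_eta_of_le hR0 this)⟩
  obtain ⟨v, M, hv1, hvc, hvM, hvφ, hvG⟩ := hφ.approx
  choose w hw hwv hwv' using fun j : ℕ => exists_smooth (hv1 j) (hvc j) (Nat.one_div_pos_of_nat (n := j))
  set z : E n → ℝ := fun x => 1 - Real.smoothTransition (2 * (d x - ℓ) + 1) with hz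
  have hzs : ContDiff ℝ ∞ z := contDiff_const.sub (Real.smoothTransition.contDiff.comp
    ((contDiff_const.mul (hd.sub contDiff_const)).add contDiff_const))
  have hz0 : ∀ x, 0 ≤ z x := fun x => sub_nonneg.2 (Real.smoothTransition.le_one _)
  have hz1 : ∀ x, z x ≤ 1 := fun x => sub_le_self _ (Real.smoothTransition.nonneg _)
  have hz2 : ∀ x, d x ≤ ℓ - 1 / 2 → z x = 1 := fun x hx => by
    simp only [hz, Real.smoothTransition.zero_of_nonpos (show 2 * (d x - ℓ) + 1 ≤ 0 by linarith),
      sub_zero]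
  have hz3 : ∀ x, d x ≤ ℓ - 1 / 2 → fgrad F z x = 0 := fun x hx =>
    fg_of_fderiv (IsLocalMax.fderiv_eq_zero (.of_forall fun y => (hz1 y).trans (hz2 x hx).ge))
  have hz4 : HasCompactSupport (fgrad F z) :=
    .intro (isCompact_closedBall 0 Λ) fun y hy => hz3 y (by
      rw [hdΛ y (le_of_lt (by simpa using hy))]; linarith)
  set σ : E n → ℝ := eta (2 * R) with hσ
  have hσs : ContDiff ℝ ∞ σ := contDiff_eta _
  have iσ : Integrable σ (nu g) := hσs.continuous.integrable_of_hasCompactSupport c2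
  have i1 : Integrable (fun x => ‖fgrad F σ x‖) (nu g) :=
    ((continuous_fg h (e1 _)).integrable_of_hasCompactSupport (hcs_fg c2)).norm
  have i2 : Integrable (fun x => ‖fgrad F z x‖) (nu g) :=
    ((continuous_fg h (smooth_one hzs)).integrable_of_hasCompactSupport hz4).norm
  set T : ℕ → E n → ℝ := fun j x =>
    ‖(z x * w j x) • fgrad F σ x + (1 + σ x * w j x) • fgrad F z x‖ with hT
  have hTc : ∀ j, Continuous (T j) := fun j =>
    (((hzs.continuous.mul (hw j).continuous).smul (continuous_fg h (e1 _))).add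
      ((continuous_const.add (hσs.continuous.mul (hw j).continuous)).smul
        (continuous_fg h (smooth_one hzs)))).norm
  have hwM : ∀ j x, |w j x| ≤ M + 1 := fun j x => by
    have h1 : 1 / ((j : ℝ) + 1) ≤ 1 := (div_le_one (by positivity)).2 (by simp)
    linarith [abs_sub_abs_le_abs_sub (w j x) (v j x), hwv j x, hvM j x]
  have hTb : ∀ j x, T j x ≤ (M + 1) * ‖fgrad F σ x‖ + (1 + (M + 1)) * ‖fgrad F z x‖ := fun j x => by
    refine (norm_add_le _ _).trans ?_
    rw [norm_smul, norm_smul]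
    gcongr
    · rw [norm_mul, Real.norm_of_nonneg (hz0 x)]
      exact (mul_le_of_le_one_left (norm_nonneg _) (hz1 x)).trans (hwM j x)
    · refine (norm_add_le _ _).trans (add_le_add (by simp) ?_)
      rw [norm_mul, Real.norm_of_nonneg (eta_nonneg _ x)]
      exact (mul_le_of_le_one_left (norm_nonneg _) (eta_le_one _ x)).trans (hwM j x)
  have iT := (i1.const_mul (M + 1)).add (i2.const_mul (1 + (M + 1)))
  have hT0 : Tendsto (fun j => ∫ x, T j x ∂(nu g)) atTop (𝓝 0) := by
    rw [← integral_zero (E n) ℝ (μ := nu g)]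
    refine tendsto_integral_of_dominated_convergence _ (fun j => (hTc j).aestronglyMeasurable) iT
      (fun j => .of_forall fun x => (Real.norm_of_nonneg (norm_nonneg _)).trans_le (hTb j x))
      (hvφ.mono fun x hx => ?_)
    have h1 : Tendsto (fun j => w j x) atTop (𝓝 (φ x - 1)) := by
      have := (squeeze_zero_norm (fun j => hwv j x) tendsto_one_div_add_atTop_nhds_zero_nat).add hx
      simpa using this
    have h2 := (((h1.const_mul (z x)).smul_const (fgrad F σ x)).add
      (((h1.const_mul (σ x)).const_add 1).smul_const (fgrad F z x))).norm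
    convert h2 using 2
    symm
    rw [norm_eq_zero]
    have h3 : (z x * (φ x - 1)) • fgrad F σ x = 0 := by
      rcases le_total ‖x‖ (2 * R) with h3 | h3
      · rw [fg_of_fderiv (fderiv_eta_of_le hR2 h3), smul_zero]
      · rw [hφ1 x (eta_eq_zero hR0 h3), sub_self, mul_zero, zero_smul]
    have h4 : (1 + σ x * (φ x - 1)) • fgrad F z x = 0 := by
      rcases le_total (d x) (ℓ - 1 / 2) with h4 | h4
      · rw [hz3 x h4, smul_zero]
      · have h5 : ‖x‖ ≤ 2 * R := by
          by_contra h5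
          rw [hdΛ x (by linarith)] at h4
          linarith
        rw [hφ0 x h4, hσ, eta_eq_one hR2 h5]; simp
    rw [h3, h4, add_zero]
  have hσ2 : MemLp σ 2 (nu g) := hσs.continuous.memLp_of_hasCompactSupport c2
  have hv2 : ∀ j, MemLp (fun x => fgrad F (v j) x - G x) 2 (nu g) := fun j =>
    ((continuous_fg h (hv1 j)).memLp_of_hasCompactSupport (hcs_fg (hvc j))).sub hφ.memG
  have iS : ∀ j, Integrable (fun x => σ x * ‖fgrad F (v j) x - G x‖) (nu g) := fun j =>
    hσ2.integrable_mul (hv2 j).norm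
  have hS0 : Tendsto (fun j => ∫ x, σ x * ‖fgrad F (v j) x - G x‖ ∂(nu g)) atTop (𝓝 0) := by
    refine tendsto_integral_of_L1' (f := fun _ => (0 : ℝ)) aestronglyMeasurable_const
      (.of_forall iS) ?_ |>.trans (by simp)
    refine tendsto_of_tendsto_of_tendsto_of_le_of_le tendsto_const_nhds
      (h := fun j => eLpNorm σ 2 (nu g) * eLpNorm (fun x => fgrad F (v j) x - G x) 2 (nu g))
      (by simpa using ENNReal.Tendsto.const_mul hvG (Or.inr hσ2.eLpNorm_ne_top))
      (fun _ => zero_le) fun j => ?_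
    have := eLpNorm_smul_le_mul_eLpNorm (p := 2) (q := 2) (r := 1) (hv2 j).norm.1 hσ2.1
    rw [eLpNorm_norm] at this
    exact le_trans (le_of_eq (by congr 1; ext x; simp)) this
  have hlim := ((hS0.add hT0).add
    (tendsto_one_div_add_atTop_nhds_zero_nat.mul_const (C₁ * ∫ x, σ x ∂(nu g)))).const_add
    (∫ x, ‖G x‖ ∂(nu g))
  simp only [add_zero, zero_mul] at hlim
  refine ge_of_tendsto' hlim fun j => ?_
  have h1 := hA (fun x => z x * (1 + σ x * w j x))
    (hzs.mul (contDiff_const.add (hσs.mul (hw j))))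
    (fun x hx => by
      simp [hz, Real.smoothTransition.one_of_one_le
        (show 1 ≤ 2 * (d x - ℓ) + 1 by linarith [show ℓ ≤ d x from hx])])
    ⟨2 * (2 * R), fun x hx => by
      rw [hz2 x (by rw [hdΛ x (by linarith)]; linarith), hσ, eta_eq_zero hR2 hx]; simp⟩
  simp only [← norm_fg h, ← int_nu h] at h1
  refine h1.trans ?_
  have iTj : Integrable (T j) (nu g) := iT.mono' (hTc j).aestronglyMeasurable
    (.of_forall fun x => (Real.norm_of_nonneg (norm_nonneg _)).trans_le (hTb j x))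
  have hI := (HI.of hG.norm).add (((HI.of (iS j)).add (HI.of iTj)).add
    (((HI.of iσ).cmul C₁).cmul (1 / ((j : ℝ) + 1))))
  refine le_trans (integral_mono_of_nonneg (.of_forall fun x => norm_nonneg _) hI.1
    (.of_forall fun x => ?_)) hI.2.le
  have d1 := smooth_diff hzs x
  have d2 := smooth_diff hσs x
  have d3 := smooth_diff (hw j) x
  have d4 := (hv1 j).differentiable one_ne_zero x
  have h2 : ‖fgrad F (w j) x - fgrad F (v j) x‖ ≤ C₁ * (1 / ((j : ℝ) + 1)) := by
    rw [← fg_sub d3 d4]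
    refine (hfg _ x).trans (mul_le_mul_of_nonneg_left ?_ hC₁.le)
    rw [fderiv_fun_sub d3 d4]; exact hwv' j x
  have h3 : ‖fgrad F (w j) x‖ ≤ ‖G x‖ + ‖fgrad F (v j) x - G x‖ + C₁ * (1 / ((j : ℝ) + 1)) := by
    linarith [norm_le_insert' (fgrad F (w j) x) (fgrad F (v j) x),
      norm_le_insert' (fgrad F (v j) x) (G x)]
  have h4 := eta_nonneg (2 * R) x
  have h5 := eta_le_one (2 * R) x
  dsimp only
  rw [fg_mul d1 ((d2.fun_mul d3).const_add 1), fg_const_add, fg_mul d2 d3, smul_add, add_assoc,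
    smul_smul, smul_smul]
  refine (norm_add_le _ _).trans ?_
  rw [norm_smul, Real.norm_of_nonneg (mul_nonneg (hz0 x) h4)]
  have h6 : z x * σ x * ‖fgrad F (w j) x‖ ≤ σ x * ‖fgrad F (w j) x‖ := by
    rw [mul_assoc]; exact mul_le_of_le_one_left (by positivity) (hz1 x)
  nlinarith [mul_le_mul_of_nonneg_left h3 h4, mul_le_of_le_one_left (norm_nonneg (G x)) h5]

end Crest.Agent.N346.P2
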