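import Crest.Agent.N346.P2.Abs

/-! Row 346, P2b: the explicit coefficient functions (helper20). -/

set_option autoImplicit false
open Set

noncomputable section
namespace Crest.Agent.N346.P2
namespace Fld

/-- `j(s) = √(T² s² + 1 - T²)` -/
def jj (T s : ℝ) : ℝ := Real.sqrt (T ^ 2 * s ^ 2 + 1 - T ^ 2)

def A0 (α γ : ℝ → ℝ) (s : ℝ) : ℝ := 1 - γ s * s - α s ^ 2
def dα (T : ℝ) (α γ : ℝ → ℝ) (s : ℝ) : ℝ := 2 * A0 α γ s * T / jj T s - 2 * α s * γ s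
def dγ (T : ℝ) (α γ : ℝ → ℝ) (s : ℝ) : ℝ := -γ s ^ 2 - A0 α γ s * T ^ 2 / jj T s ^ 2

variable {T : ℝ}

theorem arg_pos (hT : T ^ 2 < 1) (s : ℝ) : 0 < T ^ 2 * s ^ 2 + 1 - T ^ 2 := by
  nlinarith [mul_nonneg (sq_nonneg T) (sq_nonneg s)]

theorem jj_pos (hT : T ^ 2 < 1) (s : ℝ) : 0 < jj T s := Real.sqrt_pos.2 (arg_pos hT s)

theorem jj_sq (hT : T ^ 2 < 1) (s : ℝ) : jj T s ^ 2 = T ^ 2 * s ^ 2 + 1 - T ^ 2 :=
  Real.sq_sqrt (arg_pos hT s).le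

theorem jj_zero : jj T 0 = Real.sqrt (1 - T ^ 2) := by simp [jj]

theorem jj_one : jj T 1 = 1 := by simp [jj]

theorem le_jj (hT : T ^ 2 < 1) {s : ℝ} (hs : s ∈ Icc (0 : ℝ) 1) : s ≤ jj T s := by
  refine Real.le_sqrt_of_sq_le ?_
  have : s ^ 2 ≤ 1 := pow_le_one₀ hs.1 hs.2
  nlinarith

theorem le_jj' {j₀ : ℝ} (h : j₀ ^ 2 ≤ 1 - T ^ 2) (s : ℝ) : j₀ ≤ jj T s :=
  Real.le_sqrt_of_sq_le (by nlinarith [mul_nonneg (sq_nonneg T) (sq_nonneg s)])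

theorem hasDerivAt_jj (hT : T ^ 2 < 1) (s : ℝ) : HasDerivAt (jj T) (T ^ 2 * s / jj T s) s := by
  have h : HasDerivAt (fun s : ℝ => T ^ 2 * s ^ 2 + 1 - T ^ 2) (T ^ 2 * (2 * s)) s := by
    simpa using (((hasDerivAt_pow 2 s).const_mul (T ^ 2)).add_const 1).sub_const (T ^ 2)
  refine (h.sqrt (arg_pos hT s).ne').congr_deriv ?_
  rw [jj]; field_simp

/-- a solution of the Riccati system with `A0 ≥ 0` -/
structure Sol (T : ℝ) (α γ : ℝ → ℝ) : Prop where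
  hα : ∀ s ∈ Icc (0 : ℝ) 1, HasDerivAt α (dα T α γ s) s
  hγ : ∀ s ∈ Icc (0 : ℝ) 1, HasDerivAt γ (dγ T α γ s) s
  pos : ∀ s ∈ Icc (0 : ℝ) 1, 0 ≤ A0 α γ s

namespace Sol
variable {α γ : ℝ → ℝ}

theorem cont (h : Sol T α γ) (hT : T ^ 2 < 1) :
    ContinuousOn (dα T α γ) (Icc 0 1) ∧ ContinuousOn (dγ T α γ) (Icc 0 1) := by
  have h1 : ContinuousOn α (Icc 0 1) := fun s hs => (h.hα s hs).continuousAt.continuousWithinAt
  have h2 : ContinuousOn γ (Icc 0 1) := fun s hs => (h.hγ s hs).continuousAt.continuousWithinAt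
  have h3 : ContinuousOn (jj T) (Icc 0 1) := fun s _ =>
    (hasDerivAt_jj hT s).continuousAt.continuousWithinAt
  have h4 : ContinuousOn (A0 α γ) (Icc 0 1) :=
    (continuousOn_const.sub (h2.mul continuousOn_id)).sub (h1.pow 2)
  exact ⟨(((continuousOn_const.mul h4).mul continuousOn_const).div h3
      fun s _ => (jj_pos hT s).ne').sub ((continuousOn_const.mul h1).mul h2),
    (h2.pow 2).neg.sub ((h4.mul continuousOn_const).div (h3.pow 2)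
      fun s _ => pow_ne_zero 2 (jj_pos hT s).ne')⟩

theorem psd (h : Sol T α γ) : ∀ s ∈ Icc (0 : ℝ) 1, ∀ w E S U : ℝ, 0 ≤ E → E ≤ w → 0 ≤ U →
    S ^ 2 ≤ E * U → 0 ≤ w - (α s ^ 2 * E + 2 * α s * γ s * S + γ s ^ 2 * U) - dα T α γ s * S -
      dγ T α γ s * U - γ s * w * s := by
  intro s hs w E S U hE hw hU hS
  have h0 := h.pos s hs
  set τ := T / jj T s with hτ
  have h1 : 2 * τ * S ≤ E + τ ^ 2 * U :=
    le_of_abs_le (abs_le_of_sq_le_sq (by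
      nlinarith [sq_nonneg (E - τ ^ 2 * U), mul_le_mul_of_nonneg_left hS (sq_nonneg τ)])
      (by positivity))
  have e : w - (α s ^ 2 * E + 2 * α s * γ s * S + γ s ^ 2 * U) - dα T α γ s * S -
      dγ T α γ s * U - γ s * w * s =
      (A0 α γ s + α s ^ 2) * (w - E) + A0 α γ s * (E + τ ^ 2 * U - 2 * τ * S) := by
    rw [hτ, dα, dγ, A0]; ring
  rw [e]
  exact add_nonneg (mul_nonneg (by positivity) (sub_nonneg.2 hw)) (mul_nonneg h0 (sub_nonneg.2 h1))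

theorem lip (h : Sol T α γ) (hT : T ^ 2 < 1) {j₀ G : ℝ} (hj : 0 < j₀) (hj' : j₀ ^ 2 ≤ 1 - T ^ 2)
    (hG : ∀ s ∈ Icc (0 : ℝ) 1, |γ s| ≤ G) :
    ∀ s ∈ Icc (0 : ℝ) 1, |γ s - γ 0| ≤ (G + G ^ 2 + (1 + G) / j₀ ^ 2) * s := by
  intro s hs
  have := norm_image_sub_le_of_norm_deriv_le_segment' (f := γ) (f' := dγ T α γ) (a := 0) (b := 1)
    (C := G + G ^ 2 + (1 + G) / j₀ ^ 2) (fun x hx => (h.hγ x hx).hasDerivWithinAt)
    (fun x hx => by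
      have hx' : x ∈ Icc (0 : ℝ) 1 := Ico_subset_Icc_self hx
      have h0 := h.pos x hx'
      have h1 := hG x hx'
      have hG0 : 0 ≤ G := (abs_nonneg _).trans h1
      have h2 : γ x ^ 2 ≤ G ^ 2 := by rw [← sq_abs]; gcongr
      have h3 : A0 α γ x ≤ 1 + G := by
        rw [A0]
        nlinarith [sq_nonneg (α x), abs_le.1 h1, hx'.1, hx'.2]
      have h4 : A0 α γ x * T ^ 2 / jj T x ^ 2 ≤ (1 + G) / j₀ ^ 2 := by
        gcongr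
        · nlinarith
        · exact le_jj' hj' x
      have h5 : 0 ≤ A0 α γ x * T ^ 2 / jj T x ^ 2 := by positivity
      rw [Real.norm_eq_abs, dγ, abs_le]
      constructor <;> nlinarith [sq_nonneg (γ x)]) s hs
  simpa using this

end Sol

def rr (T ϱ s : ℝ) : ℝ := ϱ * jj T s / (s + ϱ * jj T s)
def α₁ (T ϱ d s : ℝ) : ℝ := T * (ϱ + d * rr T ϱ s ^ 2)
def γ₁ (T ϱ d s : ℝ) : ℝ := (1 - T ^ 2 * ϱ * (ϱ + d * rr T ϱ s)) / (s + ϱ * jj T s)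
def γ₂ (T s₀ s : ℝ) : ℝ := -(1 - T ^ 2 * s₀ ^ 2) / (s₀ * jj T s - s)

theorem N_pos (hT : T ^ 2 < 1) {ϱ s : ℝ} (hϱ : 1 ≤ ϱ) (hs : s ∈ Icc (0 : ℝ) 1) :
    0 < s + ϱ * jj T s := by
  nlinarith [jj_pos hT s, hs.1]

theorem rr_mem (hT : T ^ 2 < 1) {ϱ s : ℝ} (hϱ : 1 ≤ ϱ) (hs : s ∈ Icc (0 : ℝ) 1) :
    1 / 2 ≤ rr T ϱ s ∧ rr T ϱ s ≤ 1 := by
  have hN := N_pos hT hϱ hs
  rw [rr, le_div_iff₀ hN, div_le_one hN]
  constructor <;> nlinarith [jj_pos hT s, le_jj hT hs, hs.1]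

theorem sol₁ (hT : T ^ 2 < 1) {ϱ d : ℝ} (hϱ : 1 ≤ ϱ) (hd : d ≤ 0) (hd' : -ϱ ≤ d)
    (hTϱ : T ^ 2 * ϱ ^ 2 ≤ 1) : Sol T (α₁ T ϱ d) (γ₁ T ϱ d) := by
  have hr : ∀ s ∈ Icc (0 : ℝ) 1, HasDerivAt (rr T ϱ)
      ((ϱ * (T ^ 2 * s / jj T s) * (s + ϱ * jj T s) -
        ϱ * jj T s * (1 + ϱ * (T ^ 2 * s / jj T s))) / (s + ϱ * jj T s) ^ 2) s := fun s hs =>
    ((hasDerivAt_jj hT s).const_mul ϱ).div
      ((hasDerivAt_id s).add ((hasDerivAt_jj hT s).const_mul ϱ)) (N_pos hT hϱ hs).ne'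
  refine ⟨fun s hs => ?_, fun s hs => ?_, fun s hs => ?_⟩
  · have h1 := (N_pos hT hϱ hs).ne'
    have h2 := (jj_pos hT s).ne'
    have h3 := jj_sq hT s
    refine (((((hr s hs).pow 2).const_mul d).const_add ϱ).const_mul T).congr_deriv ?_
    simp only [dα, A0, α₁, γ₁, rr]
    field_simp
    grind
  · have h1 := (N_pos hT hϱ hs).ne'
    have h2 := (jj_pos hT s).ne'
    have h3 := jj_sq hT s
    refine ((((((hr s hs).const_mul d).const_add ϱ).const_mul (T ^ 2 * ϱ)).const_sub 1).div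
      ((hasDerivAt_id s).add ((hasDerivAt_jj hT s).const_mul ϱ)) h1).congr_deriv ?_
    simp only [dγ, A0, α₁, γ₁, rr, id, Pi.add_apply]
    field_simp
    grind
  · have h1 := (N_pos hT hϱ hs).ne'
    obtain ⟨h2, h3⟩ := rr_mem hT hϱ hs
    have e : A0 (α₁ T ϱ d) (γ₁ T ϱ d) s = rr T ϱ s * (1 - T ^ 2 *
        (ϱ ^ 2 - d * (ϱ * (1 - 3 * rr T ϱ s) - d * rr T ϱ s ^ 3))) := by
      simp only [A0, α₁, γ₁, rr]
      field_simp
      ring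
    rw [e]
    set r := rr T ϱ s
    have h4 : r ^ 3 ≤ 3 * r - 1 := by nlinarith [mul_nonneg (sub_nonneg.2 h2) (sub_nonneg.2 h3)]
    have h5 : ϱ * (1 - 3 * r) - d * r ^ 3 ≤ 0 := by
      nlinarith [mul_le_mul_of_nonneg_left h4 (by linarith : 0 ≤ ϱ),
        mul_nonneg (by linarith : 0 ≤ d + ϱ) (by positivity : 0 ≤ r ^ 3)]
    have h6 := mul_nonneg (sq_nonneg T) (mul_nonneg_of_nonpos_of_nonpos hd h5)
    exact mul_nonneg (by linarith) (by nlinarith)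

theorem D_ge (hT : T ^ 2 < 1) {s₀ s : ℝ} (hs : s ∈ Icc (0 : ℝ) 1) :
    (s₀ - 1) * jj T s ≤ s₀ * jj T s - s := by
  linarith [le_jj hT hs]

theorem sol₂ (hT : T ^ 2 < 1) {s₀ : ℝ} (h₀ : 1 < s₀) (hTs : T ^ 2 * s₀ ^ 2 ≤ 1) :
    Sol T (fun _ => -(T * s₀)) (γ₂ T s₀) := by
  have hD : ∀ s ∈ Icc (0 : ℝ) 1, 0 < s₀ * jj T s - s := fun s hs =>
    (mul_pos (sub_pos.2 h₀) (jj_pos hT s)).trans_le (D_ge hT hs)
  refine ⟨fun s hs => ?_, fun s hs => ?_, fun s hs => ?_⟩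
  · have h1 := (hD s hs).ne'
    have h2 := (jj_pos hT s).ne'
    refine (hasDerivAt_const s (-(T * s₀))).congr_deriv ?_
    simp only [dα, A0, γ₂]
    field_simp
    ring
  · have h1 := (hD s hs).ne'
    have h2 := (jj_pos hT s).ne'
    refine ((hasDerivAt_const s (-(1 - T ^ 2 * s₀ ^ 2))).div
      (((hasDerivAt_jj hT s).const_mul s₀).sub (hasDerivAt_id s)) h1).congr_deriv ?_
    simp only [dγ, A0, γ₂, id, Pi.sub_apply]
    field_simp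
    ring
  · have h1 := hD s hs
    have e : A0 (fun _ => -(T * s₀)) (γ₂ T s₀) s =
        (1 - T ^ 2 * s₀ ^ 2) * (s₀ * jj T s) / (s₀ * jj T s - s) := by
      simp only [A0, γ₂]
      field_simp
      ring
    rw [e]
    exact div_nonneg (mul_nonneg (by linarith) (mul_nonneg (by linarith) (jj_pos hT s).le)) h1.le

end Fld

open Fld in
theorem fields : FieldsStmt := by
  intro μ q Is s₀ hq hqμ hμ h₀ hs₀
  have hIs : 0 < Is := by linarith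
  have hTs : (q / Is) ^ 2 < 1 := by
    rw [div_pow, div_lt_one (by positivity)]; nlinarith
  set j₀ := Real.sqrt (1 - (q / Is) ^ 2) with hj₀
  have hj : 0 < j₀ := Real.sqrt_pos.2 (by linarith)
  set G := 1 / j₀ + 1 / ((s₀ - 1) * j₀) with hG
  have hs1 : 0 < s₀ - 1 := by linarith
  have hG0 : 0 ≤ G := by positivity
  refine ⟨G + G ^ 2 + (1 + G) / j₀ ^ 2, by positivity, fun I hI => ?_⟩
  have hI0 : 0 < I := by linarith
  have hIμ : 0 < I - μ := by linarith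
  have hden : 0 < μ * I - q ^ 2 := by nlinarith
  set T := q / I with hTdef
  set ϱ := I * (I - μ) / (μ * I - q ^ 2) with hϱdef
  have hT0 : 0 ≤ T := by positivity
  have hTT : T ^ 2 ≤ (q / Is) ^ 2 := by rw [hTdef]; gcongr
  have hT : T ^ 2 < 1 := hTT.trans_lt hTs
  have hj' : j₀ ^ 2 ≤ 1 - T ^ 2 := by rw [hj₀, Real.sq_sqrt (by linarith)]; linarith
  have hsϱ : s₀ ≤ ϱ := by
    rw [hϱdef, le_div_iff₀ hden]
    have h1 : μ * s₀ < Is := by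
      by_contra h
      have h2 : q ^ 2 < μ ^ 2 := by nlinarith
      nlinarith [mul_le_mul_of_nonneg_right (not_lt.1 h) (by linarith : 0 ≤ Is - μ)]
    nlinarith [mul_nonneg (sub_nonneg.2 hI) (by linarith : 0 ≤ I + Is - μ - μ * s₀)]
  have hTϱ : T * ϱ ≤ 1 := by
    have e : T * ϱ = q * (I - μ) / (μ * I - q ^ 2) := by rw [hTdef, hϱdef]; field_simp
    rw [e, div_le_one hden]
    nlinarith
  have hϱ : 1 ≤ ϱ := by linarith
  have hTϱ2 : T ^ 2 * ϱ ^ 2 ≤ 1 := by rw [← mul_pow]; exact pow_le_one₀ (by positivity) hTϱ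
  have hTs₀ : T * s₀ ≤ 1 := le_trans (by gcongr) hTϱ
  have hTs2 : T ^ 2 * s₀ ^ 2 ≤ 1 := by rw [← mul_pow]; exact pow_le_one₀ (by positivity) hTs₀
  have S1 := sol₁ hT hϱ (d := s₀ - ϱ) (by linarith) (by linarith) hTϱ2
  have S2 := sol₂ hT h₀ hTs2
  have hnum : ∀ s ∈ Icc (0 : ℝ) 1, 0 ≤ 1 - T ^ 2 * ϱ * (ϱ + (s₀ - ϱ) * rr T ϱ s) ∧
      1 - T ^ 2 * ϱ * (ϱ + (s₀ - ϱ) * rr T ϱ s) ≤ 1 := fun s hs => by
    obtain ⟨h2, h3⟩ := rr_mem hT hϱ hs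
    have h4 : 0 ≤ T ^ 2 * ϱ := by positivity
    have h5 : ϱ + (s₀ - ϱ) * rr T ϱ s ≤ ϱ := by nlinarith
    have h6 : 0 ≤ ϱ + (s₀ - ϱ) * rr T ϱ s := by nlinarith
    constructor <;> nlinarith [mul_le_mul_of_nonneg_left h5 h4, mul_nonneg h4 h6]
  have hG1 : ∀ s ∈ Icc (0 : ℝ) 1, |γ₁ T ϱ (s₀ - ϱ) s| ≤ G := fun s hs => by
    have hN := N_pos hT hϱ hs
    rw [γ₁, abs_of_nonneg (div_nonneg (hnum s hs).1 hN.le)]
    refine le_trans ?_ (le_add_of_nonneg_right (by positivity))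
    gcongr
    · exact (hnum s hs).2
    · nlinarith [le_jj' hj' s, hs.1]
  have hG2 : ∀ s ∈ Icc (0 : ℝ) 1, |γ₂ T s₀ s| ≤ G := fun s hs => by
    have h1 : (s₀ - 1) * j₀ ≤ s₀ * jj T s - s :=
      (mul_le_mul_of_nonneg_left (le_jj' hj' s) hs1.le).trans (D_ge hT hs)
    have h2 : 0 < (s₀ - 1) * j₀ := by positivity
    rw [γ₂, neg_div, abs_neg, abs_of_nonneg (div_nonneg (by linarith) (h2.le.trans h1))]
    refine le_trans ?_ (le_add_of_nonneg_left (by positivity))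
    gcongr
    nlinarith [mul_nonneg (sq_nonneg T) (sq_nonneg s₀)]
  have hΓ : G ≤ G + G ^ 2 + (1 + G) / j₀ ^ 2 := by
    rw [add_assoc]; exact le_add_of_nonneg_right (by positivity)
  have hj0 := (jj_pos hT 0).ne'
  have hϱ0 : ϱ ≠ 0 := by positivity
  have hr0 : rr T ϱ 0 = 1 := by rw [rr, zero_add, div_self (mul_ne_zero hϱ0 hj0)]
  refine ⟨⟨α₁ T ϱ (s₀ - ϱ), _, γ₁ T ϱ (s₀ - ϱ), _, fun _ => -(T * s₀), _, γ₂ T s₀, _, S1.hα, S1.hγ,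
    S2.hα, S2.hγ, (S1.cont hT).1, (S1.cont hT).2, (S2.cont hT).1, (S2.cont hT).2, S1.psd, S2.psd,
    ?_, ?_, ?_, ?_, fun s hs => ?_, fun s _ => ?_, fun s hs => (hG1 s hs).trans hΓ,
    fun s hs => (hG2 s hs).trans hΓ, S1.lip hT hj hj' hG1, S2.lip hT hj hj' hG2⟩⟩
  · rw [α₁, hr0]; ring
  · have e : (μ * I - q ^ 2) / (I * (I - μ)) = 1 / ϱ := by rw [hϱdef, one_div_div]
    rw [γ₁, γ₂, hr0, e, ← jj_zero]
    have : s₀ ≠ 0 := by positivity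
    field_simp
    ring
  · have h1 : 1 + ϱ ≠ 0 := by positivity
    have e : α₁ T ϱ (s₀ - ϱ) 1 * T + γ₁ T ϱ (s₀ - ϱ) 1 = (1 + T ^ 2 * ϱ) / (1 + ϱ) := by
      simp only [α₁, γ₁, rr, jj_one]
      field_simp
      ring
    have e2 : (1 + T ^ 2 * ϱ) * I = μ * (1 + ϱ) := by
      have a1 : ϱ * (μ * I - q ^ 2) = I * (I - μ) := div_mul_cancel₀ _ hden.ne'
      have a2 : T * I = q := div_mul_cancel₀ _ hI0.ne'
      refine mul_left_cancel₀ hI0.ne' ?_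
      rw [← a2] at a1
      linear_combination (-1 : ℝ) * a1
    have e3 : q = T * I := by rw [hTdef]; field_simp
    rw [e3, ← mul_assoc, ← add_mul, e, div_mul_eq_mul_div, e2, mul_div_assoc, div_self h1, mul_one]
  · have h1 : (1 : ℝ) ∈ Icc (0 : ℝ) 1 := ⟨zero_le_one, le_rfl⟩
    exact div_nonneg (hnum 1 h1).1 (N_pos hT hϱ h1).le
  · obtain ⟨h2, h3⟩ := rr_mem hT hϱ hs
    have h4 : rr T ϱ s ^ 2 ≤ 1 := pow_le_one₀ (by linarith) h3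
    have h5 : ϱ + (s₀ - ϱ) * rr T ϱ s ^ 2 ≤ ϱ := by nlinarith [sq_nonneg (rr T ϱ s)]
    have h6 : 0 ≤ ϱ + (s₀ - ϱ) * rr T ϱ s ^ 2 := by nlinarith
    rw [α₁, abs_of_nonneg (mul_nonneg hT0 h6)]
    exact (mul_le_mul_of_nonneg_left h5 hT0).trans hTϱ
  · rw [abs_neg, abs_of_nonneg (by positivity)]
    exact hTs₀

end Crest.Agent.N346.P2
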