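import Crest.Agent.N346.P2.Conc
import Crest.Agent.N346.Basic2

/-! Row 346, P2 concrete side: frame algebra and the measure `nu g`. -/

set_option autoImplicit false
open MeasureTheory Filter Topology Set Matrix
open scoped ContDiff ENNReal InnerProductSpace
open Crest.GeometryTopology.CoordMetric
open Crest.MathPhysics.ExteriorData

noncomputable section
namespace Crest.Agent.N346.P2
open Crest.Agent.N346.Bs

variable {n : ℕ} {g F : MetricField n} {u v : E n → ℝ} {x : E n}

/-! ### frame algebra -/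

@[simp] theorem fgrad_apply (F : MetricField n) (u : E n → ℝ) (x : E n) (a : Fin n) :
    fgrad F u x a = ∑ i, F x i a * pderiv i u x := rfl

theorem fvec_apply (g F : MetricField n) (EE : VectorField n) (x : E n) (a : Fin n) :
    fvec g F EE x a = (∑ i, ∑ j, F x i a * g x i j * EE x j) / volDensity g x := rfl

theorem fgrad_of_pd {a : ℝ} (h : ∀ i, pderiv i v x = a * pderiv i u x) :
    fgrad F v x = a • fgrad F u x := by
  ext b
  simp only [fgrad_apply, h, PiLp.smul_apply, smul_eq_mul, Finset.mul_sum]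
  exact Finset.sum_congr rfl fun i _ => by ring

theorem fgrad_of_pd_zero (h : ∀ i, pderiv i u x = 0) : fgrad F u x = 0 := by
  ext b; simp [h]

theorem fgrad_of_fderiv_zero (h : fderiv ℝ u x = 0) : fgrad F u x = 0 :=
  fgrad_of_pd_zero fun i => by simp [pderiv, h]

@[simp] theorem fgrad_const (c : ℝ) (x : E n) : fgrad F (fun _ => c) x = 0 :=
  fgrad_of_pd_zero fun i => pd_const c i x

theorem fgrad_congr (h : u =ᶠ[𝓝 x] v) : fgrad F u x = fgrad F v x := by
  ext b; simp only [fgrad_apply, pd_congr h]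

theorem fgrad_add (hu : DifferentiableAt ℝ u x) (hv : DifferentiableAt ℝ v x) :
    fgrad F (fun y => u y + v y) x = fgrad F u x + fgrad F v x := by
  ext b; simp only [fgrad_apply, pd_add hu hv, mul_add, Finset.sum_add_distrib, PiLp.add_apply]

theorem fgrad_sub (hu : DifferentiableAt ℝ u x) (hv : DifferentiableAt ℝ v x) :
    fgrad F (fun y => u y - v y) x = fgrad F u x - fgrad F v x := by
  ext b; simp only [fgrad_apply, pd_sub hu hv, mul_sub, Finset.sum_sub_distrib, PiLp.sub_apply]

theorem fgrad_add_const (u : E n → ℝ) (c : ℝ) (x : E n) :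
    fgrad F (fun y => u y + c) x = fgrad F u x := by
  ext b; simp only [fgrad_apply, pd_add_const]

theorem fgrad_sub_const (u : E n → ℝ) (c : ℝ) (x : E n) :
    fgrad F (fun y => u y - c) x = fgrad F u x := by
  ext b; simp only [fgrad_apply, pd_sub_const]

theorem fgrad_const_add (u : E n → ℝ) (c : ℝ) (x : E n) :
    fgrad F (fun y => c + u y) x = fgrad F u x := by
  ext b; simp only [fgrad_apply, pd_const_add]

theorem fgrad_const_sub (u : E n → ℝ) (c : ℝ) (x : E n) :
    fgrad F (fun y => c - u y) x = -fgrad F u x := by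
  ext b; simp [pd_const_sub]

theorem fgrad_const_mul (c : ℝ) (u : E n → ℝ) (x : E n) :
    fgrad F (fun y => c * u y) x = c • fgrad F u x :=
  fgrad_of_pd fun i => pd_const_mul c u i x

theorem fgrad_mul (hu : DifferentiableAt ℝ u x) (hv : DifferentiableAt ℝ v x) :
    fgrad F (fun y => u y * v y) x = u x • fgrad F v x + v x • fgrad F u x := by
  ext b
  simp only [fgrad_apply, pd_mul hu hv, PiLp.add_apply, PiLp.smul_apply, smul_eq_mul,
    Finset.mul_sum, ← Finset.sum_add_distrib]
  exact Finset.sum_congr rfl fun i _ => by ring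

theorem fgrad_comp {θ : ℝ → ℝ} {θ' : ℝ} (hθ : HasDerivAt θ θ' (u x))
    (hu : DifferentiableAt ℝ u x) : fgrad F (fun y => θ (u y)) x = θ' • fgrad F u x :=
  fgrad_of_pd (pd_comp hθ hu)

theorem fgrad_of_notMem (h : x ∉ tsupport u) : fgrad F u x = 0 :=
  fgrad_of_pd_zero (pd_of_notMem h)

theorem hasCompactSupport_fgrad (h : HasCompactSupport u) : HasCompactSupport (fgrad F u) :=
  .intro h fun _ hx => fgrad_of_notMem hx

namespace Fr
variable (h : Fr g F)
include h

theorem mul_transpose (x : E n) : F x * (F x)ᵀ = (g x)⁻¹ := by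
  have h1 : F x * ((F x)ᵀ * g x) = 1 := mul_eq_one_comm.1 (h.orth x)
  exact (Matrix.inv_eq_left_inv (by rw [Matrix.mul_assoc]; exact h1)).symm

theorem sum_FF (x : E n) (i j : Fin n) : ∑ a, F x i a * F x j a = inverseField g x i j := by
  have := congrFun (congrFun (h.mul_transpose x) i) j
  simpa only [Matrix.mul_apply, Matrix.transpose_apply, inverseField] using this

theorem inner_fgrad (u v : E n → ℝ) (x : E n) :
    ⟪fgrad F u x, fgrad F v x⟫_ℝ = gradDot g u v x := by
  simp only [PiLp.inner_apply, fgrad_apply, gradDot, ← h.sum_FF, RCLike.inner_apply, conj_trivial,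
    Finset.sum_mul, Finset.mul_sum]
  rw [Finset.sum_comm]
  refine Finset.sum_congr rfl fun i _ => ?_
  rw [Finset.sum_comm]
  exact Finset.sum_congr rfl fun j _ => Finset.sum_congr rfl fun a _ => by ring

theorem norm_fgrad_sq (u : E n → ℝ) (x : E n) : ‖fgrad F u x‖ ^ 2 = gradSq g u x := by
  rw [← real_inner_self_eq_norm_sq, h.inner_fgrad]; rfl

theorem norm_fgrad (u : E n → ℝ) (x : E n) : ‖fgrad F u x‖ = √(gradSq g u x) := by
  rw [← h.norm_fgrad_sq, Real.sqrt_sq (norm_nonneg _)]

theorem sum_F_fvec (EE : VectorField n) (x : E n) (k : Fin n) :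
    ∑ a, F x k a * fvec g F EE x a = EE x k / volDensity g x := by
  simp only [fvec_apply, ← mul_div_assoc, ← Finset.sum_div]
  congr 1
  have : ∀ a, F x k a * ∑ i, ∑ j, F x i a * g x i j * EE x j
      = ∑ i, ∑ j, F x k a * F x i a * (g x i j * EE x j) := fun a => by
    simp only [Finset.mul_sum]
    exact Finset.sum_congr rfl fun i _ => Finset.sum_congr rfl fun j _ => by ring
  simp only [this]
  rw [Finset.sum_comm]
  have h2 : ∀ i, ∑ a, ∑ j, F x k a * F x i a * (g x i j * EE x j)
      = ∑ j, inverseField g x k i * g x i j * EE x j := fun i => by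
    rw [Finset.sum_comm]
    refine Finset.sum_congr rfl fun j _ => ?_
    rw [← Finset.sum_mul, h.sum_FF]; ring
  simp only [h2]
  rw [Finset.sum_comm]
  simp only [← Finset.sum_mul, inverseField, sum_inv_mul (riem_posDef h.riem x)]
  simp

/-- `⟪E, du⟫ √det g = Σ EEⁱ ∂ᵢ u`. -/
theorem inner_fvec_fgrad (EE : VectorField n) (u : E n → ℝ) (x : E n) :
    ⟪fvec g F EE x, fgrad F u x⟫_ℝ * volDensity g x = ∑ i, pderiv i u x * EE x i := by
  have h0 := (volDensity_pos h.riem x).ne'
  have : ⟪fvec g F EE x, fgrad F u x⟫_ℝ = ∑ i, pderiv i u x * (EE x i / volDensity g x) := by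
    simp only [← h.sum_F_fvec, PiLp.inner_apply, fgrad_apply, RCLike.inner_apply, conj_trivial,
      Finset.sum_mul, Finset.mul_sum]
    rw [Finset.sum_comm]
    exact Finset.sum_congr rfl fun j _ => Finset.sum_congr rfl fun a _ => by ring
  rw [this, Finset.sum_mul]
  exact Finset.sum_congr rfl fun i _ => by field_simp

theorem norm_fvec_sq (EE : VectorField n) (x : E n) : ‖fvec g F EE x‖ ^ 2 = eSq g EE x := by
  have h0 := (volDensity_pos h.riem x).ne'
  have h1 : ‖fvec g F EE x‖ ^ 2 = ∑ a, (∑ i, ∑ j, (F x i a * fvec g F EE x a) * (g x i j * EE x j))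
      / volDensity g x := by
    rw [norm_sq_eq]
    refine Finset.sum_congr rfl fun a _ => ?_
    conv_lhs => rw [mul_comm]; arg 1; rw [fvec_apply]
    rw [div_mul_eq_mul_div]
    congr 1
    simp only [Finset.sum_mul]
    exact Finset.sum_congr rfl fun i _ => Finset.sum_congr rfl fun j _ => by ring
  rw [h1, ← Finset.sum_div, Finset.sum_comm, eSq, ← volDensity_sq h.riem, vecNormSq, sq,
    ← div_div]
  congr 1
  rw [Finset.sum_div]
  refine Finset.sum_congr rfl fun i _ => ?_
  rw [Finset.sum_comm, Finset.sum_div]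
  refine Finset.sum_congr rfl fun j _ => ?_
  rw [← Finset.sum_mul, h.sum_F_fvec]
  ring

theorem continuous_fgrad (hu : ContDiff ℝ 1 u) : Continuous (fgrad F u) :=
  (PiLp.continuous_toLp 2 _).comp (continuous_pi fun a => continuous_finsetSum _ fun i _ =>
    (h.smooth i a).continuous.mul (continuous_pd hu i))

theorem continuous_fvec {EE : VectorField n} (hE : ∀ i, Continuous fun x => EE x i) :
    Continuous (fvec g F EE) :=
  (PiLp.continuous_toLp 2 _).comp (continuous_pi fun a =>
    (continuous_finsetSum _ fun i _ => continuous_finsetSum _ fun j _ =>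
      ((h.smooth i a).continuous.mul (contDiff_g h.riem i j).continuous).mul (hE j)).div
      (contDiff_volDensity h.riem).continuous fun x => (volDensity_pos h.riem x).ne')

/-- two-sided comparison with the flat gradient -/
theorem exists_grad_bd : ∃ K : ℝ, 1 ≤ K ∧ ∀ (u : E n → ℝ) (x : E n),
    ‖fgrad F u x‖ ≤ K * ‖fderiv ℝ u x‖ ∧ ‖fderiv ℝ u x‖ ≤ K * ‖fgrad F u x‖ := by
  obtain ⟨Λ, h1, hlo, hhi⟩ := h.bd
  have hΛ : 0 < Λ := by linarith
  refine ⟨Λ, h1, fun u x => ⟨?_, ?_⟩⟩
  · have := gradSq_le h.riem (inv_pos.2 hΛ) (hlo x) u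
    rw [inv_inv, ← h.norm_fgrad_sq] at this
    refine abs_le_of_sq_le_sq' ?_ (by positivity) |>.2
    nlinarith [sq_nonneg ‖fderiv ℝ u x‖]
  · have := le_gradSq h.riem hΛ (hhi x) u
    rw [← h.norm_fgrad_sq, inv_mul_le_iff₀ hΛ] at this
    refine abs_le_of_sq_le_sq' ?_ (by positivity) |>.2
    nlinarith [sq_nonneg ‖fgrad F u x‖]

/-- two-sided bound of the volume density -/
theorem exists_vol_bd : ∃ K : ℝ, 1 ≤ K ∧ ∀ x, K⁻¹ ≤ volDensity g x ∧ volDensity g x ≤ K := by
  obtain ⟨Λ, h1, hlo, hhi⟩ := h.bd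
  have hΛ : 0 < Λ := by linarith
  have hK : 1 ≤ Λ ^ n := one_le_pow₀ h1
  refine ⟨Λ ^ n, hK, fun x => ⟨?_, ?_⟩⟩
  · have := le_det h.riem (inv_pos.2 hΛ).le (hlo x)
    rw [inv_pow] at this
    refine Real.le_sqrt_of_sq_le (le_trans ?_ this)
    have h2 : (Λ ^ n)⁻¹ ≤ 1 := inv_le_one_of_one_le₀ hK
    have h3 : 0 < (Λ ^ n)⁻¹ := by positivity
    nlinarith
  · have := det_le h.riem hΛ (hhi x)
    refine Real.sqrt_le_iff.2 ⟨by positivity, this.trans ?_⟩
    nlinarith

end Fr

/-! ### the measure -/

section nu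
variable (hg : IsRiemannianOn g Set.univ)
include hg

theorem measurable_dens : Measurable fun x => ENNReal.ofReal (volDensity g x) :=
  (contDiff_volDensity hg).continuous.measurable.ennreal_ofReal

omit hg in
theorem nu_eq : nu g = volume.withDensity fun x => ((volDensity g x).toNNReal : ℝ≥0∞) := rfl

theorem integral_nu (f : E n → ℝ) : ∫ x, f x ∂(nu g) = ∫ x, f x * volDensity g x := by
  rw [nu_eq, integral_withDensity_eq_integral_smul
    (contDiff_volDensity hg).continuous.measurable.real_toNNReal]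
  refine integral_congr_ae (.of_forall fun x => ?_)
  simp only [NNReal.smul_def, smul_eq_mul, Real.coe_toNNReal _ (volDensity_pos hg x).le, mul_comm]

theorem integrable_nu_iff' (f : E n → ℝ) :
    Integrable f (nu g) ↔ Integrable (fun x => f x * volDensity g x) := by
  rw [nu_eq, integrable_withDensity_iff_integrable_smul
    (contDiff_volDensity hg).continuous.measurable.real_toNNReal]
  refine integrable_congr (.of_forall fun x => ?_)
  simp only [NNReal.smul_def, smul_eq_mul, Real.coe_toNNReal _ (volDensity_pos hg x).le, mul_comm]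

theorem lintegral_nu {f : E n → ℝ≥0∞} (hf : AEMeasurable f) :
    ∫⁻ x, f x ∂(nu g) = ∫⁻ x, ENNReal.ofReal (volDensity g x) * f x :=
  lintegral_withDensity_eq_lintegral_mul₀ (measurable_dens hg).aemeasurable hf

omit hg in
theorem nu_ac : nu g ≪ volume := withDensity_absolutelyContinuous _ _

theorem ac_nu : volume ≪ nu g :=
  withDensity_absolutelyContinuous' (measurable_dens hg).aemeasurable
    (.of_forall fun x => (ENNReal.ofReal_pos.2 (volDensity_pos hg x)).ne')

theorem ae_nu_iff {p : E n → Prop} : (∀ᵐ x ∂(nu g), p x) ↔ ∀ᵐ x, p x :=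
  ⟨fun h => (ac_nu hg).ae_le h, fun h => nu_ac.ae_le h⟩

theorem isLocallyFinite_nu : IsLocallyFiniteMeasure (nu g) := by
  rw [nu_eq]
  exact IsLocallyFiniteMeasure.withDensity_coe
    (continuous_real_toNNReal.comp (contDiff_volDensity hg).continuous)

end nu

instance (g : MetricField n) : SFinite (nu g) := by unfold nu; infer_instance

namespace Fr
variable (h : Fr g F)
include h

theorem exists_nu_le : ∃ K : ℝ≥0∞, K ≠ 0 ∧ K ≠ ⊤ ∧ nu g ≤ K • (volume : Measure (E n)) ∧
    (volume : Measure (E n)) ≤ K • nu g := by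
  obtain ⟨K, h1, hK⟩ := h.exists_vol_bd
  have hK0 : 0 < K := by linarith
  refine ⟨ENNReal.ofReal K, by simpa using hK0, ENNReal.ofReal_ne_top, ?_, ?_⟩
  · rw [← withDensity_const]
    exact withDensity_mono (.of_forall fun x => ENNReal.ofReal_le_ofReal (hK x).2)
  · rw [nu, ← withDensity_smul _ (measurable_dens h.riem)]
    conv_lhs => rw [← withDensity_one (μ := (volume : Measure (E n)))]
    refine withDensity_mono (.of_forall fun x => ?_)
    simp only [Pi.one_apply, Pi.smul_apply, smul_eq_mul]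
    rw [← ENNReal.ofReal_mul hK0.le, ← ENNReal.ofReal_one]
    refine ENNReal.ofReal_le_ofReal ?_
    have := (hK x).1
    rwa [inv_le_iff_one_le_mul₀' hK0] at this

theorem memLp_nu_iff {W : Type*} [NormedAddCommGroup W] {f : E n → W} {p : ℝ≥0∞} :
    MemLp f p (nu g) ↔ MemLp f p volume := by
  obtain ⟨K, -, hK, h1, h2⟩ := h.exists_nu_le
  exact ⟨fun hf => (hf.smul_measure hK).mono_measure h2,
    fun hf => (hf.smul_measure hK).mono_measure h1⟩

theorem integrable_nu_iff {W : Type*} [NormedAddCommGroup W] {f : E n → W} :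
    Integrable f (nu g) ↔ Integrable f volume := by
  rw [← memLp_one_iff_integrable, ← memLp_one_iff_integrable, h.memLp_nu_iff]

theorem memLp_of_cs {W : Type*} [NormedAddCommGroup W] {f : E n → W} (hf : Continuous f)
    (hc : HasCompactSupport f) (p : ℝ≥0∞) : MemLp f p (nu g) :=
  h.memLp_nu_iff.2 (hf.memLp_of_hasCompactSupport hc)

theorem integrable_of_cs {W : Type*} [NormedAddCommGroup W] {f : E n → W} (hf : Continuous f)
    (hc : HasCompactSupport f) : Integrable f (nu g) :=
  h.integrable_nu_iff.2 (hf.integrable_of_hasCompactSupport hc)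

theorem memLp_fgrad (hu : ContDiff ℝ 1 u) (hc : HasCompactSupport u) (p : ℝ≥0∞) :
    MemLp (fgrad F u) p (nu g) :=
  h.memLp_of_cs (h.continuous_fgrad hu) (hasCompactSupport_fgrad hc) p

end Fr

end Crest.Agent.N346.P2

end
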