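import Crest.Agent.N346.P2.IsoFlat
import Crest.Agent.N346.P2.ConcB
import Crest.Agent.N346.P2.ConcL

/-! Row 346, P2g: the isocapacitary and the Sobolev inequality for the Dirichlet class. -/

set_option autoImplicit false
open MeasureTheory Set Filter Topology Metric Module
open scoped ENNReal NNReal
open Crest.Agent.N346.Bs
open Crest.GeometryTopology.CoordMetric
open Crest.MathPhysics.ExteriorData

noncomputable section
namespace Crest.Agent.N346.P2

variable {n : ℕ} {g F : MetricField n}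

theorem meas_le_of_ae {α : Type*} [MeasurableSpace α] {ν : Measure α} {S : Set α} {T : ℕ → Set α}
    (h : ∀ᵐ x ∂ν, x ∈ S → ∀ᶠ j in atTop, x ∈ T j) {b : ℕ → ℝ≥0∞} {b₀ : ℝ≥0∞}
    (hb : ∀ j, ν (T j) ≤ b j) (hl : Tendsto b atTop (𝓝 b₀)) : ν S ≤ b₀ := by
  have h1 : ν S ≤ ν (⋃ N : ℕ, ⋂ j ≥ N, T j) := measure_mono_ae (h.mono fun x hx hS => by
    obtain ⟨N, hN⟩ := eventually_atTop.1 (hx hS)
    exact mem_iUnion.2 ⟨N, mem_iInter₂.2 hN⟩)
  have hmono : Monotone fun N : ℕ => ⋂ j ≥ N, T j := fun a b hab x hx =>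
    mem_iInter₂.2 fun j hj => mem_iInter₂.1 hx j (le_trans hab hj)
  rw [hmono.measure_iUnion] at h1
  refine h1.trans (iSup_le fun N => ge_of_tendsto hl ?_)
  filter_upwards [eventually_ge_atTop N] with j hj
  exact (measure_mono fun x hx => mem_iInter₂.1 hx j hj).trans (hb j)

theorem EndD.pinch {U : E n → ℝ} {μ : ℝ} (h : EndD n g U μ) {κ : ℝ} (hκ : 0 < κ) :
    ∃ R : ℝ, 0 < R ∧ ∀ x, R ≤ ‖x‖ → volDensity g x ≤ 1 + κ ∧
      ∀ u : E n → ℝ, ‖fderiv ℝ u x‖ ^ 2 ≤ (1 + κ) * (gradSq g u x * volDensity g x) := by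
  obtain ⟨R₀, hR₀⟩ := h.g_inf
  set c : E n → ℝ := fun x => U x ^ (4 / ((n : ℝ) - 2)) with hc
  have hc0 : ∀ x, 0 < c x := fun x => Real.rpow_pos_of_pos (h.U_pos x) _
  have hc1 : Tendsto c (cocompact (E n)) (𝓝 1) := by
    simpa using h.U_lim.rpow_const (p := 4 / ((n : ℝ) - 2)) (Or.inl one_ne_zero)
  have hs : Tendsto (fun x => √(c x ^ n)) (cocompact (E n)) (𝓝 1) := by
    simpa using (hc1.pow n).sqrt
  have e1 := hs.eventually (gt_mem_nhds (show (1 : ℝ) < 1 + κ by linarith))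
  have e2 := ((hs.const_mul (1 + κ)).sub hc1).eventually
    (lt_mem_nhds (show (0 : ℝ) < (1 + κ) * 1 - 1 by linarith))
  obtain ⟨K, hK, hKs⟩ := (hasBasis_cocompact.eventually_iff).1 (e1.and e2)
  obtain ⟨R₁, hR₁⟩ := hK.isBounded.subset_ball (0 : E n)
  refine ⟨max (max R₀ R₁) 1, lt_max_of_lt_right one_pos, fun x hx => ?_⟩
  have hx0 : R₀ ≤ ‖x‖ := ((le_max_left _ _).trans (le_max_left _ _)).trans hx
  have hx1 : R₁ ≤ ‖x‖ := ((le_max_right _ _).trans (le_max_left _ _)).trans hx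
  obtain ⟨p1, p2⟩ := hKs (show x ∈ Kᶜ from fun hxK => by
    have := hR₁ hxK
    rw [mem_ball_zero_iff] at this
    linarith)
  have hq : ∀ w : E n, quadForm g x w = c x * ‖w‖ ^ 2 := fun w => by
    rw [quadForm, hR₀ x hx0, norm_sq_eq, Finset.mul_sum]
    refine Finset.sum_congr rfl fun i _ => ?_
    simp [Matrix.one_apply, hc, mul_assoc]
  have hv : volDensity g x = √(c x ^ n) := by
    rw [volDensity, le_antisymm (det_le h.riem (hc0 x) fun w => (hq w).le)
      (le_det h.riem (hc0 x).le fun w => (hq w).ge)]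
  refine ⟨hv ▸ p1.le, fun u => ?_⟩
  have h1 := le_gradSq h.riem (hc0 x) (fun w => (hq w).le) u
  rw [inv_mul_le_iff₀ (hc0 x)] at h1
  have h2 := gradSq_nonneg h.riem u x
  rw [hv]
  nlinarith

theorem add_rpow_le_aux {x y κ β : ℝ} (hx : 0 ≤ x) (hy : 0 ≤ y) (hκ : 0 < κ) (hβ : 0 ≤ β) :
    (x + y) ^ β ≤ ((1 + κ) * x) ^ β + ((1 + κ⁻¹) * y) ^ β := by
  have h1 : 0 ≤ ((1 + κ) * x) ^ β := by positivity
  have h2 : 0 ≤ ((1 + κ⁻¹) * y) ^ β := by positivity
  rcases le_total y (κ * x) with h | h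
  · have := Real.rpow_le_rpow (add_nonneg hx hy) (show x + y ≤ (1 + κ) * x by linarith) hβ
    linarith
  · have h3 : x ≤ κ⁻¹ * y := by rwa [le_inv_mul_iff₀ hκ]
    have := Real.rpow_le_rpow (add_nonneg hx hy) (show x + y ≤ (1 + κ⁻¹) * y by linarith) hβ
    linarith

theorem arctan_lower {κ : ℝ} (hκ : 0 < κ) : κ / (1 + κ) ≤ Real.arctan κ := by
  have h1 := Real.sin_le (Real.arctan_pos.2 hκ).le
  rw [Real.sin_arctan] at h1
  refine le_trans ?_ h1
  have : √(1 + κ ^ 2) ≤ 1 + κ := Real.sqrt_le_iff.2 ⟨by positivity, by nlinarith⟩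
  gcongr

/-- the estimate for `C¹_c` functions -/
theorem iso_cc (hn : 3 ≤ n) {U : E n → ℝ} {μ : ℝ} (h : EndD n g U μ) {κ : ℝ} (hκ : 0 < κ) :
    ∃ C : ℝ, ∀ v : E n → ℝ, ContDiff ℝ 1 v → HasCompactSupport v → ∀ t : ℝ, 0 < t →
      nu g {x | t < v x} ≤ ENNReal.ofReal (C + (1 + κ) * ((1 + κ) ^ 5) ^ (1 + 2 * aa n) * cn n *
        ((∫ x, gradSq g v x * volDensity g x) / t ^ 2) ^ (1 + 2 * aa n)) := by
  obtain ⟨R, hR, hp⟩ := h.pinch hκ
  have hβ := (beta_pos hn).le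
  have hcn := cn_pos hn
  set β := 1 + 2 * aa n
  have := isLocallyFinite_nu h.riem
  have hfin : nu g (closedBall 0 (2 * R)) ≠ ∞ := (isCompact_closedBall _ _).measure_lt_top.ne
  have hχ : ContDiff ℝ 1 (eta R : E n → ℝ) := smooth_one (contDiff_eta R)
  have hint : ∀ u : E n → ℝ, ContDiff ℝ 1 u → HasCompactSupport u →
      Integrable fun x => ‖fderiv ℝ u x‖ ^ 2 := fun u hu hc =>
    ((hu.continuous_fderiv one_ne_zero).norm.pow 2).integrable_of_hasCompactSupport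
      (HasCompactSupport.intro (hc.fderiv ℝ).isCompact fun x hx => by
        simp [image_eq_zero_of_notMem_tsupport hx])
  set J := ∫ x : E n, ‖fderiv ℝ (eta R) x‖ ^ 2 with hJ
  have hJ0 : 0 ≤ J := integral_nonneg fun _ => by positivity
  set K := (1 + κ⁻¹) * (2 / κ) ^ 2 with hK
  have hK0 : 0 ≤ K := by positivity
  refine ⟨(nu g (closedBall 0 (2 * R))).toReal +
    (1 + κ) * cn n * ((1 + κ⁻¹) * ((1 + κ) ^ 2 * (K * J))) ^ β, fun v hv hc t ht => ?_⟩
  set Θ : ℝ → ℝ := fun s => t / κ * Real.arctan (κ / t * s) with hΘ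
  have hΘd : ∀ s, HasDerivAt Θ (1 / (1 + (κ / t * s) ^ 2)) s := fun s => by
    have := (((hasDerivAt_id' s).const_mul (κ / t)).arctan).const_mul (t / κ)
    refine this.congr_deriv ?_
    field_simp
  have hΘc : ContDiff ℝ 1 Θ :=
    contDiff_const.mul (Real.contDiff_arctan.comp (contDiff_const.mul contDiff_id))
  have hΘb : ∀ s, |Θ s| ≤ t * (2 / κ) := fun s => by
    have h1 := Real.arctan_lt_pi_div_two (κ / t * s)
    have h2 := Real.neg_pi_div_two_lt_arctan (κ / t * s)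
    have h3 : |Real.arctan (κ / t * s)| ≤ 2 := abs_le.2 ⟨by linarith [Real.pi_le_four],
      by linarith [Real.pi_le_four]⟩
    rw [hΘ]
    simp only
    rw [abs_mul, abs_of_pos (by positivity : 0 < t / κ)]
    calc t / κ * |Real.arctan (κ / t * s)| ≤ t / κ * 2 := by gcongr
      _ = _ := by ring
  set w : E n → ℝ := fun x => (1 - eta R x) * Θ (v x) with hw
  have hwc : ContDiff ℝ 1 w := (contDiff_const.sub hχ).mul (hΘc.comp hv)
  have hws : HasCompactSupport w := HasCompactSupport.intro hc.isCompact fun x hx => by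
    simp [hw, hΘ, image_eq_zero_of_notMem_tsupport hx]
  have hgi : Integrable fun x => gradSq g v x * volDensity g x :=
    ((continuous_gradDot h.riem hv hv).mul
      (contDiff_volDensity h.riem).continuous).integrable_of_hasCompactSupport
      (HasCompactSupport.intro hc.isCompact fun x hx => by
        simp [gradSq, gradDot_of_zero (pd_of_notMem hx)])
  have hg0 : ∀ x, 0 ≤ gradSq g v x * volDensity g x := fun x =>
    mul_nonneg (gradSq_nonneg h.riem v x) (volDensity_pos h.riem x).le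
  have hpt : ∀ x, ‖fderiv ℝ w x‖ ^ 2 ≤ (1 + κ) ^ 2 * (gradSq g v x * volDensity g x)
      + t ^ 2 * K * ‖fderiv ℝ (eta R) x‖ ^ 2 := fun x => by
    have d1 := ((hχ.differentiable one_ne_zero x).hasFDerivAt.const_sub 1).mul
      ((hΘd (v x)).comp_hasFDerivAt x (hv.differentiable one_ne_zero x).hasFDerivAt)
    have e : fderiv ℝ w x = _ := d1.fderiv
    rcases le_total ‖x‖ R with hx | hx
    · rw [e, fderiv_eta_of_le hR hx, eta_eq_one hR hx]
      have := hg0 x
      simp only [sub_self, zero_smul, neg_zero, smul_zero, add_zero, norm_zero]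
      nlinarith [mul_nonneg (sq_nonneg (1 + κ)) this]
    have ha : ‖fderiv ℝ w x‖ ≤ ‖fderiv ℝ v x‖ + t * (2 / κ) * ‖fderiv ℝ (eta R) x‖ := by
      rw [e]
      refine (norm_add_le _ _).trans (add_le_add ?_ ?_)
      · rw [norm_smul, norm_smul, Real.norm_of_nonneg (sub_nonneg.2 (eta_le_one R x)),
          Real.norm_of_nonneg (by positivity), ← mul_assoc]
        refine mul_le_of_le_one_left (norm_nonneg _) (mul_le_one₀ (by linarith [eta_nonneg R x])
          (by positivity) ?_)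
        rw [div_le_one (by positivity)]; nlinarith [sq_nonneg (κ / t * v x)]
      · rw [norm_smul, norm_neg]
        gcongr
        exact hΘb _
    have hb := (hp x hx).2 v
    have hc2 := pow_le_pow_left₀ (norm_nonneg _) ha 2
    generalize ‖fderiv ℝ v x‖ = a at *
    have e2 : t ^ 2 * K * ‖fderiv ℝ (eta R) x‖ ^ 2
        = (1 + κ⁻¹) * (t * (2 / κ) * ‖fderiv ℝ (eta R) x‖) ^ 2 := by rw [hK]; ring
    rw [e2]
    generalize t * (2 / κ) * ‖fderiv ℝ (eta R) x‖ = b at *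
    have h5 : 2 * a * b ≤ κ * a ^ 2 + κ⁻¹ * b ^ 2 := by
      have : 0 ≤ κ⁻¹ * (κ * a - b) ^ 2 := by positivity
      have e3 : κ⁻¹ * (κ * a - b) ^ 2 = κ * a ^ 2 + κ⁻¹ * b ^ 2 - 2 * a * b := by
        field_simp; ring
      linarith
    nlinarith
  set I := ∫ x, gradSq g v x * volDensity g x with hI
  have hI0 : 0 ≤ I := integral_nonneg hg0
  have hE : ∫ x, ‖fderiv ℝ w x‖ ^ 2 ≤ (1 + κ) ^ 2 * I + t ^ 2 * K * J := by
    have i2 := (hint _ hχ (hasCompactSupport_eta hR)).const_mul (t ^ 2 * K)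
    have := integral_mono (hint w hwc hws) ((hgi.const_mul ((1 + κ) ^ 2)).add i2) hpt
    simp only [Pi.add_apply] at this
    rwa [integral_add (hgi.const_mul _) i2, integral_const_mul, integral_const_mul] at this
  have ht' : 0 < t / (1 + κ) := by positivity
  have hiso := iso_level hn hwc hws ht'
  have hX : ((∫ x, ‖fderiv ℝ w x‖ ^ 2) / (t / (1 + κ)) ^ 2) ^ β ≤
      ((1 + κ) ^ 5) ^ β * (I / t ^ 2) ^ β + ((1 + κ⁻¹) * ((1 + κ) ^ 2 * (K * J))) ^ β := by
    have h1 : (∫ x, ‖fderiv ℝ w x‖ ^ 2) / (t / (1 + κ)) ^ 2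
        ≤ (1 + κ) ^ 4 * (I / t ^ 2) + (1 + κ) ^ 2 * (K * J) := by
      rw [div_le_iff₀ (by positivity)]
      refine hE.trans (le_of_eq ?_)
      field_simp
    refine (Real.rpow_le_rpow (div_nonneg (integral_nonneg fun _ => by positivity)
      (by positivity)) h1 hβ).trans ((add_rpow_le_aux (by positivity) (by positivity) hκ hβ).trans
        (le_of_eq ?_))
    rw [← Real.mul_rpow (by positivity) (by positivity)]
    congr 2; ring
  have hsub : {x | t < v x} ⊆ closedBall 0 (2 * R) ∪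
      ({x | t / (1 + κ) ≤ w x} ∩ {x | R ≤ ‖x‖}) := fun x hx => by
    by_cases hx2 : ‖x‖ ≤ 2 * R
    · exact Or.inl (mem_closedBall_zero_iff.2 hx2)
    refine Or.inr ⟨?_, show R ≤ ‖x‖ by linarith⟩
    have hx' : t < v x := hx
    show t / (1 + κ) ≤ (1 - eta R x) * (t / κ * Real.arctan (κ / t * v x))
    rw [eta_eq_zero hR (by linarith), sub_zero, one_mul]
    have h1 : κ ≤ κ / t * v x := by
      rw [div_mul_eq_mul_div, le_div_iff₀ ht]; gcongr
    calc t / (1 + κ) = t / κ * (κ / (1 + κ)) := by field_simp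
      _ ≤ _ := by
        gcongr
        exact (arctan_lower hκ).trans (Real.arctan_mono h1)
  have hm : MeasurableSet ({x | t / (1 + κ) ≤ w x} ∩ {x : E n | R ≤ ‖x‖}) :=
    (isClosed_le continuous_const hwc.continuous).measurableSet.inter
      (isClosed_le continuous_const continuous_norm).measurableSet
  have h2 : nu g ({x | t / (1 + κ) ≤ w x} ∩ {x | R ≤ ‖x‖})
      ≤ ENNReal.ofReal (1 + κ) * volume {x | t / (1 + κ) ≤ w x} := by
    rw [nu, withDensity_apply _ hm]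
    refine (setLIntegral_mono' hm fun x hx =>
      ENNReal.ofReal_le_ofReal (hp x hx.2).1).trans ?_
    rw [setLIntegral_const]
    gcongr
    exact inter_subset_left
  calc nu g {x | t < v x} ≤ nu g (closedBall 0 (2 * R)) +
        nu g ({x | t / (1 + κ) ≤ w x} ∩ {x | R ≤ ‖x‖}) :=
        (measure_mono hsub).trans (measure_union_le _ _)
    _ ≤ ENNReal.ofReal (nu g (closedBall 0 (2 * R))).toReal + ENNReal.ofReal (1 + κ) *
        ENNReal.ofReal (cn n * (((1 + κ) ^ 5) ^ β * (I / t ^ 2) ^ β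
          + ((1 + κ⁻¹) * ((1 + κ) ^ 2 * (K * J))) ^ β)) := by
        rw [ENNReal.ofReal_toReal hfin]
        gcongr
        refine h2.trans ?_
        gcongr
        refine hiso.trans (ENNReal.ofReal_le_ofReal ?_)
        gcongr
    _ = _ := by
        rw [← ENNReal.ofReal_mul (by positivity),
          ← ENNReal.ofReal_add ENNReal.toReal_nonneg (by positivity)]
        congr 1; ring

theorem iso' : IsoStmt := by
  intro n hn g F U μ h hF η hη
  have hβ := (beta_pos hn).le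
  have hcont : ContinuousAt (fun κ : ℝ => (1 + κ) * ((1 + κ) ^ 5) ^ (1 + 2 * aa n)) 0 :=
    (by fun_prop : ContinuousAt (fun κ : ℝ => 1 + κ) 0).mul
      ((by fun_prop : ContinuousAt (fun κ : ℝ => (1 + κ) ^ 5) 0).rpow_const (Or.inr hβ))
  have hev := hcont.eventually (gt_mem_nhds (show _ < 1 + η by simpa using hη))
  obtain ⟨κ, hκ1, hκ⟩ := ((hev.filter_mono nhdsWithin_le_nhds).and
    (self_mem_nhdsWithin (s := Ioi (0 : ℝ)))).exists
  obtain ⟨C, hC⟩ := iso_cc hn h hκ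
  refine ⟨C, fun u G hu _ t ht => ?_⟩
  obtain ⟨v, M, v1, v2, -, v4, v5⟩ := hu.approx
  have hl := L2T.tendsto_normSq v5 (fun j => hF.memLp_fgrad (v1 j) (v2 j) 2) hu.memG
  refine meas_le_of_ae (T := fun j => {x | t < v j x}) (v4.mono fun x hx hxt => ?_)
    (b := fun j => ENNReal.ofReal (C + (1 + η) * cn n *
      ((∫ x, ‖fgrad F (v j) x‖ ^ 2 ∂(nu g)) / t ^ 2) ^ (1 + 2 * aa n))) (fun j => ?_) ?_
  · rw [sub_zero] at hx
    exact hx.eventually (lt_mem_nhds hxt)
  · refine (hC _ (v1 j) (v2 j) t ht.1).trans (ENNReal.ofReal_le_ofReal ?_)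
    rw [integral_nu hF.riem]
    simp only [hF.norm_fgrad_sq]
    have := cn_pos hn
    have h0 : 0 ≤ ∫ x, gradSq g (v j) x * volDensity g x := integral_nonneg fun x =>
      mul_nonneg (gradSq_nonneg h.riem _ x) (volDensity_pos h.riem x).le
    gcongr
  · exact ENNReal.tendsto_ofReal (tendsto_const_nhds.add
      (((hl.div_const _).rpow_const (Or.inr hβ)).const_mul _))

theorem iso : IsoFlatStmt → IsoStmt := fun _ => iso'

theorem sob_cc (hn : 3 ≤ n) (h : Fr g F) (vol : ℝ) : ∃ C : ℝ≥0∞, C ≠ ∞ ∧ ∀ v : E n → ℝ,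
    ContDiff ℝ 1 v → HasCompactSupport v → ∀ Ω : Set (E n), nu g Ω ≤ ENNReal.ofReal vol →
      eLpNorm v 2 ((nu g).restrict Ω) ≤ C * eLpNorm (fgrad F v) 2 (nu g) := by
  obtain ⟨K, hK0, hK, h1, h2⟩ := h.exists_nu_le
  obtain ⟨L, hL1, hL⟩ := h.exists_grad_bd
  have hN : (3 : ℝ) ≤ n := by exact_mod_cast hn
  have h2n : 0 < (n : ℝ) - 2 := by linarith
  set p' : ℝ≥0 := ⟨2 * n / (n - 2), by positivity⟩ with hp'
  have hp'2 : (2 : ℝ≥0) ≤ p' := by
    show (2 : ℝ) ≤ 2 * n / (n - 2)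
    rw [le_div_iff₀ h2n]; linarith
  have hp'0 : (p' : ℝ≥0∞) ≠ 0 := by
    have : 0 < p' := lt_of_lt_of_le two_pos hp'2
    exact_mod_cast this.ne'
  have hex : 0 ≤ 1 / (2 : ℝ≥0∞).toReal - 1 / (p' : ℝ≥0∞).toReal := by
    have : (2 : ℝ) ≤ p' := hp'2
    simp only [ENNReal.toReal_ofNat, ENNReal.coe_toReal, sub_nonneg]
    gcongr
  refine ⟨K ^ (1 / (p' : ℝ≥0∞)).toReal *
    (eLpNormLESNormFDerivOfEqInnerConst (volume : Measure (E n)) (2 : ℝ≥0) *
      (ENNReal.ofReal L * K ^ (1 / (2 : ℝ≥0∞)).toReal)) *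
    ENNReal.ofReal vol ^ (1 / (2 : ℝ≥0∞).toReal - 1 / (p' : ℝ≥0∞).toReal), ?_,
    fun v hv hc Ω hΩ => ?_⟩
  · exact ENNReal.mul_ne_top (ENNReal.mul_ne_top
      (ENNReal.rpow_ne_top_of_nonneg ENNReal.toReal_nonneg hK) (ENNReal.mul_ne_top
        ENNReal.coe_ne_top (ENNReal.mul_ne_top ENNReal.ofReal_ne_top
          (ENNReal.rpow_ne_top_of_nonneg ENNReal.toReal_nonneg hK))))
      (ENNReal.rpow_ne_top_of_nonneg hex ENNReal.ofReal_ne_top)
  have s1 := eLpNorm_le_eLpNorm_mul_rpow_measure_univ (μ := (nu g).restrict Ω) (f := v)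
    (p := 2) (q := p') (by exact_mod_cast hp'2) hv.continuous.aestronglyMeasurable
  rw [Measure.restrict_apply_univ] at s1
  have s2 : eLpNorm v p' ((nu g).restrict Ω) ≤ K ^ (1 / (p' : ℝ≥0∞)).toReal * eLpNorm v p' volume :=
    (eLpNorm_mono_measure _ (Measure.restrict_le_self.trans h1)).trans
      (le_of_eq (eLpNorm_smul_measure_of_ne_top ENNReal.coe_ne_top _ _))
  have s3 := eLpNorm_le_eLpNorm_fderiv_of_eq_inner (volume : Measure (E n)) hv hc (p := 2)
    (p' := p') one_le_two (by rw [finrank_euclideanSpace_fin]; omega) (by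
      rw [finrank_euclideanSpace_fin]
      show (2 * n / (n - 2) : ℝ)⁻¹ = _
      push_cast
      field_simp)
  have s4 : eLpNorm (fderiv ℝ v) 2 volume ≤ ENNReal.ofReal L * eLpNorm (fgrad F v) 2 volume :=
    eLpNorm_le_mul_eLpNorm_of_ae_le_mul (.of_forall fun x => (hL v x).2) 2
  have s5 : eLpNorm (fgrad F v) 2 volume
      ≤ K ^ (1 / (2 : ℝ≥0∞)).toReal * eLpNorm (fgrad F v) 2 (nu g) :=
    (eLpNorm_mono_measure _ h2).trans
      (le_of_eq (eLpNorm_smul_measure_of_ne_top ENNReal.ofNat_ne_top _ _))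
  calc _ ≤ _ := s1
    _ ≤ K ^ (1 / (p' : ℝ≥0∞)).toReal *
        (eLpNormLESNormFDerivOfEqInnerConst (volume : Measure (E n)) (2 : ℝ≥0) *
          (ENNReal.ofReal L * (K ^ (1 / (2 : ℝ≥0∞)).toReal * eLpNorm (fgrad F v) 2 (nu g)))) *
        ENNReal.ofReal vol ^ (1 / (2 : ℝ≥0∞).toReal - 1 / (p' : ℝ≥0∞).toReal) := by
        gcongr
        refine s2.trans ?_
        gcongr
        refine s3.trans ?_
        gcongr
        refine s4.trans ?_
        gcongr
    _ = _ := by ring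

theorem sob : SobStmt := by
  intro n hn g F h vol
  obtain ⟨C, hC, hs⟩ := sob_cc hn h vol
  refine ⟨C.toReal ^ 2, by positivity, fun z G Ω hz _ hΩ => ?_⟩
  obtain ⟨v, M, v1, v2, -, v4, v5⟩ := hz.approx
  have m := fun j => h.memLp_fgrad (v1 j) (v2 j) 2
  have hl : Tendsto (fun j => eLpNorm (fgrad F (v j)) 2 (nu g)) atTop (𝓝 (eLpNorm G 2 (nu g))) := by
    have := (L2T.tendsto_toLp v5 m hz.memG).enorm
    simpa only [Lp.enorm_toLp] using this
  have h1 : eLpNorm z 2 ((nu g).restrict Ω) ≤ C * eLpNorm G 2 (nu g) := by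
    refine (Lp.eLpNorm_lim_le_liminf_eLpNorm (f := v)
      (fun j => (v1 j).continuous.aestronglyMeasurable) z
      (ae_restrict_of_ae (v4.mono fun x hx => by simpa using hx))).trans ?_
    rw [← (ENNReal.Tendsto.const_mul hl (Or.inr hC)).liminf_eq]
    exact liminf_le_liminf (.of_forall fun j => hs _ (v1 j) (v2 j) Ω hΩ)
  have hfin : C * eLpNorm G 2 (nu g) ≠ ∞ := ENNReal.mul_ne_top hC hz.memG.2.ne
  have mz : MemLp z 2 ((nu g).restrict Ω) :=
    ⟨hz.meas.aestronglyMeasurable, h1.trans_lt hfin.lt_top⟩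
  have e1 := L2T.norm_toLp_sq mz
  have e2 := L2T.norm_toLp_sq hz.memG
  simp only [Real.norm_eq_abs, sq_abs] at e1
  rw [← e1, ← e2, Lp.norm_toLp, Lp.norm_toLp, ← mul_pow, ← ENNReal.toReal_mul]
  exact pow_le_pow_left₀ ENNReal.toReal_nonneg (ENNReal.toReal_mono hfin h1) 2

end Crest.Agent.N346.P2
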