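import Crest.Agent.N346.P2.NeckB

/-!
Row 346, P2k (helper30), part 2: `neck : ShieldStmt → NeckStmt`.
-/

set_option autoImplicit false
open MeasureTheory Filter Topology Set Matrix
open scoped ContDiff ENNReal InnerProductSpace
open Crest.GeometryTopology.CoordMetric
open Crest.MathPhysics.ExteriorData

noncomputable section
namespace Crest.Agent.N346.P2
namespace NK
open Crest.Agent.N346.Bs

/-! ### one-dimensional cut-offs -/

theorem sg_deriv_zero {s : ℝ} (h : s ≤ 0 ∨ 1 ≤ s) : deriv Real.smoothTransition s = 0 := by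
  rcases h with h | h
  · exact IsLocalMin.deriv_eq_zero (.of_forall fun y =>
      (Real.smoothTransition.zero_of_nonpos h).le.trans (Real.smoothTransition.nonneg y))
  · exact IsLocalMax.deriv_eq_zero (.of_forall fun y =>
      (Real.smoothTransition.le_one y).trans (Real.smoothTransition.one_of_one_le h).ge)

theorem sg_c1 : ContDiff ℝ 1 Real.smoothTransition := Real.smoothTransition.contDiff (n := 1)

theorem sg_has (s : ℝ) : HasDerivAt Real.smoothTransition (deriv Real.smoothTransition s) s :=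
  (sg_c1.differentiable one_ne_zero s).hasDerivAt

theorem exists_Cs : ∃ Cs : ℝ, 0 ≤ Cs ∧ ∀ s, |deriv Real.smoothTransition s| ≤ Cs := by
  obtain ⟨M, hM⟩ := (sg_c1.continuous_deriv le_rfl).bounded_above_of_compact_support
    (HasCompactSupport.intro (isCompact_Icc (a := (0 : ℝ)) (b := 1)) fun s hs => sg_deriv_zero (by
      by_contra h; push Not at h; exact hs ⟨h.1.le, h.2.le⟩))
  exact ⟨M, (norm_nonneg _).trans (hM 0), hM⟩

theorem sg_aff (p q s : ℝ) : HasDerivAt (fun s => Real.smoothTransition (p * s + q))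
    (deriv Real.smoothTransition (p * s + q) * p) s := by
  have := (sg_has (p * s + q)).comp s (((hasDerivAt_id' s).const_mul p).add_const q)
  simpa [Function.comp_def] using this

theorem sg_aff_c1 (p q : ℝ) : ContDiff ℝ 1 fun s => Real.smoothTransition (p * s + q) :=
  sg_c1.comp ((contDiff_const.mul contDiff_id).add contDiff_const)

theorem prof1 : ∃ C₁ : ℝ, 0 ≤ C₁ ∧ ∀ ℓ : ℝ, 0 < ℓ → ∃ th th0 : ℝ → ℝ,
    ContDiff ℝ 1 th ∧ ContDiff ℝ 1 th0 ∧ th 0 = 1 ∧ th0 0 = 0 ∧ (∀ s, th s ∈ Icc (0 : ℝ) 1) ∧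
    (∀ s, 2 * ℓ / 3 ≤ s → th s = 0) ∧
    (∀ s, deriv th s ^ 2 ≤ 4 * (C₁ / ℓ) ^ 2 * (th s * (1 - th s))) ∧
    (∀ s, th s ≠ 1 → th0 s = 1) ∧ (∀ s, deriv th0 s ^ 2 ≤ (C₁ / ℓ) ^ 2) ∧
    ∀ s, 2 * ℓ / 3 ≤ s → deriv th0 s = 0 := by
  obtain ⟨Cs, hCs, hb⟩ := exists_Cs
  refine ⟨6 * Cs, by positivity, fun ℓ hℓ => ⟨fun s => Real.cos (Real.pi / 2 *
    Real.smoothTransition (3 / ℓ * s + -1)) ^ 2, fun s => Real.smoothTransition (3 / ℓ * s + 0),
    (Real.contDiff_cos.comp (contDiff_const.mul (sg_aff_c1 _ _))).pow 2, sg_aff_c1 _ _, ?_, ?_,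
    fun s => ⟨sq_nonneg _, Real.cos_sq_le_one _⟩, fun s hs => ?_, fun s => ?_, fun s hs => ?_,
    fun s => ?_, fun s hs => ?_⟩⟩
  · simp [Real.smoothTransition.zero_of_nonpos]
  · simp
  · have : 1 ≤ 3 / ℓ * s + -1 := by
      have : 3 / ℓ * (2 * ℓ / 3) ≤ 3 / ℓ * s := by gcongr
      have e : 3 / ℓ * (2 * ℓ / 3) = 2 := by field_simp
      linarith
    simp [Real.smoothTransition.one_of_one_le this]
  · have h := (((sg_aff (3 / ℓ) (-1) s).const_mul (Real.pi / 2)).cos.pow 2).deriv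
    have h' : deriv (fun s => Real.cos (Real.pi / 2 *
        Real.smoothTransition (3 / ℓ * s + -1)) ^ 2) s = _ := h
    rw [h']
    set y := Real.pi / 2 * Real.smoothTransition (3 / ℓ * s + -1)
    set z := deriv Real.smoothTransition (3 / ℓ * s + -1)
    have hz : z ^ 2 ≤ Cs ^ 2 := by rw [← sq_abs]; exact pow_le_pow_left₀ (abs_nonneg _) (hb _) 2
    have hp : Real.pi ^ 2 ≤ 16 := by nlinarith [Real.pi_le_four, Real.pi_pos]
    have h3 : Real.pi ^ 2 * z ^ 2 ≤ 16 * Cs ^ 2 := mul_le_mul hp hz (sq_nonneg _) (by norm_num)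
    rw [← Real.sin_sq]
    have e1 : (((2 : ℕ) : ℝ) * Real.cos y ^ (2 - 1) * (-Real.sin y * (Real.pi / 2 * (z * (3 / ℓ))))) ^ 2
        = (9 / ℓ ^ 2 * (Real.cos y ^ 2 * Real.sin y ^ 2)) * (Real.pi ^ 2 * z ^ 2) := by
      push_cast; field_simp; ring
    have e2 : 4 * (6 * Cs / ℓ) ^ 2 * (Real.cos y ^ 2 * Real.sin y ^ 2)
        = (9 / ℓ ^ 2 * (Real.cos y ^ 2 * Real.sin y ^ 2)) * (16 * Cs ^ 2) := by
      field_simp; ring
    rw [e1, e2]
    exact mul_le_mul_of_nonneg_left h3 (by positivity)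
  · refine Real.smoothTransition.one_of_one_le ?_
    by_contra h
    apply hs
    simp [Real.smoothTransition.zero_of_nonpos (show 3 / ℓ * s + -1 ≤ 0 by linarith)]
  · rw [(sg_aff _ _ s).deriv]
    set z := deriv Real.smoothTransition (3 / ℓ * s + 0)
    have hz : z ^ 2 ≤ Cs ^ 2 := by rw [← sq_abs]; exact pow_le_pow_left₀ (abs_nonneg _) (hb _) 2
    have e1 : (z * (3 / ℓ)) ^ 2 = 9 / ℓ ^ 2 * z ^ 2 := by field_simp; ring
    have e2 : (6 * Cs / ℓ) ^ 2 = 9 / ℓ ^ 2 * (4 * Cs ^ 2) := by field_simp; ring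
    rw [e1, e2]
    exact mul_le_mul_of_nonneg_left (by nlinarith) (by positivity)
  · have : 1 ≤ 3 / ℓ * s + 0 := by
      have : 3 / ℓ * (2 * ℓ / 3) ≤ 3 / ℓ * s := by gcongr
      have e : 3 / ℓ * (2 * ℓ / 3) = 2 := by field_simp
      linarith
    rw [(sg_aff _ _ s).deriv, sg_deriv_zero (.inr this), zero_mul]

theorem prof2 : ∃ C₂ : ℝ, 0 ≤ C₂ ∧ ∀ ℓ : ℝ, ∃ th : ℝ → ℝ, ContDiff ℝ 1 th ∧
    (∀ s, th s ∈ Icc (0 : ℝ) 1) ∧ (∀ s, s ≤ ℓ - 1 → th s = 1 ∧ deriv th s = 0) ∧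
    (∀ s, ℓ - 1 / 2 ≤ s → th s = 0) ∧ ∀ s, |deriv th s| ≤ C₂ := by
  obtain ⟨Cs, hCs, hb⟩ := exists_Cs
  refine ⟨2 * Cs, by positivity, fun ℓ => ⟨fun s => Real.smoothTransition (-2 * s + (2 * ℓ - 1)),
    sg_aff_c1 _ _, fun s => ⟨Real.smoothTransition.nonneg _, Real.smoothTransition.le_one _⟩,
    fun s hs => ⟨Real.smoothTransition.one_of_one_le (by linarith), ?_⟩,
    fun s hs => Real.smoothTransition.zero_of_nonpos (by linarith), fun s => ?_⟩⟩
  · rw [(sg_aff _ _ s).deriv, sg_deriv_zero (.inr (by linarith)), zero_mul]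
  · rw [(sg_aff _ _ s).deriv, abs_mul, mul_comm]
    have := hb (-2 * s + (2 * ℓ - 1))
    rw [abs_neg, abs_two]; linarith

/-! ### facts on the neck data -/

variable {n : ℕ} {g F : MetricField n} {η Λ ℓ m A Q : ℝ} {d U : E n → ℝ} {EE : VectorField n}

theorem eSq_nonneg (hF : Fr g F) (x : E n) : 0 ≤ eSq g EE x := by
  rw [← norm_fvec_sq hF]; positivity

theorem eSq_le (h : N346.Neck n η Λ ℓ m A Q g d U EE) (hΛ : 1 ≤ Λ) :
    ∃ B : ℝ, 0 ≤ B ∧ ∀ x, eSq g EE x ≤ B * (1 + ‖x‖) ^ (-(2 * (n : ℝ) - 2)) := by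
  obtain ⟨C, hC⟩ := h.EE_decay
  refine ⟨Λ ^ n * (Λ * (n * C ^ 2)), by positivity, fun x => ?_⟩
  have h1 : vecNormSq g EE x ≤ Λ * ‖(WithLp.toLp 2 (EE x) : E n)‖ ^ 2 := h.g_hi x (WithLp.toLp 2 (EE x))
  have h2 : ‖(WithLp.toLp 2 (EE x) : E n)‖ ^ 2 ≤ n * C ^ 2 * (1 + ‖x‖) ^ (-(2 * (n : ℝ) - 2)) := by
    rw [norm_sq_eq]
    have e : (1 + ‖x‖) ^ (-(2 * (n : ℝ) - 2)) = ((1 + ‖x‖) ^ (1 - (n : ℝ))) ^ 2 := by
      rw [← Real.rpow_natCast, ← Real.rpow_mul (by positivity)]; congr 1; push_cast; ring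
    calc ∑ i, EE x i * EE x i ≤ ∑ _i : Fin n, (C * (1 + ‖x‖) ^ (1 - (n : ℝ))) ^ 2 :=
          Finset.sum_le_sum fun i _ => by
            rw [← sq, ← sq_abs]; exact pow_le_pow_left₀ (abs_nonneg _) (hC x i) 2
      _ = _ := by rw [e]; simp; ring
  have h3 : (Λ⁻¹) ^ n ≤ (g x).det := le_det h.riem (by positivity) (h.g_lo x)
  have h4 : 0 < (Λ⁻¹) ^ n := by positivity
  have h5 : vecNormSq g EE x ≤ Λ * (n * C ^ 2 * (1 + ‖x‖) ^ (-(2 * (n : ℝ) - 2))) :=
    h1.trans (by gcongr)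
  calc eSq g EE x ≤ Λ * (n * C ^ 2 * (1 + ‖x‖) ^ (-(2 * (n : ℝ) - 2))) / (Λ⁻¹) ^ n := by
        unfold eSq; gcongr
    _ = _ := by rw [inv_pow, div_inv_eq_mul]; ring

theorem cont_eSq (h : N346.Neck n η Λ ℓ m A Q g d U EE) (hF : Fr g F) : Continuous (eSq g EE) := by
  rw [← funext (norm_fvec_sq hF EE)]
  exact (continuous_fvec hF fun i => (h.EE_smooth i).continuous).norm.pow 2

theorem int_eSq (hn : 3 ≤ n) (h : N346.Neck n η Λ ℓ m A Q g d U EE) (hF : Fr g F) (hΛ : 1 ≤ Λ) :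
    Integrable (eSq g EE) (nu g) := by
  obtain ⟨B, hB, hb⟩ := eSq_le h hΛ
  have h3 : (3 : ℝ) ≤ n := by exact_mod_cast hn
  refine integrable_nu hF (((integrable_one_add_norm (E := E n) (μ := volume)
    (r := 2 * (n : ℝ) - 2) (by simp; linarith)).const_mul B).mono'
    (cont_eSq h hF).aestronglyMeasurable (ae_of_all _ fun x => ?_))
  rw [Real.norm_of_nonneg (eSq_nonneg hF x)]; exact hb x

theorem bdd_eSq (hn : 3 ≤ n) (h : N346.Neck n η Λ ℓ m A Q g d U EE) (hΛ : 1 ≤ Λ) :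
    ∃ B : ℝ, ∀ x, eSq g EE x ≤ B := by
  obtain ⟨B, hB, hb⟩ := eSq_le h hΛ
  have h3 : (3 : ℝ) ≤ n := by exact_mod_cast hn
  exact ⟨B, fun x => (hb x).trans (mul_le_of_le_one_right hB
    (Real.rpow_le_one_of_one_le_of_nonpos (by simp) (by linarith)))⟩

theorem fgrad_d (h : N346.Neck n η Λ ℓ m A Q g d U EE) {φ : ℝ → ℝ} (hφ : ContDiff ℝ 1 φ) (x : E n) :
    fgrad F (fun y => φ (d y)) x = deriv φ (d x) • fgrad F d x :=
  fgrad_of_pd (pd_comp (hφ.differentiable one_ne_zero _).hasDerivAt (smooth_diff h.d_smooth x))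

theorem hcs_d (h : N346.Neck n η Λ ℓ m A Q g d U EE) (φ : ℝ → ℝ) :
    HasCompactSupport fun x => φ (d x) - φ 0 :=
  hasCompactSupport_of_far (R := Λ) fun y hy => by rw [h.d_far y hy.le, sub_self]

theorem dd_d (h : N346.Neck n η Λ ℓ m A Q g d U EE) (hF : Fr g F) {φ : ℝ → ℝ}
    (hφ : ContDiff ℝ 1 φ) : DD g F (fun y => φ (d y)) (φ 0) (fgrad F fun y => φ (d y)) :=
  of_contDiff hF (hφ.comp (smooth_one h.d_smooth)) (hcs_d h φ)

theorem norm_sq_d (h : N346.Neck n η Λ ℓ m A Q g d U EE) (hF : Fr g F) {φ : ℝ → ℝ}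
    (hφ : ContDiff ℝ 1 φ) (x : E n) :
    ‖fgrad F (fun y => φ (d y)) x‖ ^ 2 = deriv φ (d x) ^ 2 * gradSq g d x := by
  rw [fgrad_d h hφ, norm_smul, mul_pow, norm_fgrad_sq hF, Real.norm_eq_abs, sq_abs]

theorem norm_d (h : N346.Neck n η Λ ℓ m A Q g d U EE) (hF : Fr g F) {φ : ℝ → ℝ}
    (hφ : ContDiff ℝ 1 φ) (x : E n) :
    ‖fgrad F (fun y => φ (d y)) x‖ = |deriv φ (d x)| * √(gradSq g d x) := by
  rw [fgrad_d h hφ, norm_smul, norm_fgrad hF, Real.norm_eq_abs]

theorem gradSq_zero (h : N346.Neck n η Λ ℓ m A Q g d U EE) {x : E n} (hx : d x = 0) :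
    gradSq g d x = 0 := by
  have : fderiv ℝ d x = 0 := IsLocalMin.fderiv_eq_zero (.of_forall fun y => hx ▸ h.d_nonneg y)
  exact gradDot_of_zero fun i => by simp [pderiv, this]

theorem far_of_d (h : N346.Neck n η Λ ℓ m A Q g d U EE) {x : E n} (hx : d x ≠ 0) : ‖x‖ ≤ Λ := by
  by_contra h1; exact hx (h.d_far x (not_le.1 h1).le)

theorem int_divE (h : N346.Neck n η Λ ℓ m A Q g d U EE) (hℓ : 0 < ℓ) : Integrable (divE EE) :=
  (contDiff_divE h.EE_smooth).continuous.integrable_of_hasCompactSupport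
    (hasCompactSupport_of_far (R := Λ) fun y hy => h.EE_div y (by rw [h.d_far y hy.le]; exact hℓ))

theorem flux_eq' (hn : 3 ≤ n) (h : N346.Neck n η Λ ℓ m A Q g d U EE) (hF : Fr g F) (hΛ : 1 ≤ Λ)
    (hℓ : 0 < ℓ) {u : E n → ℝ} {c : ℝ} {G : E n → E n} (hu : DD g F u c G)
    (h0 : ∀ x, ℓ ≤ d x → u x = 0) :
    ∫ x, ⟪fvec g F EE x, G x⟫_ℝ ∂(nu g) = c * (unitSphereArea n * Q) := by
  have h2 : MemLp (fvec g F EE) 2 (nu g) := by
    rw [memLp_two_iff_integrable_sq_norm
      (continuous_fvec hF fun i => (h.EE_smooth i).continuous).aestronglyMeasurable]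
    simpa only [norm_fvec_sq hF] using int_eSq hn h hF hΛ
  rw [dd_ibp hF hu (fun i => smooth_one (h.EE_smooth i)) h2 (int_divE h hℓ), ← h.charge,
    ← integral_const_mul, ← integral_neg]
  refine integral_congr_ae (ae_of_all _ fun x => ?_)
  rcases lt_or_ge (d x) ℓ with hx | hx
  · simp [h.EE_div x hx]
  · simp [h0 x hx]

end NK
open NK Crest.Agent.N346.Bs

theorem neck : ShieldStmt → NeckStmt := by
  rintro ⟨C', hC', hsh⟩
  obtain ⟨C₁, hC₁, hp1⟩ := prof1
  obtain ⟨C₂, hC₂, hp2⟩ := prof2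
  refine ⟨3 * (C' + 1) + 4 * C₁, by linarith, ?_⟩
  intro n hn η τ₀ Λ ℓ m A Q g F d U EE h hF hη hτ hτ1 hΛ hℓ 𝒟 hD
  set C := 3 * (C' + 1) + 4 * C₁ with hC
  have hlog : 0 ≤ Real.log Λ := Real.log_nonneg hΛ
  have hℓ1 : 2 * ℓ / 3 + C' * (1 + Real.log Λ) ≤ ℓ - 1 := by nlinarith
  have hℓ3 : 2 * ℓ / 3 ≤ ℓ - 1 := by nlinarith
  have hℓ0 : 0 < ℓ := by linarith
  have h3 : (3 : ℝ) ≤ n := by exact_mod_cast hn
  have ha0 : 0 < aa n := by unfold aa; exact one_div_pos.2 (by linarith)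
  have ha1 : aa n ≤ 1 := by unfold aa; exact (div_le_one (by linarith)).2 (by linarith)
  set k := 1 + aa n + τ₀ with hk
  have hk0 : 0 < k := by linarith
  have hk3 : k ≤ 3 := by linarith
  set ce := (1 - η) / (2 * k) with hce
  have hce0 : 0 ≤ ce := div_nonneg (by linarith) (by linarith)
  set W₁ : E n → ℝ := fun x => ce * eSq g EE x + gradSq g d x / (4 * k) with hW₁
  have hgs := gradSq_nonneg h.riem d
  have hes := fun x => eSq_nonneg (EE := EE) hF x
  have hW₁0 : ∀ x, 0 ≤ W₁ x := fun x => by have := hgs x; have := hes x; positivity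
  have cgs : Continuous (gradSq g d) := (contDiff_gradSq h.riem h.d_smooth).continuous
  have cW₁ : Continuous W₁ := (continuous_const.mul (cont_eSq h hF)).add (cgs.div_const _)
  have iW₁ : Integrable W₁ (nu g) := ((int_eSq hn h hF hΛ).const_mul ce).add
    ((int_cs hF cgs (hasCompactSupport_of_far (R := Λ) fun y hy =>
      gradSq_zero h (h.d_far y hy.le))).div_const _)
  have hΛ0 : 0 < Λ := by linarith
  have u0D : DD g F (fun x => 1 - eta Λ x) 1 (fgrad F fun x => 1 - eta Λ x) :=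
    of_contDiff hF (contDiff_const.sub (smooth_one (contDiff_eta Λ)))
      (hasCompactSupport_of_far (R := 2 * Λ) fun y hy => by simp [eta_eq_zero hΛ0 hy.le])
  refine ⟨fun x => 1 - eta Λ x, fgrad F fun x => 1 - eta Λ x,
    Qf (nu g) W₁ (fun x => 1 - eta Λ x) (fgrad F fun x => 1 - eta Λ x), hD ▸ u0D,
    fun x => ⟨by linarith [eta_le_one Λ x], by linarith [eta_nonneg Λ x]⟩, fun s hs => ?_⟩
  set K := C₂ / s with hK
  have hK0 : 0 ≤ K := by positivity
  obtain ⟨B, hB⟩ := (isCompact_closedBall (0 : E n) Λ).exists_bound_of_continuousOn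
    (continuous_scalarCurv h.riem).continuousOn
  have hB0 : 0 ≤ B := (norm_nonneg _).trans (hB 0 (by simpa using hΛ0.le))
  obtain ⟨PP, cPP, PP0, PPm, PPnn, PPle, PPd⟩ := hsh Λ hΛ (2 * ℓ / 3) (√(k * K + B / 4))
    (Real.sqrt_nonneg _)
  have cPP1 : ContDiff ℝ 1 PP := cPP.of_le (by simp)
  obtain ⟨th, th0, cth, cth0, th_0, th0_0, thm, thz, thd, th01, th0d, th0z⟩ := hp1 ℓ hℓ0
  obtain ⟨th2, cth2, th2m, th2o, th2z, th2d⟩ := hp2 ℓ
  set W : E n → ℝ := fun x => if d x < 2 * ℓ / 3 then W₁ x else if ℓ - 1 ≤ d x then K else 0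
    with hW
  have hWa : ∀ x, d x < 2 * ℓ / 3 → W x = W₁ x := fun x hx => if_pos hx
  have hWb : ∀ x, ℓ - 1 ≤ d x → W x = K := fun x hx => by
    simp only [hW]; rw [if_neg (by linarith), if_pos hx]
  have hWc : ∀ x, 2 * ℓ / 3 ≤ d x → d x < ℓ - 1 → W x = 0 := fun x hx hx' => by
    simp only [hW]; rw [if_neg (by linarith), if_neg (by linarith)]
  have hW0 : ∀ x, 0 ≤ W x := fun x => by
    simp only [hW]; split_ifs
    exacts [hW₁0 x, hK0, le_rfl]
  have cd : Continuous d := h.d_smooth.continuous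
  have m1 : MeasurableSet {x | d x < 2 * ℓ / 3} := (isOpen_lt cd continuous_const).measurableSet
  have m2 : MeasurableSet {x | ℓ - 1 ≤ d x} := (isClosed_le continuous_const cd).measurableSet
  have mW : Measurable W :=
    Measurable.ite m1 cW₁.measurable (Measurable.ite m2 measurable_const measurable_const)
  have hWle : ∀ x, W x ≤ W₁ x + K * eta Λ x := fun x => by
    have := hW₁0 x
    have := mul_nonneg hK0 (eta_nonneg Λ x)
    simp only [hW]; split_ifs with h1 h2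
    · linarith
    · rw [eta_eq_one hΛ0 (far_of_d h (by linarith))]; linarith
    · linarith
  have hC1 : 12 * (C₁ / ℓ) ^ 2 ≤ (C / ℓ) ^ 2 := by
    rw [div_pow, div_pow, ← mul_div_assoc]
    gcongr
    nlinarith
  have hgW : ∀ x, d x < 2 * ℓ / 3 → gradSq g d x ≤ 12 * W x := fun x hx => by
    rw [hWa x hx]
    have h1 : gradSq g d x / 12 ≤ gradSq g d x / (4 * k) :=
      div_le_div_of_nonneg_left (hgs x) (by linarith) (by linarith)
    have := mul_nonneg hce0 (hes x)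
    simp only [hW₁]; linarith
  have PP00 : PP 0 = 0 := PP0 0 (by linarith)
  have hPc : HasCompactSupport fun x => PP (d x) := by simpa [PP00] using hcs_d h PP
  have θD : DD g F (fun y => th (d y)) 1 (fgrad F fun y => th (d y)) := th_0 ▸ dd_d h hF cth
  have dθz : ∀ x, 2 * ℓ / 3 ≤ d x → (fgrad F fun y => th (d y)) x = 0 := fun x hx => by
    have := thd (d x)
    rw [thz _ hx, zero_mul, mul_zero] at this
    rw [fgrad_d h cth, pow_eq_zero_iff (two_ne_zero) |>.1 (le_antisymm this (sq_nonneg _)), zero_smul]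
  refine ⟨{ W := W
            ρ := fun x => scalarCurv g x / 4
            P := fun x => PP (d x)
            θ := fun x => th (d x)
            θ₀ := fun x => th0 (d x)
            e := fun x => if d x < 2 * ℓ / 3 then √ce • fvec g F EE x else 0
            dP := fgrad F fun y => PP (d y)
            dθ := fgrad F fun y => th (d y)
            dθ₀ := fgrad F fun y => th0 (d y)
            W_meas := mW
            W_nonneg := hW0
            W_bdd := ?_
            W_int := ?_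
            e_meas := ?_
            e_le := fun x => ?_
            P_D := hD ▸ (PP00 ▸ dd_d h hF cPP1)
            P_nonneg := fun x => PPnn _
            P_int := int_cs hF (cPP.continuous.comp cd) hPc
            dP_int := int_cs hF (continuous_fgrad hF (cPP1.comp (smooth_one h.d_smooth)))
              (hcs_fgrad (hcs_d h PP))
            curv := fun x => ?_
            θ_D := hD ▸ θD
            θ_mem := fun x => thm _
            dθ_le := fun x => ?_
            θ_P := fun x => ?_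
            θ₀_D := hD ▸ (th0_0 ▸ dd_d h hF cth0)
            θ₀_one := fun x hx => th01 _ hx
            dθ₀_le := fun x => ?_
            flux := fun {u c G} hu => ?_ }, rfl, ?_,
    fun y => th2 (d y), fgrad F fun y => th2 (d y),
    hD ▸ ((th2o 0 (by linarith)).1 ▸ dd_d h hF cth2), fun x => th2m _, fun x => ?_,
    fun x hx => th2z _ hx, fun x hx => ?_⟩
  · obtain ⟨M, hM⟩ := bdd_eSq hn h hΛ
    refine ⟨ce * M + 1 / (4 * k) + K, fun x => (hWle x).trans ?_⟩
    have h1 := hM x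
    have h2 := h.d_lip x
    have h4 := eta_le_one Λ x
    simp only [hW₁]
    gcongr
    exact mul_le_of_le_one_right hK0 h4
  · refine (iW₁.add ((int_cs hF (contDiff_eta Λ).continuous
      (hasCompactSupport_eta hΛ0)).const_mul K)).mono' mW.aestronglyMeasurable
      (ae_of_all _ fun x => ?_)
    rw [Real.norm_of_nonneg (hW0 x)]; exact hWle x
  · exact (Measurable.ite m1 ((continuous_fvec hF fun i =>
      (h.EE_smooth i).continuous).const_smul √ce).measurable measurable_const).aestronglyMeasurable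
  · split_ifs with hx
    · rw [hWa x hx, norm_smul, mul_pow, norm_fvec_sq hF, Real.norm_eq_abs, sq_abs,
        Real.sq_sqrt hce0]
      have := hgs x
      simp only [hW₁]
      exact le_add_of_nonneg_right (by positivity)
    · simpa using hW0 x
  · rw [norm_d h hF cPP1]
    have hΛi : 0 < Λ⁻¹ := inv_pos.2 hΛ0
    rcases lt_or_ge (d x) (2 * ℓ / 3) with hx | hx
    · have e1 : deriv PP (d x) = 0 := IsLocalMin.deriv_eq_zero (.of_forall fun y => by
        rw [PP0 _ hx.le]; exact PPnn y)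
      have e2 : k * W₁ x = (2 * (1 - η) * eSq g EE x + gradSq g d x) / 4 := by
        simp only [hW₁, hce]; field_simp; ring
      rw [hWa x hx, e1, PP0 _ hx.le, e2]
      rcases (h.d_nonneg x).eq_or_lt with h0 | h0
      · have := h.R_out x (by linarith)
        rw [gradSq_zero h h0.symm]; simp; linarith
      · have := h.R_neck x h0 (by linarith)
        simp; linarith
    rcases lt_or_ge (d x) (ℓ - 1) with hx' | hx'
    · have h1 := h.R_neck x (by linarith) (by linarith)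
      have h2 := PPd (d x) √(gradSq g d x) ⟨Real.sqrt_nonneg _, Real.sqrt_le_one.2 (h.d_lip x)⟩
      rw [Real.sq_sqrt (hgs x)] at h2
      have h4 : 0 ≤ 2 * (1 - η) * eSq g EE x := mul_nonneg (by linarith) (hes x)
      rw [hWc x hx hx']; linarith
    · have e0 := PPm (d x) (by linarith)
      have e1 : deriv PP (d x) = 0 := IsLocalMax.deriv_eq_zero (.of_forall fun y => by
        rw [e0]; exact PPle y)
      have h1 := (abs_le.1 (hB x (by simpa using far_of_d h (x := x) (by linarith)))).1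
      rw [hWb x hx', e1, e0, Real.sq_sqrt (by positivity)]
      simp; linarith
  · rcases lt_or_ge (d x) (2 * ℓ / 3) with hx | hx
    · rw [norm_sq_d h hF cth]
      have h1 : 0 ≤ th (d x) * (1 - th (d x)) := mul_nonneg (thm _).1 (by linarith [(thm (d x)).2])
      calc deriv th (d x) ^ 2 * gradSq g d x
          ≤ (4 * (C₁ / ℓ) ^ 2 * (th (d x) * (1 - th (d x)))) * (12 * W x) :=
            mul_le_mul (thd _) (hgW x hx) (hgs x) (by positivity)
        _ = 4 * (12 * (C₁ / ℓ) ^ 2) * (th (d x) * (1 - th (d x))) * W x := by ring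
        _ ≤ _ := by have := hW0 x; gcongr
    · simp [dθz x hx, thz _ hx]
  · rcases le_total (d x) (2 * ℓ / 3) with hx | hx
    · simp [PP0 _ hx]
    · simp [thz _ hx]
  · rw [norm_sq_d h hF cth0]
    rcases lt_or_ge (d x) (2 * ℓ / 3) with hx | hx
    · calc deriv th0 (d x) ^ 2 * gradSq g d x ≤ (C₁ / ℓ) ^ 2 * (12 * W x) :=
            mul_le_mul (th0d _) (hgW x hx) (hgs x) (by positivity)
        _ = (12 * (C₁ / ℓ) ^ 2) * W x := by ring
        _ ≤ _ := by have := hW0 x; gcongr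
    · have := hW0 x
      rw [th0z _ hx]; simp; positivity
  · have h1 := 𝒟.mul (hD ▸ θD) hu
    rw [hD, one_mul] at h1
    have h2 := flux_eq' hn h hF hΛ hℓ0 h1 fun x hx => by rw [thz _ (by linarith), zero_mul]
    have e : c * qq n η τ₀ Q = √ce * (c * (unitSphereArea n * Q)) := by
      simp only [qq, hce, hk]; ring
    rw [e, ← h2, ← integral_const_mul]
    refine integral_congr_ae (ae_of_all _ fun x => ?_)
    simp only
    split_ifs with hx
    · rw [real_inner_smul_left]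
    · simp [dθz x (not_lt.1 hx), thz _ (not_lt.1 hx)]
  · refine le_of_eq (integral_congr_ae (ae_of_all _ fun x => ?_))
    simp only
    rcases le_total ‖x‖ Λ with hx | hx
    · simp [eta_eq_one hΛ0 hx]
    · rw [hWa x (by rw [h.d_far x hx]; linarith)]
  · simp only
    rw [norm_d h hF cth2]
    rcases lt_or_ge (d x) (ℓ - 1) with hx | hx
    · have := hW0 x
      rw [(th2o _ hx.le).2]; simp; positivity
    · rw [hWb x hx, hK, mul_div_cancel₀ _ hs.ne']
      exact (mul_le_of_le_one_right (abs_nonneg _) (Real.sqrt_le_one.2 (h.d_lip x))).trans (th2d _)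
  · have : d x = 0 := h.d_far x (by simpa using (not_le.1 (by simpa using hx)).le)
    exact (th2o _ (by rw [this]; linarith)).1

end Crest.Agent.N346.P2

end
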