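import Crest.Agent.N346.P2.Abs

/-! Row 346, P2a: the one-dimensional profiles, as splines of truncated powers (helper20). -/

set_option autoImplicit false
open Set

noncomputable section
namespace Crest.Agent.N346.P2
namespace Prf

/-- truncated power -/
def tp (k : ℕ) (x : ℝ) : ℝ := max x 0 ^ k

theorem tp_nonneg (k : ℕ) (x : ℝ) : 0 ≤ tp k x := pow_nonneg (le_max_right _ _) k

theorem tp_of_nonneg (k : ℕ) {x : ℝ} (h : 0 ≤ x) : tp k x = x ^ k := by rw [tp, max_eq_left h]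

theorem tp_of_nonpos (k : ℕ) {x : ℝ} (h : x ≤ 0) : tp (k + 1) x = 0 := by
  rw [tp, max_eq_right h, zero_pow k.succ_ne_zero]

@[fun_prop] theorem continuous_tp (k : ℕ) : Continuous (tp k) := by unfold tp; fun_prop

theorem hasDerivAt_tp (k : ℕ) (x : ℝ) :
    HasDerivAt (tp (k + 2)) (((k : ℝ) + 2) * tp (k + 1) x) x := by
  rcases lt_trichotomy x 0 with h | rfl | h
  · rw [tp_of_nonpos k h.le, mul_zero]
    refine (hasDerivAt_const x (0 : ℝ)).congr_of_eventuallyEq ?_
    filter_upwards [Iio_mem_nhds h] with y hy using tp_of_nonpos (k + 1) (le_of_lt hy)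
  · rw [tp_of_nonpos k le_rfl, mul_zero, hasDerivAt_iff_tendsto_slope_zero]
    have h1 := ((continuous_tp (k + 1)).tendsto 0).mono_left
      (nhdsWithin_le_nhds (s := {(0 : ℝ)}ᶜ))
    rw [tp_of_nonpos k le_rfl] at h1
    refine h1.congr' ?_
    filter_upwards [self_mem_nhdsWithin] with t ht
    have ht' : t ≠ 0 := ht
    rw [zero_add, tp_of_nonpos (k + 1) le_rfl, sub_zero, smul_eq_mul]
    rcases le_total t 0 with h | h
    · rw [tp_of_nonpos k h, tp_of_nonpos (k + 1) h, mul_zero]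
    · rw [tp_of_nonneg _ h, tp_of_nonneg _ h]; field_simp; ring
  · rw [tp_of_nonneg _ h.le]
    refine ((hasDerivAt_pow (k + 2) x).congr_deriv (by push_cast; rfl)).congr_of_eventuallyEq ?_
    filter_upwards [Ioi_mem_nhds h] with y hy using tp_of_nonneg _ (le_of_lt hy)

theorem hasDerivAt_tp_aff (k : ℕ) (a b x : ℝ) :
    HasDerivAt (fun s => tp (k + 2) (a * s + b)) (((k : ℝ) + 2) * tp (k + 1) (a * x + b) * a) x := by
  have h : HasDerivAt (fun s => a * s + b) a x := by
    simpa using ((hasDerivAt_id x).const_mul a).add_const b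
  exact (hasDerivAt_tp k (a * x + b)).comp x h

theorem mvt {f f' : ℝ → ℝ} (hf : ∀ t, HasDerivAt f (f' t) t) (h0 : f 0 = 0) {r C : ℝ}
    (hC : ∀ t, |t| ≤ r → |f' t| ≤ C) {t : ℝ} (ht : |t| ≤ r) : |f t| ≤ C * r := by
  have hr : 0 ≤ r := (abs_nonneg _).trans ht
  have := (convex_Icc (-r) r).norm_image_sub_le_of_norm_hasDerivWithin_le (f := f) (f' := f')
    (C := C) (x := 0) (y := t) (fun x _ => (hf x).hasDerivWithinAt)
    (fun x hx => hC x (abs_le.2 hx)) ⟨by linarith, hr⟩ (abs_le.1 ht)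
  rw [h0, sub_zero, sub_zero, Real.norm_eq_abs, Real.norm_eq_abs] at this
  exact this.trans (mul_le_mul_of_nonneg_left ht ((abs_nonneg _).trans (hC 0 (by simpa using hr))))

theorem taylor3 {F F₁ F₂ F₃ : ℝ → ℝ} (h₁ : ∀ t, HasDerivAt F (F₁ t) t)
    (h₂ : ∀ t, HasDerivAt F₁ (F₂ t) t) (h₃ : ∀ t, HasDerivAt F₂ (F₃ t) t) (hc : Continuous F₃) :
    ∃ K : ℝ, ∀ s ∈ Icc (0 : ℝ) 1, ∀ h : ℝ, |h| ≤ 1 →
      |F (s + h) - F s - F₁ s * h - F₂ s / 2 * h ^ 2| ≤ K * |h| ^ 3 := by
  obtain ⟨K, hK⟩ := (isCompact_Icc (a := (-1 : ℝ)) (b := 2)).exists_bound_of_continuousOn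
    hc.continuousOn
  refine ⟨K, fun s hs h hh => ?_⟩
  have sh : ∀ {G G' : ℝ → ℝ}, (∀ t, HasDerivAt G (G' t) t) → ∀ t,
      HasDerivAt (fun t => G (s + t)) (G' (s + t)) t := fun hG t => (hG (s + t)).comp_const_add s t
  have a3 : ∀ t, |t| ≤ |h| → |F₂ (s + t) - F₂ s| ≤ K * |h| := fun t ht =>
    mvt (fun t => (sh h₃ t).sub_const (F₂ s)) (by simp) (fun u hu => hK _ (by
      have := abs_le.1 (hu.trans hh)
      constructor <;> linarith [hs.1, hs.2])) ht
  have a2 : ∀ t, |t| ≤ |h| → |F₁ (s + t) - F₁ s - F₂ s * t| ≤ K * |h| * |h| := fun t ht =>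
    mvt (f := fun t => F₁ (s + t) - F₁ s - F₂ s * t) (fun t => by
      simpa using ((sh h₂ t).sub_const (F₁ s)).fun_sub ((hasDerivAt_id t).const_mul (F₂ s)))
      (by simp) a3 ht
  refine (mvt (f := fun t => F (s + t) - F s - F₁ s * t - F₂ s / 2 * t ^ 2) (fun t => ?_) (by simp) a2
    le_rfl).trans_eq (by ring)
  refine ((((sh h₁ t).sub_const (F s)).fun_sub ((hasDerivAt_id t).const_mul (F₁ s))).fun_sub
    ((hasDerivAt_pow 2 t).const_mul (F₂ s / 2))).congr_deriv ?_
  push_cast; ring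

/-- the spline of order `k` with knots `0, 1/2, 1` -/
def sp (k : ℕ) (v : ℝ) : ℝ := tp k v - 2 * tp k (v - 1 / 2) + tp k (v - 1)

theorem hasDerivAt_sp (k : ℕ) (a b x : ℝ) :
    HasDerivAt (fun s => sp (k + 2) (a * s + b)) (((k : ℝ) + 2) * sp (k + 1) (a * x + b) * a) x := by
  simp only [sp, add_sub_assoc]
  refine (((hasDerivAt_tp_aff k a b x).fun_sub
    ((hasDerivAt_tp_aff k a (b - 1 / 2) x).const_mul 2)).fun_add
    (hasDerivAt_tp_aff k a (b - 1) x)).congr_deriv ?_
  ring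

theorem sp_of_nonpos (k : ℕ) {v : ℝ} (h : v ≤ 0) : sp (k + 1) v = 0 := by
  rw [sp, tp_of_nonpos k h, tp_of_nonpos k (by linarith), tp_of_nonpos k (by linarith)]; ring

theorem sp_of_one_le {v : ℝ} (h : 1 ≤ v) :
    sp 1 v = 0 ∧ sp 2 v = 1 / 2 ∧ sp 3 v = 3 / 2 * (v - 1 / 2) := by
  simp only [sp, tp_of_nonneg _ (by linarith : 0 ≤ v), tp_of_nonneg _ (by linarith : 0 ≤ v - 1 / 2),
    tp_of_nonneg _ (by linarith : 0 ≤ v - 1)]
  refine ⟨?_, ?_, ?_⟩ <;> ring

theorem sp_mid {v : ℝ} (h0 : 0 ≤ v) (h1 : v ≤ 1) :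
    0 ≤ sp 1 v ∧ 0 ≤ sp 2 v ∧ sp 2 v ≤ 1 / 2 ∧ 0 ≤ sp 3 v ∧ 3 / 2 * (v - 1 / 2) ≤ sp 3 v ∧
      sp 3 v ≤ 3 * v * sp 2 v := by
  have e1 := tp_of_nonpos 0 (sub_nonpos.2 h1)
  have e2 := tp_of_nonpos 1 (sub_nonpos.2 h1)
  have e3 := tp_of_nonpos 2 (sub_nonpos.2 h1)
  rcases le_total v (1 / 2) with h | h
  · simp only [sp, tp_of_nonneg _ h0, e1, e2, e3, tp_of_nonpos 0 (sub_nonpos.2 h),
      tp_of_nonpos 1 (sub_nonpos.2 h), tp_of_nonpos 2 (sub_nonpos.2 h)]
    refine ⟨?_, ?_, ?_, ?_, ?_, ?_⟩ <;> nlinarith [pow_nonneg h0 3, pow_nonneg h0 2]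
  · simp only [sp, tp_of_nonneg _ h0, e1, e2, e3, tp_of_nonneg _ (sub_nonneg.2 h)]
    have a1 : 0 ≤ (1 - v) ^ 3 := pow_nonneg (by linarith) 3
    have a2 : (1 - v) ^ 2 ≤ 1 / 4 := by nlinarith
    refine ⟨?_, ?_, ?_, ?_, ?_, ?_⟩ <;>
      nlinarith [sq_nonneg (1 - v), mul_nonneg h0 (sub_nonneg.2 a2)]

theorem sp_all (v : ℝ) : 0 ≤ sp 1 v ∧ 0 ≤ sp 2 v ∧ sp 2 v ≤ 1 / 2 ∧ 0 ≤ sp 3 v := by
  rcases le_total v 0 with h | h
  · simp [sp_of_nonpos 0 h, sp_of_nonpos 1 h, sp_of_nonpos 2 h]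
  rcases le_total v 1 with h' | h'
  · obtain ⟨a, b, c, d, -⟩ := sp_mid h h'
    exact ⟨a, b, c, d⟩
  · obtain ⟨a, b, c⟩ := sp_of_one_le h'
    rw [a, b, c]
    refine ⟨le_rfl, by norm_num, le_rfl, by linarith⟩

end Prf

open Prf in
theorem prof : ProfStmt := by
  refine ⟨12, by norm_num, fun ε hε hε' => ?_⟩
  have hct : 0 < 1 - 3 / 2 * ε := by linarith
  set κ := (1 - 3 / 2 * ε)⁻¹ with hκ
  have hκ0 : 0 < κ := by positivity
  have hκ1 : κ * (1 - 3 / 2 * ε) = 1 := inv_mul_cancel₀ hct.ne'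
  have hκ2 : 1 ≤ κ := by nlinarith
  have hκ3 : κ ≤ 1 + 4 * ε := by nlinarith [mul_pos hε hε]
  set e := ε⁻¹ with he
  have he0 : 0 < e := by positivity
  have he1 : e * ε = 1 := inv_mul_cancel₀ hε.ne'
  have hu : ∀ s, ε ≤ s → -e * s + 1 ≤ 0 := fun s hs => by nlinarith
  have hu1 : ∀ s ∈ Icc (0 : ℝ) 1, max (-e * s + 1) 0 ≤ 1 := fun s hs =>
    max_le (by nlinarith [hs.1]) zero_le_one
  have hv0 : ∀ s, s ≤ ε → e * s + -1 ≤ 0 := fun s hs => by nlinarith
  have hv1 : ∀ s, 2 * ε ≤ s → 1 ≤ e * s + -1 := fun s hs => by nlinarith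
  have hv2 : ∀ s, ε ≤ s → 0 ≤ e * s + -1 := fun s hs => by nlinarith
  have hv3 : ∀ s, s ≤ 2 * ε → e * s + -1 ≤ 1 := fun s hs => by nlinarith
  have hB1 : 2 * κ * sp 2 (e * 1 + -1) = κ := by
    rw [(sp_of_one_le (hv1 1 (by linarith))).2.1]; ring
  have hp : ∀ s, HasDerivAt (fun s => 1 - tp 4 (-e * s + 1)) (4 * e * tp 3 (-e * s + 1)) s :=
    fun s => ((hasDerivAt_tp_aff 2 (-e) 1 s).const_sub 1).congr_deriv (by push_cast; ring)
  have hp' : ∀ s, HasDerivAt (fun s => 4 * e * tp 3 (-e * s + 1))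
      (-(12 * e ^ 2 * tp 2 (-e * s + 1))) s :=
    fun s => ((hasDerivAt_tp_aff 1 (-e) 1 s).const_mul _).congr_deriv (by push_cast; ring)
  have hp'' : ∀ s, HasDerivAt (fun s => -(12 * e ^ 2 * tp 2 (-e * s + 1)))
      (24 * e ^ 3 * tp 1 (-e * s + 1)) s :=
    fun s => ((hasDerivAt_tp_aff 0 (-e) 1 s).const_mul _).fun_neg.congr_deriv (by push_cast; ring)
  have hBs : ∀ s, 2 * ε ≤ s → 2 / 3 * ε * κ * sp 3 (e * s + -1) = κ * (s - 3 / 2 * ε) := fun s hs => by
    rw [(sp_of_one_le (hv1 s hs)).2.2]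
    linear_combination κ * s * he1
  refine ⟨{
    p := fun s => 1 - tp 4 (-e * s + 1)
    p' := fun s => 4 * e * tp 3 (-e * s + 1)
    p'' := fun s => -(12 * e ^ 2 * tp 2 (-e * s + 1))
    hp := hp
    hp' := hp'
    cp'' := by fun_prop
    p_zero := by simp [tp]
    p_one := fun s hs => by simp only [tp_of_nonpos 3 (hu s hs), sub_zero]
    p'_zero := fun s hs => by simp only [tp_of_nonpos 2 (hu s hs), mul_zero]
    p''_zero := fun s hs => by simp only [tp_of_nonpos 1 (hu s hs), mul_zero, neg_zero]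
    p'_nonneg := fun s => mul_nonneg (by positivity) (tp_nonneg _ _)
    p''_nonpos := fun s => neg_nonpos.2 (mul_nonneg (by positivity) (tp_nonneg _ _))
    p_le_one := fun s => sub_le_self _ (tp_nonneg _ _)
    p'_le := fun s hs => by
      have : tp 3 (-e * s + 1) ≤ 1 := pow_le_one₀ (le_max_right _ _) (hu1 s hs)
      rw [div_eq_mul_inv, ← he]
      nlinarith
    p''_le := fun s hs => by
      have : tp 2 (-e * s + 1) ≤ 1 := pow_le_one₀ (le_max_right _ _) (hu1 s hs)
      rw [div_eq_mul_inv, ← inv_pow, ← he, neg_neg]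
      nlinarith [sq_nonneg e]
    p'_le_p'' := fun s hs => by
      have h1 : tp 3 (-e * s + 1) ≤ tp 2 (-e * s + 1) :=
        pow_le_pow_of_le_one (le_max_right _ _) (hu1 s hs) (by norm_num)
      have h2 : 12 * ε * - -(12 * e ^ 2 * tp 2 (-e * s + 1)) = 144 * e * tp 2 (-e * s + 1) := by
        linear_combination 144 * e * tp 2 (-e * s + 1) * he1
      rw [h2]
      nlinarith [mul_nonneg he0.le (tp_nonneg 2 (-e * s + 1))]
    le_p := fun s hs => by
      rcases le_total ε s with h | h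
      · simp only [tp_of_nonpos 3 (hu s h), sub_zero, min_le_right]
      · refine (min_le_left _ _).trans ?_
        have h0 : 0 ≤ -e * s + 1 := by nlinarith
        have h1 : (-e * s + 1) ^ 4 ≤ -e * s + 1 :=
          pow_le_of_le_one h0 (by nlinarith [hs.1]) (by norm_num)
        rw [tp_of_nonneg _ h0, div_eq_mul_inv, ← he]
        linarith
    mul_p'_le := fun s hs => by
      rcases le_total ε s with h | h
      · simp only [tp_of_nonpos 3 (hu s h), tp_of_nonpos 2 (hu s h)]; norm_num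
      · have h0 : 0 ≤ -e * s + 1 := by nlinarith
        have h1 : -e * s + 1 ≤ 1 := by nlinarith [hs.1]
        simp only [tp_of_nonneg _ h0]
        have h2 : s * (4 * e * (-e * s + 1) ^ 3) = 4 * (1 - (-e * s + 1)) * (-e * s + 1) ^ 3 := by
          ring
        rw [h2]
        generalize -e * s + 1 = u at h0 h1
        have h3 : u ^ 3 ≤ u ^ 2 := pow_le_pow_of_le_one h0 h1 (by norm_num)
        have h4 : u ^ 2 ≤ u := pow_le_of_le_one h0 h1 (by norm_num)
        nlinarith [mul_nonneg (sub_nonneg.2 h1)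
          (by linarith : 0 ≤ 1 + u + u ^ 2 + u ^ 3 - 4 * u ^ 3)]
    taylor := by
      obtain ⟨K, hK⟩ := taylor3 (fun s => (hp s).fun_mul (hp s))
        (fun s => ((hp' s).fun_mul (hp s)).fun_add ((hp s).fun_mul (hp' s)))
        (fun s => (((hp'' s).fun_mul (hp s)).fun_add ((hp' s).fun_mul (hp' s))).fun_add
          (((hp' s).fun_mul (hp' s)).fun_add ((hp s).fun_mul (hp'' s)))) (by fun_prop)
      refine ⟨K, fun s hs h hh => le_of_eq_of_le ?_ (hK s hs h hh)⟩
      congr 1; ring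
    B := fun s => 2 / 3 * ε * κ * sp 3 (e * s + -1)
    B' := fun s => 2 * κ * sp 2 (e * s + -1)
    B'' := fun s => 4 * κ * e * sp 1 (e * s + -1)
    hB := fun s => ((hasDerivAt_sp 1 e (-1) s).const_mul _).congr_deriv (by
      push_cast; linear_combination 2 * κ * sp 2 (e * s + -1) * he1)
    hB' := fun s => ((hasDerivAt_sp 0 e (-1) s).const_mul _).congr_deriv (by push_cast; ring)
    cB'' := by unfold sp; fun_prop
    B_zero := fun s hs => by simp only [sp_of_nonpos 2 (hv0 s hs), mul_zero]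
    B'_zero := fun s hs => by simp only [sp_of_nonpos 1 (hv0 s hs), mul_zero]
    B''_zero := fun s hs => by
      rcases hs with hs | hs
      · simp only [sp_of_nonpos 0 (hv0 s hs), mul_zero]
      · simp only [(sp_of_one_le (hv1 s hs)).1, mul_zero]
    B'_top := fun s hs => by
      simp only [(sp_of_one_le (hv1 s hs)).2.1, (sp_of_one_le (hv1 1 (by linarith))).2.1]
    B_one := by simp only [hBs 1 (by linarith), hκ1]
    B''_nonneg := fun s => mul_nonneg (by positivity) (sp_all _).1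
    B'_nonneg := fun s => mul_nonneg (by positivity) (sp_all _).2.1
    B'_le := fun s => by
      simp only [hB1]
      nlinarith [(sp_all (e * s + -1)).2.2.1]
    one_le_B'_one := by simp only [hB1, hκ2]
    B'_one_le := by simp only [hB1, hκ3]
    B_nonneg := fun s => mul_nonneg (by positivity) (sp_all _).2.2.2
    B_le := fun s hs => by
      rcases le_total s ε with h | h
      · simp only [sp_of_nonpos 2 (hv0 s h), mul_zero, hs.1]
      rcases le_total s (2 * ε) with h' | h'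
      · obtain ⟨-, a1, a2, -, -, a3⟩ := sp_mid (hv2 s h) (hv3 s h')
        have a4 : sp 3 (e * s + -1) ≤ 3 / 2 * (e * s + -1) := by nlinarith [hv2 s h]
        have a5 : ε * sp 3 (e * s + -1) ≤ 3 / 2 * (s - ε) := by nlinarith
        have a6 : κ * (s - ε) ≤ s := by nlinarith
        nlinarith
      · simp only [hBs s h']
        nlinarith [mul_nonneg (mul_nonneg hκ0.le hε.le) (sub_nonneg.2 hs.2)]
    sub_B_le := fun s hs => by
      rcases le_total s (2 * ε) with h' | h'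
      · have : 0 ≤ 2 / 3 * ε * κ * sp 3 (e * s + -1) :=
          mul_nonneg (by positivity) (sp_all _).2.2.2
        linarith
      · simp only [hBs s h']
        nlinarith
    tang_nonneg := fun s hs => by
      rcases le_total s ε with h | h
      · simp only [sp_of_nonpos 2 (hv0 s h), sp_of_nonpos 1 (hv0 s h)]; norm_num
      rcases le_total s (2 * ε) with h' | h'
      · obtain ⟨-, a1, a2, -, -, a3⟩ := sp_mid (hv2 s h) (hv3 s h')
        have a5 : ε * sp 3 (e * s + -1) ≤ 3 * (s - ε) * sp 2 (e * s + -1) := by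
          refine (mul_le_mul_of_nonneg_left a3 hε.le).trans_eq ?_
          linear_combination 3 * s * sp 2 (e * s + -1) * he1
        nlinarith [mul_le_mul_of_nonneg_left a5 hκ0.le, mul_nonneg (mul_pos hκ0 hε).le a1]
      · simp only [hBs s h', (sp_of_one_le (hv1 s h')).2.1]
        nlinarith
    tang_le := fun s hs => by
      rcases le_total s (2 * ε) with h' | h'
      · have a1 : 0 ≤ 2 / 3 * ε * κ * sp 3 (e * s + -1) :=
          mul_nonneg (by positivity) (sp_all _).2.2.2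
        obtain ⟨-, a2, a3, -⟩ := sp_all (e * s + -1)
        have a4 : 2 * κ * sp 2 (e * s + -1) ≤ 2 := by nlinarith
        nlinarith [hs.1, mul_le_mul_of_nonneg_left a4 hs.1]
      · simp only [hBs s h', (sp_of_one_le (hv1 s h')).2.1]
        nlinarith
    m := fun s => s - ε * (tp 2 (e / 2 * s + -1) - tp 2 (e / 2 * s + -2))
    m' := fun s => 1 - (tp 1 (e / 2 * s + -1) - tp 1 (e / 2 * s + -2))
    hm := fun s => ((hasDerivAt_id s).fun_sub (((hasDerivAt_tp_aff 0 (e / 2) (-1) s).fun_sub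
      (hasDerivAt_tp_aff 0 (e / 2) (-2) s)).const_mul ε)).congr_deriv (by
        push_cast
        linear_combination -(tp 1 (e / 2 * s + -1) - tp 1 (e / 2 * s + -2)) * he1)
    cm' := by fun_prop
    m'_one := fun s hs => by
      have h1 := hv3 s hs.2
      simp only [tp_of_nonpos 0 (by linarith : e / 2 * s + -1 ≤ 0),
        tp_of_nonpos 0 (by linarith : e / 2 * s + -2 ≤ 0), sub_zero]
    m'_nonneg := fun s => by
      simp only [tp, pow_one, sub_nonneg, sub_le_iff_le_add]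
      exact max_le (by linarith [le_max_left (e / 2 * s + -2) 0])
        (by linarith [le_max_right (e / 2 * s + -2) 0])
    m_nonneg := fun s hs => by
      have hs' : s = 2 * ε * (e / 2 * s + -1 + 1) := by linear_combination -s * he1
      have e2 : e / 2 * s + -2 = e / 2 * s + -1 - 1 := by ring
      simp only [e2]
      generalize e / 2 * s + -1 = w at hs'
      rcases le_total w 0 with h | h
      · simp only [tp_of_nonpos 1 h, tp_of_nonpos 1 (by linarith : w - 1 ≤ 0), sub_zero, mul_zero,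
          hs.1]
      rcases le_total w 1 with h' | h'
      · simp only [tp_of_nonneg _ h, tp_of_nonpos 1 (sub_nonpos.2 h')]
        nlinarith [mul_nonneg hε.le (mul_nonneg h (sub_nonneg.2 h'))]
      · simp only [tp_of_nonneg _ h, tp_of_nonneg _ (sub_nonneg.2 h')]
        nlinarith
    m_le := fun s hs => by
      have hs' : s = 2 * ε * (e / 2 * s + -1 + 1) := by linear_combination -s * he1
      have e2 : e / 2 * s + -2 = e / 2 * s + -1 - 1 := by ring
      simp only [e2]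
      generalize e / 2 * s + -1 = w at hs'
      rcases le_total w 0 with h | h
      · simp only [tp_of_nonpos 1 h, tp_of_nonpos 1 (by linarith : w - 1 ≤ 0), sub_zero, mul_zero]
        exact le_min le_rfl (by nlinarith)
      rcases le_total w 1 with h' | h'
      · simp only [tp_of_nonneg _ h, tp_of_nonpos 1 (sub_nonpos.2 h')]
        exact le_min (by nlinarith [mul_nonneg hε.le (sq_nonneg w)])
          (by nlinarith [mul_nonneg hε.le (sq_nonneg (1 - w))])
      · simp only [tp_of_nonneg _ h, tp_of_nonneg _ (sub_nonneg.2 h')]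
        exact le_min (by nlinarith) (by nlinarith) }⟩

end Crest.Agent.N346.P2
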