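import Crest.Agent.N346.P2.Conc

/-! Row 346, P2: the shield profile `shield : ShieldStmt` (helper14). -/

set_option autoImplicit false
open Set
open scoped ContDiff

noncomputable section
namespace Crest.Agent.N346.P2

theorem exists_deriv_smoothTransition_bound :
    ∃ C : ℝ, 1 ≤ C ∧ ∀ s, |deriv Real.smoothTransition s| ≤ C := by
  have hc : Continuous (deriv Real.smoothTransition) :=
    (Real.smoothTransition.contDiff (n := 1)).continuous_deriv le_rfl
  obtain ⟨C, hC⟩ := (isCompact_Icc (a := (0 : ℝ)) (b := 1)).exists_bound_of_continuousOn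
    hc.continuousOn
  refine ⟨max 1 C, le_max_left _ _, fun s => ?_⟩
  by_cases hs : s ∈ Icc (0 : ℝ) 1
  · exact (hC s hs).trans (le_max_right _ _)
  · have : deriv Real.smoothTransition s = 0 := by
      rcases not_and_or.1 hs with h | h
      · exact IsLocalMin.deriv_eq_zero (.of_forall fun y =>
          (Real.smoothTransition.zero_of_nonpos (not_le.1 h).le).le.trans
            (Real.smoothTransition.nonneg y))
      · exact IsLocalMax.deriv_eq_zero (.of_forall fun y => (Real.smoothTransition.le_one y).trans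
          (Real.smoothTransition.one_of_one_le (not_le.1 h).le).ge)
    rw [this, abs_zero]; positivity

theorem shield : ShieldStmt := by
  obtain ⟨Cs, hCs, hd⟩ := exists_deriv_smoothTransition_bound
  refine ⟨8 * Cs, by linarith, fun Λ hΛ s₀ Pm hPm => ?_⟩
  have hΛ0 : 0 < Λ := by linarith
  set T : ℝ := Real.log (1 + 2 * Λ) with hT
  have hT0 : 0 < T := Real.log_pos (by linarith)
  have hlog := Real.log_nonneg hΛ
  have hT1 : T ≤ 2 * (1 + Real.log Λ) := by
    have h1 : T ≤ Real.log (3 * Λ) := Real.log_le_log (by linarith) (by linarith)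
    rw [Real.log_mul (by norm_num) hΛ0.ne'] at h1
    linarith [Real.log_le_sub_one_of_pos (show (0 : ℝ) < 3 by norm_num)]
  have heT : Real.exp T = 1 + 2 * Λ := Real.exp_log (by linarith)
  set L : ℝ := 4 * Cs * T with hL
  have hL0 : 0 < L := by positivity
  set pm : ℝ := Pm / (1 + Pm) with hpm
  have hpm0 : 0 ≤ pm := by positivity
  have hpm1 : pm < 1 := (div_lt_one (by positivity)).2 (by linarith)
  set e : ℝ → ℝ := fun s => Real.exp (T * Real.smoothTransition ((s - s₀) / L)) with he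
  have he1 : ∀ s, 1 ≤ e s := fun s =>
    Real.one_le_exp (mul_nonneg hT0.le (Real.smoothTransition.nonneg _))
  have he2 : ∀ s, e s ≤ 1 + 2 * Λ := fun s => by
    rw [← heT]
    exact Real.exp_le_exp.2 (mul_le_of_le_one_right hT0.le (Real.smoothTransition.le_one _))
  set ψ : ℝ → ℝ := fun s => pm * ((e s - 1) / (2 * Λ)) with hψ
  have hψ0 : ∀ s, 0 ≤ ψ s := fun s => mul_nonneg hpm0 (div_nonneg (by linarith [he1 s]) (by linarith))
  have hψ1 : ∀ s, ψ s ≤ pm := fun s =>
    mul_le_of_le_one_right hpm0 ((div_le_one (by linarith)).2 (by linarith [he2 s]))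
  have hψ2 : ∀ s, 0 < 1 - ψ s := fun s => by linarith [hψ1 s]
  have hψc : ContDiff ℝ ∞ ψ := contDiff_const.mul (((Real.contDiff_exp.comp (contDiff_const.mul
    (Real.smoothTransition.contDiff.comp ((contDiff_id.sub contDiff_const).div_const L)))).sub
    contDiff_const).div_const _)
  have hPm' : pm / (1 - pm) = Pm := by rw [hpm]; field_simp; ring
  refine ⟨fun s => ψ s / (1 - ψ s), hψc.div (contDiff_const.sub hψc) fun s => (hψ2 s).ne',
    fun s hs => ?_, fun s hs => ?_, fun s => div_nonneg (hψ0 s) (hψ2 s).le, fun s => ?_,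
    fun s t ht => ?_⟩
  · simp [hψ, he, Real.smoothTransition.zero_of_nonpos
      (div_nonpos_of_nonpos_of_nonneg (sub_nonpos.2 hs) hL0.le)]
  · have h1 : Real.smoothTransition ((s - s₀) / L) = 1 :=
      Real.smoothTransition.one_of_one_le ((one_le_div hL0).2 (by nlinarith))
    have h2 : ψ s = pm := by
      simp only [hψ, he, h1, mul_one, heT, add_sub_cancel_left]
      rw [div_self (by linarith), mul_one]
    simp only [h2, hPm']
  · rw [← hPm']
    exact div_le_div₀ hpm0 (hψ1 s) (by linarith) (by linarith [hψ1 s])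
  · have h1 : HasDerivAt ψ (pm * (e s * (T * (deriv Real.smoothTransition ((s - s₀) / L) * (1 / L)))
        / (2 * Λ))) s :=
      ((((((Real.smoothTransition.contDiff (n := 1)).differentiable one_ne_zero _).hasDerivAt.comp s
        (((hasDerivAt_id s).sub_const s₀).div_const L)).const_mul T).exp.sub_const 1).div_const
        (2 * Λ)).const_mul pm
    have h2 := (h1.div (h1.const_sub 1) (hψ2 s).ne').deriv
    have h3 : |T * (deriv Real.smoothTransition ((s - s₀) / L) * (1 / L))| ≤ 1 / 4 := by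
      rw [abs_mul, abs_mul, abs_of_pos hT0, abs_of_pos (by positivity : 0 < 1 / L)]
      calc _ ≤ T * (Cs * (1 / L)) := by gcongr; exact hd _
        _ = _ := by rw [hL]; field_simp
    generalize T * (deriv Real.smoothTransition ((s - s₀) / L) * (1 / L)) = r at h1 h2 h3
    have h4 : |pm * (e s * r / (2 * Λ))| ≤ ψ s / 4 + Λ⁻¹ / 8 := by
      have := he1 s
      rw [abs_mul, abs_of_nonneg hpm0, abs_div, abs_mul, abs_of_nonneg (by linarith : 0 ≤ e s),
        abs_of_pos (by linarith : 0 < 2 * Λ)]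
      calc _ ≤ pm * (e s * (1 / 4) / (2 * Λ)) := by gcongr
        _ = ψ s / 4 + pm * (Λ⁻¹ / 8) := by simp only [hψ]; field_simp; ring
        _ ≤ ψ s / 4 + 1 * (Λ⁻¹ / 8) := by gcongr
        _ = _ := by ring
    generalize pm * (e s * r / (2 * Λ)) = D at h2 h4
    have h5 := hψ2 s
    have h6 := hψ0 s
    obtain ⟨P, hP⟩ : ∃ P, P = ψ s / (1 - ψ s) := ⟨_, rfl⟩
    have hP0 : 0 ≤ P := hP ▸ div_nonneg h6 h5.le
    have h7 : deriv (fun s => ψ s / (1 - ψ s)) s = D * (1 + P) ^ 2 := by
      refine h2.trans ?_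
      rw [hP]; field_simp; ring
    have h8 : ψ s * (1 + P) = P := by rw [hP]; field_simp; ring
    have hΛ1 : Λ⁻¹ ≤ 1 := inv_le_one_of_one_le₀ hΛ
    have hΛ2 : 0 < Λ⁻¹ := by positivity
    change _ ≤ t ^ 2 / 4 + Λ⁻¹ / 4 + (ψ s / (1 - ψ s)) ^ 2
    rw [h7, ← hP, abs_mul, abs_of_nonneg (sq_nonneg (1 + P))]
    have h9 : |D| * (1 + P) ^ 2 ≤ P * (1 + P) / 4 + Λ⁻¹ / 8 * (2 + 2 * P ^ 2) := by
      calc _ ≤ (ψ s / 4 + Λ⁻¹ / 8) * (1 + P) ^ 2 := by gcongr
        _ = ψ s * (1 + P) * (1 + P) / 4 + Λ⁻¹ / 8 * (1 + P) ^ 2 := by ring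
        _ ≤ _ := by rw [h8]; gcongr; nlinarith [sq_nonneg (1 - P)]
    have h10 := mul_le_mul_of_nonneg_right h9 ht.1
    nlinarith [sq_nonneg (t - P / 2), mul_le_mul_of_nonneg_left ht.2 (sq_nonneg P),
      mul_le_mul_of_nonneg_left ht.2 (show 0 ≤ Λ⁻¹ / 8 * (2 + 2 * P ^ 2) by positivity),
      mul_le_mul_of_nonneg_right hΛ1 (sq_nonneg P)]

end Crest.Agent.N346.P2
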