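import Crest.Agent.N346.P2.TopMin

/-! Row 346, part P2e: the steps of the top level argument (helper28). -/

set_option autoImplicit false
open MeasureTheory Set Filter Topology

noncomputable section
namespace Crest.Agent.N346.P2.Top

variable {X : Type} [MeasurableSpace X] {V : Type} [NormedAddCommGroup V] [InnerProductSpace ℝ V]
  {ν : Measure X} {𝒟 : DClass ν V} {ε C0 : ℝ}

/-- step 1: the spinor estimate without phase field -/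
theorem zero_step (hZ : ZeroStmt) {a μ q τ₀ ω : ℝ} (nk : Neck 𝒟 a q τ₀ ω) (ha : 0 < a)
    (hq : 0 ≤ q) (hω : 0 ≤ ω) (hω' : (1 + a) * ω ≤ τ₀) (sp : SPProp 𝒟 a μ nk.ρ) :
    q ≤ μ ∧ ∃ Y G, 𝒟.D Y 1 G ∧ Qf ν nk.W Y G ≤ (1 + a) * μ + 1 := by
  obtain ⟨h1, h2⟩ := hZ X V ν 𝒟 a q τ₀ ω nk ha hq hω hω'
  have hm : AEStronglyMeasurable (fun x => nk.θ x • nk.e x) ν :=
    (𝒟.meas nk.θ_D).aestronglyMeasurable.smul nk.e_meas
  have hL : MemLp (fun x => nk.θ x • nk.e x) 2 ν := by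
    rw [memLp_two_iff_integrable_sq_norm hm]
    refine nk.W_int.mono' (hm.norm.pow 2) (.of_forall fun x => ?_)
    rw [Real.norm_of_nonneg (sq_nonneg _), norm_smul, Real.norm_of_nonneg (nk.θ_mem x).1, mul_pow]
    exact (mul_le_of_le_one_left (sq_nonneg _)
      (pow_le_one₀ (nk.θ_mem x).1 (nk.θ_mem x).2)).trans (nk.e_le x)
  have h3 := sp nk.P nk.dP (fun x => nk.θ x • nk.e x) (fun x => -(nk.θ x • nk.e x)) nk.P_D
    nk.P_nonneg nk.P_int nk.dP_int hL hL.neg (fun x => by simp)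
    ⟨1, fun Y₁ Y₂ G₁ G₂ h => by rw [one_mul]; exact h2 Y₁ Y₂ G₁ G₂ h⟩
    fun Y₁ Y₂ G₁ G₂ h => le_trans (by rw [zero_mul]; exact le_max_left _ _)
      (h1 0 Y₁ Y₂ G₁ G₂ (Or.inl rfl) h)
  constructor
  · refine le_of_mul_le_mul_left (le_of_forall_pos_le_add fun η hη => ?_) (by linarith : 0 < 1 + a)
    obtain ⟨Y₁, Y₂, G₁, G₂, hp, hK⟩ := h3 η hη
    have := (le_max_left _ _).trans (h1 1 Y₁ Y₂ G₁ G₂ (Or.inr rfl) hp)
    linarith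
  · obtain ⟨Y₁, Y₂, G₁, G₂, hp, hK⟩ := h3 1 one_pos
    exact ⟨Y₁, G₁, hp.d₁, ((le_max_right _ _).trans (h1 1 Y₁ Y₂ G₁ G₂ (Or.inr rfl) hp)).trans hK⟩

/-- a bounded integrable function times an `L²` field is integrable -/
theorem integrable_smul_of_le {σ φ : X → ℝ} (hσ : ∀ x, σ x ∈ Icc (0 : ℝ) 1) (hσi : Integrable σ ν)
    (hφ : Measurable φ) {K : ℝ} (hK : ∀ x, |φ x| ≤ K * σ x) {G : X → V} (hG : MemLp G 2 ν) :
    Integrable (fun x => φ x • G x) ν := by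
  refine (((hσi.add (hG.integrable_norm_pow two_ne_zero))).const_mul |K|).mono'
    (hφ.aestronglyMeasurable.smul hG.1) (.of_forall fun x => ?_)
  obtain ⟨h0, h1⟩ := hσ x
  rw [norm_smul, Real.norm_eq_abs, Pi.add_apply]
  have h2 : |φ x| ≤ |K| * σ x := (hK x).trans (mul_le_mul_of_nonneg_right (le_abs_self K) h0)
  have h3 : σ x * ‖G x‖ ≤ σ x + ‖G x‖ ^ 2 := by nlinarith [sq_nonneg (σ x - ‖G x‖), norm_nonneg (G x)]
  calc _ ≤ |K| * σ x * ‖G x‖ := by gcongr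
    _ ≤ _ := by rw [mul_assoc]; gcongr

section crit
variable {W : X → ℝ} {pr : Prof ε C0} (c : Crit 𝒟 W pr)

theorem f_D : 𝒟.D c.f 0 c.df := by
  have h1 := 𝒟.comp pr.p' pr.p'' 0 1 c.b_D c.b_mem ⟨zero_le_one, le_rfl⟩ (fun s _ => pr.hp' s)
    pr.cp''.continuousOn
  refine D_congr (𝒟.smul c.Λ (𝒟.mul c.σ_D h1)) (fun x => by rw [Crit.f]; ring) (by ring)
    fun x => ?_
  simp only [Crit.df, smul_add, smul_smul, mul_assoc]

theorem f_nonneg (x : X) : 0 ≤ c.f x :=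
  mul_nonneg (mul_nonneg c.Λ_pos.le (c.σ_mem x).1) (pr.p'_nonneg _)

theorem abs_p'_le (x : X) : |pr.p' (c.b x)| ≤ C0 / ε := by
  rw [abs_of_nonneg (pr.p'_nonneg _)]; exact pr.p'_le _ (c.b_mem x)

theorem f_int : Integrable c.f ν :=
  (c.σ_int.const_mul c.Λ).mul_bdd (c := C0 / ε)
    ((continuous_p' pr).measurable.comp (𝒟.meas c.b_D)).aestronglyMeasurable
    (.of_forall (abs_p'_le c))

theorem df_int : Integrable c.df ν := by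
  refine Integrable.add (integrable_smul_of_le c.σ_mem c.σ_int (K := c.Λ * (C0 / ε ^ 2))
    (φ := fun x => c.Λ * c.σ x * pr.p'' (c.b x))
    (((𝒟.meas c.σ_D).const_mul _).mul (pr.cp''.measurable.comp (𝒟.meas c.b_D))) (fun x => ?_)
    (𝒟.memG c.b_D)) ?_
  · have h1 := pr.p''_le _ (c.b_mem x)
    have h2 := mul_nonneg c.Λ_pos.le (c.σ_mem x).1
    rw [abs_mul, abs_of_nonneg h2, abs_of_nonpos (pr.p''_nonpos _)]
    exact (mul_le_mul_of_nonneg_left h1 h2).trans_eq (by ring)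
  · refine c.dσ_int.bdd_smul (c.Λ * (C0 / ε)) (((continuous_p' pr).measurable.comp
      (𝒟.meas c.b_D)).const_mul _).aestronglyMeasurable (.of_forall fun x => ?_)
    rw [norm_mul, Real.norm_of_nonneg c.Λ_pos.le]
    exact mul_le_mul_of_nonneg_left (abs_p'_le c x) c.Λ_pos.le

end crit

/-- the conclusion of the main estimate contradicts the spinor estimate -/
theorem core_contra {a μ μ' q τ₀ ω c₀ : ℝ} (nk : Neck 𝒟 a q τ₀ ω) {pr : Prof ε C0}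
    (c : Crit 𝒟 nk.W pr) (ha : 0 < a) (hμ : μ ≤ μ') (hc₀ : 0 < c₀) (sp : SPProp 𝒟 a μ nk.ρ)
    (h : ∃ β₁ β₂ : X → V, MemLp β₁ 2 ν ∧ MemLp β₂ 2 ν ∧
      (∀ x, (c.f x + nk.P x) • (β₁ x + β₂ x) = 0) ∧
      (∀ (t : ℝ) Y₁ Y₂ G₁ G₂, t = 0 ∨ t = 1 → IsPair 𝒟 nk.ρ t Y₁ Y₂ G₁ G₂ →
        t * ((1 + a) * μ' + c₀) ≤ Kf ν a 1 nk.ρ (fun x => c.f x + nk.P x)
          (fun x => c.df x + nk.dP x) β₁ β₂ Y₁ Y₂ G₁ G₂) ∧
      ∃ C : ℝ, ∀ Y₁ Y₂ G₁ G₂, IsPair 𝒟 nk.ρ 0 Y₁ Y₂ G₁ G₂ →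
        ∫ x, (‖G₁ x‖ ^ 2 + ‖G₂ x‖ ^ 2 + ‖β₁ x‖ ^ 2 * Y₁ x ^ 2 + ‖β₂ x‖ ^ 2 * Y₂ x ^ 2) ∂ν
          ≤ C * Kf ν a 0 nk.ρ (fun x => c.f x + nk.P x)
            (fun x => c.df x + nk.dP x) β₁ β₂ Y₁ Y₂ G₁ G₂) : False := by
  obtain ⟨β₁, β₂, h1, h2, h3, h4, h5⟩ := h
  obtain ⟨Y₁, Y₂, G₁, G₂, hp, hK⟩ := sp (fun x => c.f x + nk.P x) (fun x => c.df x + nk.dP x)
    β₁ β₂ (D_congr (𝒟.add (f_D c) nk.P_D) (fun _ => rfl) (add_zero _) fun _ => rfl)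
    (fun x => add_nonneg (f_nonneg c x) (nk.P_nonneg x)) ((f_int c).add nk.P_int)
    ((df_int c).add nk.dP_int) h1 h2 h3 h5
    (fun Y₁ Y₂ G₁ G₂ h => by simpa using h4 0 Y₁ Y₂ G₁ G₂ (Or.inl rfl) h) (c₀ / 2) (half_pos hc₀)
  have := h4 1 Y₁ Y₂ G₁ G₂ (Or.inr rfl) hp
  nlinarith

/-- volume of the sublevel set from the isocapacitary inequality -/
theorem vol_le {K L e Q : ℝ} (hL : 0 ≤ L) (he : 0 ≤ e) (hε : 0 < ε) (hε1 : ε < 1)
    (iso : ∀ h G, 𝒟.D h 0 G → (∀ x, h x ∈ Icc (0 : ℝ) 1) → ∀ t ∈ Ioc (0 : ℝ) 1,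
      ν {x | t < h x} ≤ ENNReal.ofReal (K + L * ((∫ x, ‖G x‖ ^ 2 ∂ν) / t ^ 2) ^ e))
    {u : X → ℝ} {G : X → V} (hD : 𝒟.D u 1 G) (hu : ∀ x, u x ∈ Icc (0 : ℝ) 1)
    (hQ : ∫ x, ‖G x‖ ^ 2 ∂ν ≤ Q) :
    ν {x | u x < ε} ≤ ENNReal.ofReal (max K 0 + L * (Q / (1 - ε) ^ 2) ^ e) := by
  have h := iso _ _ (D_congr (D_one_sub hD) (fun _ => rfl) (sub_self _) fun _ => rfl)
    (fun x => ⟨sub_nonneg.2 (hu x).2, by linarith [(hu x).1]⟩) (1 - ε) ⟨by linarith, by linarith⟩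
  simp only [sub_lt_sub_iff_left, norm_neg] at h
  refine h.trans (ENNReal.ofReal_le_ofReal (add_le_add (le_max_left _ _) ?_))
  have : 0 ≤ ∫ x, ‖G x‖ ^ 2 ∂ν := integral_nonneg fun _ => sq_nonneg _
  gcongr

/-- the test function for the enclosing area -/
theorem cut_step {W : X → ℝ} (hW0 : ∀ x, 0 ≤ W x) (hW : Integrable W ν) {pr : Prof ε C0}
    (c : Crit 𝒟 W pr) (hε : 0 < ε) {Z Z' : Set X} (hZ : Z ⊆ Z') {s ℓ A : ℝ} (hs : 0 ≤ s)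
    {θ₂ χ : X → ℝ} {dθ₂ dχ : X → V} (hθD : 𝒟.D θ₂ 1 dθ₂) (hθ : ∀ x, θ₂ x ∈ Icc (0 : ℝ) 1)
    (hdθ : ∀ x, ‖dθ₂ x‖ ≤ s * W x) (hθZ : ∀ x ∈ Z, θ₂ x = 0) (hθZ' : ∀ x, x ∉ Z' → θ₂ x = 1)
    (hχD : 𝒟.D χ 0 dχ) (hχ : ∀ x, χ x ∈ Icc (0 : ℝ) 1) (hdχ : ∀ x, ‖dχ x‖ ≤ ℓ)
    (hχσ : ∀ x, χ x ≠ 0 → c.σ x = 1) (hχZ : ∀ x ∈ Z', χ x = 1 ∧ dχ x = 0)
    (hA : ∀ φ G, 𝒟.D φ 1 G → (∀ x, φ x ∈ Icc (0 : ℝ) 1) → (∀ x ∈ Z, φ x = 0) →
      (∀ x, χ x = 0 → φ x = 1) → Integrable G ν → A ≤ ∫ x, ‖G x‖ ∂ν) :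
    A ≤ (∫ x, c.σ x * ‖(2 * pr.p (c.b x) * pr.p' (c.b x)) • c.gb x‖ ∂ν) +
      s * (C0 / ε) ^ 2 * (∫ x, W x * c.b x ^ 2 ∂ν) + ℓ * ν.real {x | c.b x < ε} := by
  have hm : MeasurableSet {x | c.b x < ε} := measurableSet_lt (𝒟.meas c.b_D) measurable_const
  have d1 := 𝒟.comp (fun t => pr.p t ^ 2) (fun t => 2 * pr.p t * pr.p' t) 0 1 c.b_D c.b_mem
    ⟨zero_le_one, le_rfl⟩ (fun t _ => ((pr.hp t).fun_pow 2).congr_deriv (by simp))
    ((continuous_const.mul (continuous_p pr)).mul (continuous_p' pr)).continuousOn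
  have d2 := D_one_sub (𝒟.mul hχD (D_one_sub (𝒟.mul hθD d1)))
  rw [zero_mul, sub_zero] at d2
  have hp0 := fun x => p_nonneg pr hε (c.b_mem x)
  have hp1 : ∀ x, pr.p (c.b x) ^ 2 ≤ 1 := fun x => pow_le_one₀ (hp0 x) (pr.p_le_one _)
  have hr : ∀ x, 1 - θ₂ x * pr.p (c.b x) ^ 2 ∈ Icc (0 : ℝ) 1 := fun x =>
    ⟨sub_nonneg.2 (mul_le_one₀ (hθ x).2 (sq_nonneg _) (hp1 x)),
      by linarith [mul_nonneg (hθ x).1 (sq_nonneg (pr.p (c.b x)))]⟩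
  have i1 : Integrable (fun x => c.σ x * ‖(2 * pr.p (c.b x) * pr.p' (c.b x)) • c.gb x‖) ν := by
    refine (integrable_smul_of_le c.σ_mem c.σ_int
      (φ := fun x => c.σ x * (2 * pr.p (c.b x) * pr.p' (c.b x))) (K := 2 * (C0 / ε))
      ((𝒟.meas c.σ_D).mul ((((continuous_const.mul (continuous_p pr)).mul
        (continuous_p' pr)).measurable).comp (𝒟.meas c.b_D))) (fun x => ?_)
      (𝒟.memG c.b_D)).norm.congr (.of_forall fun x => ?_)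
    · have h1 := pr.p'_nonneg (c.b x)
      have h2 := pr.p'_le _ (c.b_mem x)
      have h3 := (c.σ_mem x).1
      have h4 := hp0 x
      rw [abs_of_nonneg (by positivity), mul_comm]
      gcongr
      nlinarith [pr.p_le_one (c.b x)]
    · simp only [mul_smul (c.σ x), norm_smul (c.σ x), Real.norm_of_nonneg (c.σ_mem x).1]
  have i2 := (integrable_W_sq c.b_D hW).const_mul (s * (C0 / ε) ^ 2)
  have i3 : Integrable (fun x => ℓ * {x | c.b x < ε}.indicator (1 : X → ℝ) x) ν :=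
    ((integrableOn_const c.fin).integrable_indicator hm).const_mul ℓ
  have hb : ∀ x, ‖-(χ x • -(θ₂ x • (2 * pr.p (c.b x) * pr.p' (c.b x)) • c.gb x +
      pr.p (c.b x) ^ 2 • dθ₂ x) + (1 - θ₂ x * pr.p (c.b x) ^ 2) • dχ x)‖ ≤
      c.σ x * ‖(2 * pr.p (c.b x) * pr.p' (c.b x)) • c.gb x‖ +
        s * (C0 / ε) ^ 2 * (W x * c.b x ^ 2) + ℓ * {x | c.b x < ε}.indicator (1 : X → ℝ) x := by
    intro x
    rw [norm_neg]
    refine (norm_add_le _ _).trans (add_le_add ?_ ?_)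
    · rw [norm_smul, norm_neg, Real.norm_of_nonneg (hχ x).1]
      refine (mul_le_mul_of_nonneg_left (norm_add_le _ _) (hχ x).1).trans ?_
      rw [mul_add, norm_smul, norm_smul (_ ^ 2), Real.norm_of_nonneg (hθ x).1,
        Real.norm_of_nonneg (sq_nonneg _), ← mul_assoc]
      refine add_le_add (mul_le_mul_of_nonneg_right ?_ (norm_nonneg _)) ?_
      · by_cases h : χ x = 0
        · rw [h, zero_mul]; exact (c.σ_mem x).1
        · rw [hχσ x h]; exact mul_le_one₀ (hχ x).2 (hθ x).1 (hθ x).2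
      · refine (mul_le_of_le_one_left (by positivity) (hχ x).2).trans ?_
        have h1 := pow_le_pow_left₀ (hp0 x) (p_le_mul pr (c.b_mem x)) 2
        have h2 := mul_nonneg hs (hW0 x)
        calc _ ≤ (C0 / ε * c.b x) ^ 2 * (s * W x) :=
              mul_le_mul h1 (hdθ x) (norm_nonneg _) (sq_nonneg _)
          _ = _ := by ring
    · have hℓ : 0 ≤ ℓ := (norm_nonneg _).trans (hdχ x)
      by_cases h : c.b x < ε
      · rw [indicator_of_mem (by exact h), norm_smul, Real.norm_of_nonneg (hr x).1, Pi.one_apply,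
          mul_one]
        exact (mul_le_of_le_one_left (norm_nonneg _) (hr x).2).trans (hdχ x)
      · rw [indicator_of_notMem (by exact h), mul_zero, norm_le_zero_iff]
        by_cases h' : x ∈ Z'
        · rw [(hχZ x h').2, smul_zero]
        · rw [hθZ' x h', pr.p_one _ (not_lt.1 h)]; simp
  have i4 := (i1.add i2).add i3
  refine (hA _ _ d2 (fun x => ⟨sub_nonneg.2 (mul_le_one₀ (hχ x).2 (hr x).1 (hr x).2),
    by linarith [mul_nonneg (hχ x).1 (hr x).1]⟩) (fun x hx => ?_) (fun x hx => ?_)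
    (i4.mono' (𝒟.memG d2).1 (.of_forall hb))).trans ?_
  · rw [(hχZ x (hZ hx)).1, hθZ x hx]; ring
  · rw [hx]; ring
  · refine (integral_mono_of_nonneg (.of_forall fun x => norm_nonneg _) i4
      (.of_forall hb)).trans_eq ?_
    rw [integral_add' (i1.add i2) i3, integral_add' i1 i2, integral_const_mul, integral_const_mul,
      integral_indicator_one hm]

end Crest.Agent.N346.P2.Top
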