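import Crest.Agent.N346.P2.TopG
import Crest.Agent.N346.P2.TopF

/-! Row 346, part P2e: the top level argument (helper28). -/

set_option autoImplicit false
open MeasureTheory Set Filter Topology

noncomputable section
namespace Crest.Agent.N346.P2

namespace Top

theorem coef_le {a y ε cn Q : ℝ} (ha : 0 < a) (ha1 : a ≤ 1) (hy : 0 < y) (hy1 : y ≤ 1 / 2)
    (hε : 0 < ε) (hεy : ε ≤ y / 24) (hcn : 0 < cn) (hQ : 0 ≤ Q) :
    (1 - y) / (cn * (1 + 2 * a)) * ((1 + y / 4) * cn * (Q / (1 - ε) ^ 2) ^ (1 + 2 * a)) ≤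
      (1 - y / 2) / (1 + 2 * a) * Q ^ (1 + 2 * a) := by
  have h0 : 0 < 1 - ε := by linarith
  have h1 : 1 - y / 4 ≤ ((1 - ε) ^ 2) ^ (1 + 2 * a) := by
    have h2 := one_add_mul_le_pow (a := -ε) (by linarith) 6
    have h3 := Real.rpow_le_rpow_of_exponent_ge (x := (1 - ε) ^ 2) (y := ((3 : ℕ) : ℝ))
      (z := 1 + 2 * a) (by positivity) (pow_le_one₀ h0.le (by linarith)) (by push_cast; linarith)
    rw [Real.rpow_natCast, ← pow_mul, show 2 * 3 = 6 from rfl] at h3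
    push_cast at h2
    rw [← sub_eq_add_neg 1 ε] at h2
    linarith
  have h4 : 0 < 1 - y / 4 := by linarith
  have h5 : 0 ≤ Q ^ (1 + 2 * a) := Real.rpow_nonneg hQ _
  have h6 : 0 < 1 - y := by linarith
  rw [Real.div_rpow hQ (by positivity)]
  calc _ ≤ (1 - y) / (cn * (1 + 2 * a)) * ((1 + y / 4) * cn * (Q ^ (1 + 2 * a) / (1 - y / 4))) := by
        gcongr
    _ = (1 - y) * (1 + y / 4) / (1 - y / 4) / (1 + 2 * a) * Q ^ (1 + 2 * a) := by field_simp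
    _ ≤ _ := by
        gcongr
        rw [div_le_iff₀ h4]; nlinarith

theorem area_le {q Is I y ε : ℝ} (hq : 0 ≤ q) (hqI : q < Is) (hI : I ≤ Is) (hε : 0 < ε)
    (hε1 : ε ≤ 1 / 2) (hεy : ε ≤ y / (6 * Is)) :
    I / (1 - ε) - q / Is * q * (1 - ε ^ 2) ≤ (Is ^ 2 - q ^ 2) / Is + y / 2 := by
  have h0 : 0 < Is := by linarith
  rw [le_div_iff₀ (by positivity)] at hεy
  have h1 : I / (1 - ε) ≤ Is * (1 + 2 * ε) := by
    rw [div_le_iff₀ (by linarith)]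
    nlinarith [mul_nonneg h0.le (mul_nonneg hε.le (by linarith : 0 ≤ 1 - 2 * ε))]
  have h2 : q / Is * q ≤ Is := by
    rw [div_mul_eq_mul_div, div_le_iff₀ h0]; nlinarith
  have h3 : (Is ^ 2 - q ^ 2) / Is = Is - q / Is * q := by field_simp
  have h4 : q / Is * q * ε ^ 2 ≤ Is * ε := mul_le_mul h2 (by nlinarith) (by positivity) h0.le
  rw [h3]
  nlinarith

end Top

open _root_.Crest.Agent.N346.P2.Top in
theorem top (hP : ProfStmt) (hC : CoreStmt) (hZ : ZeroStmt) (hCm : CompStmt) (hAr : AreaStmt)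
    (hV : VarStmt) : TopStmt := by
  intro a μ q τ₀ η cn ha ha1 hμ hq hτ hη hcn
  have hωτ : ∀ ω : ℝ, 0 ≤ ω → ω ≤ τ₀ / 2 → (1 + a) * ω ≤ τ₀ := fun ω h0 h => by nlinarith
  by_cases hqμ : q ≤ μ
  swap
  · refine ⟨τ₀ / 2, half_pos hτ, fun X _ V _ _ ν 𝒟 ω A hω0 hω _ geo => absurd ?_ hqμ⟩
    obtain ⟨nk, hρ, -⟩ := geo.neck 1 one_pos
    exact (zero_step hZ nk ha hq hω0 (hωτ ω hω0 hω) (hρ ▸ geo.sp)).1
  obtain ⟨μ', hμ'⟩ : ∃ μ', μ' = μ + η := ⟨_, rfl⟩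
  rw [← hμ']
  have hq' : q < μ' := by linarith
  obtain ⟨C0, hC0, hpr⟩ := hP
  obtain ⟨y, hy, hy1, hy2, hΨ⟩ := exists_param (a := a) (cn := cn) (η := η) ha hq hq' hcn hη
  obtain ⟨Is, hIs⟩ : ∃ Is, Is = μ' + √(μ' ^ 2 - q ^ 2) + y := ⟨_, rfl⟩
  have hI : μ' < Is := by linarith [Real.sqrt_nonneg (μ' ^ 2 - q ^ 2)]
  have hIs0 : 0 < Is := by linarith
  obtain ⟨bb, hbb⟩ : ∃ bb, bb = 4 * ((1 + a) * μ + 1) := ⟨_, rfl⟩
  have hbb0 : 0 < bb := by rw [hbb]; positivity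
  obtain ⟨ω₁, hω₁, c₀, hc₀, hcore⟩ := hC a μ' q Is y τ₀ bb C0 ha ha1 hq hq' (by linarith) hy hτ
    hbb0.le hC0
  refine ⟨min (τ₀ / 2) (min ω₁ (y / (2 * bb))), by positivity,
    fun X _ V _ _ ν 𝒟 ω A hω0 hω hA geo => ⟨hqμ, le_trans (pow_le_pow_left₀ hA ?_ 2) hΨ⟩⟩
  obtain ⟨hω2, hω3, hω4⟩ : ω ≤ τ₀ / 2 ∧ ω ≤ ω₁ ∧ ω ≤ y / (2 * bb) := by
    simpa only [le_min_iff] using hω
  rw [Psi, ← hIs]
  obtain ⟨κ, hκ⟩ : ∃ κ, κ = (1 - y) / (cn * (1 + 2 * a)) := ⟨_, rfl⟩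
  have hκ0 : 0 < κ := by rw [hκ]; exact div_pos (by linarith) (by positivity)
  rw [← hκ]
  obtain ⟨K, hiso⟩ := geo.iso (y / 4) (by positivity)
  obtain ⟨Ib, hIb⟩ := coercive ha ha1 hq hq' hI hy (Gf a μ' q y Is geo.Q₀ + κ * max K 0)
  obtain ⟨v, hv⟩ : ∃ v, v = max K 0 + (1 + y / 4) * cn * (max Ib 0 / (1 / 2) ^ 2) ^ (1 + 2 * a) :=
    ⟨_, rfl⟩
  have hv0 : 0 ≤ v := by rw [hv]; positivity
  obtain ⟨CZ, hCZ, hsob⟩ := geo.sob v
  obtain ⟨m, hm, hgm⟩ := exists_gp_ge (a := a) (y := y) hq hq' hI Ib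
  obtain ⟨ε₀, hε₀, hcore⟩ := hcore Ib (max CZ v) √(κ / m) (le_max_of_le_left hCZ)
  obtain ⟨ε, hε, hε1, hε2, hε3⟩ : ∃ ε : ℝ, 0 < ε ∧ ε ≤ ε₀ ∧ ε ≤ y / 24 ∧ ε ≤ y / (6 * Is) :=
    ⟨min ε₀ (min (y / 24) (y / (6 * Is))), by positivity, min_le_left _ _,
      (min_le_right _ _).trans (min_le_left _ _), (min_le_right _ _).trans (min_le_right _ _)⟩
  have hε8 : ε ≤ 1 / 8 := by linarith
  obtain ⟨pr⟩ := hpr ε hε hε8
  obtain ⟨ℓ₀, hℓ₀, hcore⟩ := hcore ε hε hε1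
  obtain ⟨nk, hρ, hQ₀, θ₂, dθ₂, hθD, hθ, hdθ, hθZ, hθZ'⟩ :=
    geo.neck (y / (2 * ((C0 / ε) ^ 2 * bb))) (by positivity)
  obtain ⟨σ, dσ, χ, dχ, hσD, hσ, hσi, hdσi, hdσ, hχD, hχ, hdχ, hχσ, hχZ, hcut⟩ :=
    geo.cut (min ℓ₀ (y / (2 * (v + 1)))) (by positivity)
  have sp : SPProp 𝒟 a μ nk.ρ := hρ ▸ geo.sp
  obtain ⟨-, Y₀, G₀, hY₀, hQY⟩ := zero_step hZ nk ha hq hω0 (hωτ ω hω0 hω2) sp
  have hvol : ∀ {u G Q}, 𝒟.D u 1 G → (∀ x, u x ∈ Icc (0 : ℝ) 1) → Qf ν nk.W u G ≤ Q →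
      ν {x | u x < ε} ≤ ENNReal.ofReal
        (max K 0 + (1 + y / 4) * cn * (Q / (1 - ε) ^ 2) ^ (1 + 2 * a)) := fun hD hu hQ =>
    vol_le (by positivity) (by positivity) hε (by linarith) hiso hD hu
      ((grad_le_Qf hD nk.W_int nk.W_nonneg).trans hQ)
  have hbd : ∀ u G, 𝒟.D u 1 G → (∀ x, u x ∈ Icc (0 : ℝ) 1) →
      Gf a μ' q y Is (Qf ν nk.W u G) - κ * Vf ν pr σ u ≤
        Gf a μ' q y Is (Qf ν nk.W geo.u₀ geo.G₀) - κ * Vf ν pr σ geo.u₀ →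
      Qf ν nk.W u G ≤ Ib := fun u G hD hu h => by
    refine hIb _ ?_
    have hQ := Qf_nonneg (ν := ν) nk.W_nonneg u G
    have h1 := hvol hD hu le_rfl
    have h2 := (Vf_le_vol pr hε hσ hu (𝒟.meas hD) (ne_top_of_le_ne_top ENNReal.ofReal_ne_top h1)).trans
      (ENNReal.toReal_le_of_le_ofReal (by positivity) h1)
    have h3 := mul_le_mul_of_nonneg_left h2 hκ0.le
    have h4 := coef_le ha ha1 hy hy1 hε hε2 hcn hQ
    rw [← hκ] at h4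
    have h5 := monotone_Gf (a := a) (y := y) hq hq' hI hQ₀
    have h6 := mul_nonneg hκ0.le (Vf_nonneg (ν := ν) pr hε hσ geo.u₀_mem)
    linarith
  obtain ⟨b, gb, hbD, hb, hmin⟩ := exists_min pr hε nk.W_meas nk.W_nonneg nk.W_int (𝒟.meas hσD) hσ
    hσi (continuous_Gf hq hq' hI) (monotone_Gf hq hq' hI) hκ0.le geo.cpt geo.u₀_D geo.u₀_mem hbd
  have hQb := hbd b gb hbD hb (hmin _ _ geo.u₀_D geo.u₀_mem)
  have hvb : ν {x | b x < ε} ≤ ENNReal.ofReal v := by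
    refine (hvol hbD hb (hQb.trans (le_max_left Ib 0))).trans (ENNReal.ofReal_le_ofReal ?_)
    rw [hv]
    gcongr
    linarith
  obtain ⟨c, hΛ, rfl, rfl, rfl, rfl, hstab⟩ := hV X V ν 𝒟 nk.W ε C0 pr σ dσ b gb (Gf a μ' q y Is) κ
    (gp a μ' q y Is (Qf ν nk.W b gb)) hε hε8 nk.W_meas nk.W_nonneg nk.W_bdd nk.W_int hσD hσ hσi hdσi
    hbD hb (ne_top_of_le_ne_top ENNReal.ofReal_ne_top hvb) (monotone_Gf hq hq' hI) hκ0 (gp_pos _)
    (hasDerivAt_Gf hq hq' hI _) hmin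
  change c.I ≤ Ib at hQb
  change c.Λ = √(κ / gp a μ' q y Is c.I) at hΛ
  have hWb : ∫ x, nk.W x * c.b x ^ 2 ∂ν ≤ bb := by
    have := hCm X V ν 𝒟 nk.W ε C0 pr c hε nk.W_meas nk.W_nonneg nk.W_int Y₀ G₀ hY₀
    linarith
  rcases lt_or_ge Is c.I with hc | hc
  · exfalso
    have hI0 : 0 < c.I := by linarith
    have hs0 : 0 < √c.I := Real.sqrt_pos.2 hI0
    have e : gp a μ' q y Is c.I * (2 * (kstar a μ' q c.I - y / (c.I * √c.I))) /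
        (2 * gp a μ' q y Is c.I) = kstar a μ' q c.I - y / (c.I * √c.I) := by
      have := (gp_pos (a := a) (μ := μ') (q := q) (y := y) (Is := Is) c.I).ne'
      field_simp
    have hst : c.Stab (kstar a μ' q c.I - y / (c.I * √c.I)) := by
      rw [← e]
      intro z G h
      exact hstab _ _ (.of_forall fun s => hasDerivAt_Gf hq hq' hI s)
        (hasDerivAt_gp hq hq' hI hc) h
    refine core_contra nk c ha (by linarith) hc₀ sp (hcore X V ν 𝒟 ω nk pr c (y / (c.I * √c.I))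
      hω0 hω3 hc.le hQb ?_ (fun x => (hdσ x).trans (min_le_left _ _))
      (fun hD => (hsob _ _ _ hD (measurableSet_lt (𝒟.meas c.b_D) measurable_const) hvb).trans
        (mul_le_mul_of_nonneg_right (le_max_left _ _) (integral_nonneg fun _ => sq_nonneg _)))
      ((ENNReal.toReal_le_of_le_ofReal hv0 hvb).trans (le_max_right _ _)) hWb
      (by positivity) (le_of_eq ?_) ?_ hst)
    · rw [hΛ]
      gcongr
      exact hgm _ hc.le hQb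
    · rw [div_pow, mul_pow, Real.sq_sqrt hI0.le]; field_simp
    · rw [div_mul_eq_mul_div, mul_comm y, mul_div_mul_left _ _ hI0.ne', div_le_one hs0]
      exact hy2.trans (Real.sqrt_le_sqrt (by linarith))
  · have hT : q / Is < 1 := (div_lt_one hIs0).2 (by linarith)
    have hT0 : 0 ≤ q / Is := by positivity
    have h1 := hAr X V ν 𝒟 a q τ₀ ω nk ε C0 pr c (q / Is) hε hε8 hq hω0 hT0 hT
    have h2 := area_le (y := y) hq (by linarith) hc hε (by linarith) hε3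
    have h3 : ω * ∫ x, nk.W x * c.b x ^ 2 ∂ν ≤ y / 2 :=
      (mul_le_mul hω4 hWb (integral_nonneg fun x => mul_nonneg (nk.W_nonneg x) (sq_nonneg _))
        (by positivity)).trans_eq (by field_simp)
    have h4 := cut_step nk.W_nonneg nk.W_int c hε geo.Z_sub (by positivity) hθD hθ hdθ hθZ hθZ' hχD
      hχ hdχ hχσ hχZ hcut
    have h5 : y / (2 * ((C0 / ε) ^ 2 * bb)) * (C0 / ε) ^ 2 * ∫ x, nk.W x * c.b x ^ 2 ∂ν ≤ y / 2 :=
      (mul_le_mul_of_nonneg_left hWb (by positivity)).trans_eq (by field_simp)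
    have h6 : min ℓ₀ (y / (2 * (v + 1))) * ν.real {x | c.b x < ε} ≤ y / 2 :=
      (mul_le_mul (min_le_right _ _) ((ENNReal.toReal_le_of_le_ofReal hv0 hvb).trans
        (le_add_of_nonneg_right zero_le_one)) measureReal_nonneg (by positivity)).trans_eq
        (by field_simp)
    rw [gp_of_le hc] at hΛ
    rw [← hΛ]
    have h7 : 0 < √(1 - (q / Is) ^ 2) * c.Λ :=
      mul_pos (Real.sqrt_pos.2 (sub_pos.2 (pow_lt_one₀ hT0 hT two_ne_zero))) c.Λ_pos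
    have h8 : ∫ x, c.σ x * ‖(2 * pr.p (c.b x) * pr.p' (c.b x)) • c.gb x‖ ∂ν ≤
        ((Is ^ 2 - q ^ 2) / Is + y) / (√(1 - (q / Is) ^ 2) * c.Λ) := by
      rw [le_div_iff₀' h7]; linarith
    linarith

end Crest.Agent.N346.P2
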