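import Crest.Agent.N346.P2.Abs

/-!
Row 346, P2: first and second variation of the phase-field functional at a minimiser.
-/

set_option autoImplicit false
open MeasureTheory Set Filter Topology
open scoped InnerProductSpace

noncomputable section
namespace Crest.Agent.N346.P2

namespace Var

/-- Second-order necessary condition with a cubic error. -/
lemma second_order {f f' : ℝ → ℝ} {c C : ℝ} (hf : ∀ᶠ t in 𝓝 (0 : ℝ), HasDerivAt f (f' t) t)
    (h0 : f' 0 = 0) (hf' : HasDerivAt f' c 0)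
    (hmin : ∀ᶠ t in 𝓝 (0 : ℝ), f 0 ≤ f t + C * |t| ^ 3) : 0 ≤ c := by
  by_contra hc
  push Not at hc
  have hk : HasDerivAt (fun t => f' t + C * (3 * t ^ 2)) c 0 := by
    have := hf'.fun_add (((hasDerivAt_pow 2 (0 : ℝ)).const_mul 3).const_mul C)
    simpa using this
  have hs := (hasDerivAt_iff_tendsto_slope_zero.1 hk).eventually (gt_mem_nhds hc)
  rw [eventually_nhdsWithin_iff] at hs
  obtain ⟨δ, hδ, hall⟩ := Metric.eventually_nhds_iff.1 (hf.and (hmin.and hs))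
  have hin : ∀ t ∈ Icc (0 : ℝ) (δ / 2), dist t 0 < δ := by
    intro t ht
    rw [Real.dist_eq, sub_zero, abs_of_nonneg ht.1]
    linarith [ht.2]
  have hd : ∀ t ∈ Icc (0 : ℝ) (δ / 2),
      HasDerivAt (fun t => f t + C * t ^ 3) (f' t + C * (3 * t ^ 2)) t := by
    intro t ht
    have := (hall (hin t ht)).1.fun_add ((hasDerivAt_pow 3 t).const_mul C)
    simpa using this
  obtain ⟨ξ, hξ, hξe⟩ := exists_hasDerivAt_eq_slope (fun t => f t + C * t ^ 3)
    (fun t => f' t + C * (3 * t ^ 2)) (half_pos hδ)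
    (fun t ht => (hd t ht).continuousAt.continuousWithinAt)
    (fun t ht => hd t (Ioo_subset_Icc_self ht))
  have h1 := (hall (hin (δ / 2) ⟨(half_pos hδ).le, le_rfl⟩)).2.1
  rw [abs_of_pos (half_pos hδ)] at h1
  have h2 := (hall (hin ξ (Ioo_subset_Icc_self hξ))).2.2 (ne_of_gt hξ.1)
  simp only [zero_add, h0, smul_eq_mul] at h2
  have h3 : 0 ≤ f' ξ + C * (3 * ξ ^ 2) := by
    rw [hξe]
    apply div_nonneg _ (by linarith [half_pos hδ])
    simpa using h1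
  have h4 : 0 ≤ ξ⁻¹ * (f' ξ + C * (3 * ξ ^ 2) - C * (3 * 0 ^ 2)) := by
    apply mul_nonneg (inv_nonneg.2 hξ.1.le)
    simpa using h3
  simp only [ne_eq, OfNat.ofNat_ne_zero, not_false_eq_true, zero_pow, mul_zero, sub_zero] at h2 h4
  linarith

/-- First-order necessary condition with a cubic error. -/
lemma first_order {f : ℝ → ℝ} {c C : ℝ} (hf : HasDerivAt f c 0)
    (hmin : ∀ᶠ t in 𝓝 (0 : ℝ), f 0 ≤ f t + C * |t| ^ 3) : c = 0 := by
  have ha : HasDerivAt (fun t : ℝ => |t| ^ 3) 0 0 := by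
    rw [hasDerivAt_iff_isLittleO_nhds_zero]
    simp only [zero_add, abs_zero, ne_eq, OfNat.ofNat_ne_zero, not_false_eq_true, zero_pow,
      sub_zero, smul_zero]
    have h := Asymptotics.isLittleO_pow_id (𝕜 := ℝ) (n := 3) (by norm_num)
    rw [← Asymptotics.isLittleO_norm_left] at h
    simpa using h
  have hl : IsLocalMin (fun t => f t + C * |t| ^ 3) 0 := by
    filter_upwards [hmin] with t ht
    simpa using ht
  simpa using hl.hasDerivAt_eq_zero (hf.add (ha.const_mul C))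

variable {X : Type} [MeasurableSpace X] {V : Type} [NormedAddCommGroup V] [InnerProductSpace ℝ V]
  {ν : Measure X}

lemma int_mul {w f : X → ℝ} (hw : Integrable w ν) (hf : Measurable f) {M : ℝ}
    (hM : ∀ x, |f x| ≤ M) : Integrable (fun x => w x * f x) ν :=
  hw.mul_bdd hf.aestronglyMeasurable (ae_of_all _ fun x => by simpa using hM x)

lemma int_inner {G H : X → V} (hG : MemLp G 2 ν) (hH : MemLp H 2 ν) :
    Integrable (fun x => ⟪G x, H x⟫_ℝ) ν := by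
  refine Integrable.mono' (MemLp.integrable_mul hG.norm hH.norm) (hG.1.inner hH.1)
    (ae_of_all _ fun x => ?_)
  simpa using abs_real_inner_le_norm (G x) (H x)

lemma int_sq {G : X → V} (hG : MemLp G 2 ν) : Integrable (fun x => ‖G x‖ ^ 2) ν := by
  simpa using int_inner hG hG

lemma int_lin {f g : X → ℝ} (hf : Integrable f ν) (hg : Integrable g ν) (a : ℝ) :
    Integrable (fun x => f x + a * g x) ν := hf.add (hg.const_mul a)

lemma integral_lin {f g : X → ℝ} (hf : Integrable f ν) (hg : Integrable g ν) (a : ℝ) :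
    ∫ x, f x ∂ν + a * ∫ x, g x ∂ν = ∫ x, (f x + a * g x) ∂ν := by
  rw [integral_add hf (hg.const_mul a), integral_const_mul]

omit [MeasurableSpace X] in
lemma bdd_comp {F : ℝ → ℝ} (hF : Continuous F) {u : X → ℝ} {M : ℝ} (hu : ∀ x, |u x| ≤ M) :
    ∃ M' : ℝ, ∀ x, |F (u x)| ≤ M' := by
  obtain ⟨M', hM'⟩ := (isCompact_Icc (a := -M) (b := M)).exists_bound_of_continuousOn
    hF.continuousOn
  exact ⟨M', fun x => by simpa using hM' _ (abs_le.1 (hu x))⟩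

/-- `w · F(u) · v` is integrable for `w` integrable, `u, v` bounded, `F` continuous. -/
lemma int_comp {w u v : X → ℝ} (hw : Integrable w ν) {F : ℝ → ℝ} (hF : Continuous F)
    (hu : Measurable u) (hub : ∃ M, ∀ x, |u x| ≤ M) (hv : Measurable v)
    (hvb : ∃ M, ∀ x, |v x| ≤ M) : Integrable (fun x => w x * F (u x) * v x) ν := by
  obtain ⟨M, hM⟩ := hub
  obtain ⟨M', hM'⟩ := bdd_comp hF hM
  obtain ⟨M'', hM''⟩ := hvb
  exact int_mul (int_mul hw (hF.measurable.comp hu) hM') hv hM''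

omit [MeasurableSpace X] in
lemma sq_bdd {v : X → ℝ} (hvb : ∃ M, ∀ x, |v x| ≤ M) : ∃ M, ∀ x, |v x ^ 2| ≤ M := by
  obtain ⟨M, hM⟩ := hvb
  exact bdd_comp (F := fun s => s ^ 2) (by fun_prop) hM

lemma trunc_sq_le (s : ℝ) : max 0 (min s 1) ^ 2 ≤ s ^ 2 := by
  rcases le_total s 0 with h | h
  · rw [max_eq_left ((min_le_left _ _).trans h)]
    nlinarith
  · rw [max_eq_right (le_min h zero_le_one)]
    exact pow_le_pow_left₀ (le_min h zero_le_one) (min_le_left _ _) 2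

lemma p_trunc_le {ε C0 : ℝ} (pr : Prof ε C0) (hε : ε ≤ 1) (s : ℝ) :
    pr.p (max 0 (min s 1)) ^ 2 ≤ pr.p s ^ 2 := by
  rcases le_total s 0 with h | h
  · rw [max_eq_left ((min_le_left _ _).trans h), pr.p_zero]
    nlinarith [sq_nonneg (pr.p s)]
  · rw [max_eq_right (le_min h zero_le_one)]
    rcases le_total s 1 with h1 | h1
    · rw [min_eq_left h1]
    · rw [min_eq_right h1, pr.p_one 1 hε, pr.p_one s (hε.trans h1)]

/-- The one-variable inequality obtained by testing with the truncation of `b + t z`. -/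
lemma key (𝒟 : DClass ν V) {W : X → ℝ} {ε C0 : ℝ} (pr : Prof ε C0) {σ b : X → ℝ} {gb : X → V}
    {Gf : ℝ → ℝ} {κ : ℝ} (hε : ε ≤ 1) (hW0 : ∀ x, 0 ≤ W x) (hWi : Integrable W ν)
    (hσm : Measurable σ) (hσ : ∀ x, σ x ∈ Icc (0 : ℝ) 1) (hσi : Integrable σ ν)
    (hb : 𝒟.D b 1 gb) (hb1 : ∀ x, b x ∈ Icc (0 : ℝ) 1) (hG : Monotone Gf) (hκ : 0 < κ)
    (hmin : ∀ u G, 𝒟.D u 1 G → (∀ x, u x ∈ Icc (0 : ℝ) 1) →
      Gf (Qf ν W b gb) - κ * ∫ x, σ x ^ 2 * (1 - pr.p (b x) ^ 2) ∂ν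
        ≤ Gf (Qf ν W u G) - κ * ∫ x, σ x ^ 2 * (1 - pr.p (u x) ^ 2) ∂ν)
    {z : X → ℝ} {G : X → V} (hz : 𝒟.D z 0 G) :
    ∃ C : ℝ, ∀ᶠ t in 𝓝 (0 : ℝ), Gf (Qf ν W b gb) ≤
      Gf (Qf ν W b gb + t * (2 * ∫ x, (⟪gb x, G x⟫_ℝ + W x * b x * z x) ∂ν)
          + t ^ 2 * ∫ x, (‖G x‖ ^ 2 + W x * z x ^ 2) ∂ν)
        + κ * (t * (∫ x, σ x ^ 2 * (2 * (pr.p (b x) * pr.p' (b x))) * z x ∂ν)
          + t ^ 2 * ∫ x, σ x ^ 2 * (pr.p' (b x) ^ 2 + pr.p (b x) * pr.p'' (b x)) * z x ^ 2 ∂ν)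
        + C * |t| ^ 3 := by
  obtain ⟨C3, hC3⟩ := pr.taylor
  obtain ⟨M, hM⟩ := 𝒟.bdd hz
  have cp : Continuous pr.p := continuous_iff_continuousAt.2 fun s => (pr.hp s).continuousAt
  have cp' : Continuous pr.p' := continuous_iff_continuousAt.2 fun s => (pr.hp' s).continuousAt
  have cp'' := pr.cp''
  have hσb : ∀ x, |σ x| ≤ 1 := fun x => abs_le.2 ⟨by linarith [(hσ x).1], (hσ x).2⟩
  have hσ2 : Integrable (fun x => σ x ^ 2) ν := by
    simpa [pow_two] using int_mul hσi hσm hσb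
  have hbm := 𝒟.meas hb
  have hzm := 𝒟.meas hz
  have hbb := 𝒟.bdd hb
  have hzb := 𝒟.bdd hz
  refine ⟨κ * (|C3| * |M| ^ 3 * ∫ x, σ x ^ 2 ∂ν), ?_⟩
  have hsm : ∀ᶠ t in 𝓝 (0 : ℝ), |t| * |M| < 1 := by
    have : Tendsto (fun t : ℝ => |t| * |M|) (𝓝 0) (𝓝 (|0| * |M|)) :=
      (continuous_abs.mul continuous_const).tendsto 0
    exact this.eventually (gt_mem_nhds (by simp))
  filter_upwards [hsm] with t ht
  have hv : 𝒟.D (fun x => b x + t * z x) 1 (fun x => gb x + t • G x) := by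
    simpa using 𝒟.add hb (𝒟.smul t hz)
  obtain ⟨G', hu, hG'⟩ := 𝒟.trunc hv
  have h1 := hmin _ _ hu fun x =>
    ⟨le_max_left _ _, max_le zero_le_one (min_le_right _ _)⟩
  have iW : ∀ {u c H}, 𝒟.D u c H → Integrable (fun x => W x * u x ^ 2) ν := fun h => by
    obtain ⟨M', hM'⟩ := sq_bdd (𝒟.bdd h)
    exact int_mul hWi ((𝒟.meas h).pow_const 2) hM'
  have iV : ∀ {u c H}, 𝒟.D u c H →
      Integrable (fun x => σ x ^ 2 * (1 - pr.p (u x) ^ 2)) ν := fun h => by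
    obtain ⟨M', hM'⟩ := 𝒟.bdd h
    obtain ⟨M'', hM''⟩ := bdd_comp (F := fun s => 1 - pr.p s ^ 2) (by fun_prop) hM'
    exact int_mul hσ2 ((show Continuous fun s => 1 - pr.p s ^ 2 by fun_prop).measurable.comp
      (𝒟.meas h)) hM''
  -- the energy
  have hQ1 : Qf ν W (fun x => max 0 (min (b x + t * z x) 1)) G'
      ≤ Qf ν W (fun x => b x + t * z x) (fun x => gb x + t • G x) := by
    refine integral_mono ((int_sq (𝒟.memG hu)).add (iW hu)) ((int_sq (𝒟.memG hv)).add (iW hv))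
      fun x => ?_
    exact add_le_add (pow_le_pow_left₀ (norm_nonneg _) (hG' x) 2)
      (mul_le_mul_of_nonneg_left (trunc_sq_le _) (hW0 x))
  have iB : Integrable (fun x => ⟪gb x, G x⟫_ℝ + W x * b x * z x) ν :=
    (int_inner (𝒟.memG hb) (𝒟.memG hz)).add
      (int_comp hWi (F := fun s => s) continuous_id hbm hbb hzm hzb)
  have iI : Integrable (fun x => ‖gb x‖ ^ 2 + W x * b x ^ 2) ν :=
    (int_sq (𝒟.memG hb)).add (iW hb)
  have iZ : Integrable (fun x => ‖G x‖ ^ 2 + W x * z x ^ 2) ν :=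
    (int_sq (𝒟.memG hz)).add (iW hz)
  have hQ2 : Qf ν W (fun x => b x + t * z x) (fun x => gb x + t • G x)
      = Qf ν W b gb + t * (2 * ∫ x, (⟪gb x, G x⟫_ℝ + W x * b x * z x) ∂ν)
          + t ^ 2 * ∫ x, (‖G x‖ ^ 2 + W x * z x ^ 2) ∂ν := by
    unfold Qf
    rw [← mul_assoc, integral_lin iI iB, integral_lin (int_lin iI iB _) iZ]
    refine integral_congr_ae (ae_of_all _ fun x => ?_)
    simp only
    rw [norm_add_sq_real, real_inner_smul_right, norm_smul, mul_pow, Real.norm_eq_abs, sq_abs]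
    ring
  -- the volume
  have i1 : Integrable (fun x => σ x ^ 2 * (2 * (pr.p (b x) * pr.p' (b x))) * z x) ν :=
    int_comp hσ2 (F := fun s => 2 * (pr.p s * pr.p' s)) (by fun_prop) hbm hbb hzm hzb
  have i2 : Integrable
      (fun x => σ x ^ 2 * (pr.p' (b x) ^ 2 + pr.p (b x) * pr.p'' (b x)) * z x ^ 2) ν :=
    int_comp hσ2 (F := fun s => pr.p' s ^ 2 + pr.p s * pr.p'' s) (by fun_prop) hbm hbb
      (hzm.pow_const 2) (sq_bdd hzb)
  have hV : ∫ x, σ x ^ 2 * (1 - pr.p (b x) ^ 2) ∂ν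
      ≤ ∫ x, σ x ^ 2 * (1 - pr.p (max 0 (min (b x + t * z x) 1)) ^ 2) ∂ν
        + t * (∫ x, σ x ^ 2 * (2 * (pr.p (b x) * pr.p' (b x))) * z x ∂ν)
        + t ^ 2 * (∫ x, σ x ^ 2 * (pr.p' (b x) ^ 2 + pr.p (b x) * pr.p'' (b x)) * z x ^ 2 ∂ν)
        + |C3| * |M| ^ 3 * |t| ^ 3 * ∫ x, σ x ^ 2 ∂ν := by
    rw [integral_lin (iV hu) i1, integral_lin (int_lin (iV hu) i1 _) i2,
      integral_lin (int_lin (int_lin (iV hu) i1 _) i2 _) hσ2]
    refine integral_mono (iV hb) (int_lin (int_lin (int_lin (iV hu) i1 _) i2 _) hσ2 _) fun x => ?_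
    simp only
    have hz1 : |t * z x| ≤ |t| * |M| := by
      rw [abs_mul]
      exact mul_le_mul_of_nonneg_left ((hM x).trans (le_abs_self M)) (abs_nonneg t)
    have ht1 := (abs_le.1 (hC3 (b x) (hb1 x) (t * z x) (hz1.trans ht.le))).2
    have ht2 : C3 * |t * z x| ^ 3 ≤ |C3| * |M| ^ 3 * |t| ^ 3 := by
      calc C3 * |t * z x| ^ 3 ≤ |C3| * |t * z x| ^ 3 := by gcongr; exact le_abs_self _
        _ ≤ |C3| * (|t| * |M|) ^ 3 := by gcongr
        _ = _ := by ring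
    have ht3 := p_trunc_le pr hε (b x + t * z x)
    have hs := sq_nonneg (σ x)
    have : σ x ^ 2 * (pr.p (max 0 (min (b x + t * z x) 1)) ^ 2 - pr.p (b x) ^ 2
        - 2 * pr.p (b x) * pr.p' (b x) * (t * z x)
        - (pr.p' (b x) ^ 2 + pr.p (b x) * pr.p'' (b x)) * (t * z x) ^ 2)
        ≤ σ x ^ 2 * (|C3| * |M| ^ 3 * |t| ^ 3) :=
      mul_le_mul_of_nonneg_left (by linarith) hs
    nlinarith [this]
  have h2 := hG (hQ1.trans hQ2.le)
  have h3 := mul_le_mul_of_nonneg_left hV hκ.le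
  nlinarith [h1, h2, h3]

end Var

open Var in
/-- First and second variation at a minimiser. -/
theorem var : VarStmt := by
  intro X _ V _ _ ν 𝒟 W ε C0 pr σ dσ b gb Gf κ g₁ hε0 hε hWm hW0 hWb hWi hσD hσ hσi hdσ hb hb1
    hfin hG hκ hg₁ hGd hmin
  have hε1 : ε ≤ 1 := by linarith
  have hσm := 𝒟.meas hσD
  have hΛ : Real.sqrt (κ / g₁) ^ 2 = κ / g₁ := Real.sq_sqrt (div_pos hκ hg₁).le
  have cp : Continuous pr.p := continuous_iff_continuousAt.2 fun s => (pr.hp s).continuousAt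
  have cp' : Continuous pr.p' := continuous_iff_continuousAt.2 fun s => (pr.hp' s).continuousAt
  have cp'' := pr.cp''
  have hσb : ∀ x, |σ x| ≤ 1 := fun x => abs_le.2 ⟨by linarith [(hσ x).1], (hσ x).2⟩
  have hσ2 : Integrable (fun x => σ x ^ 2) ν := by
    simpa [pow_two] using int_mul hσi hσm hσb
  -- the polynomial path
  have hpath : ∀ I B Q t : ℝ, HasDerivAt (fun t : ℝ => I + t * (2 * B) + t ^ 2 * Q)
      (2 * B + 2 * t * Q) t := fun I B Q t => by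
    have := (((hasDerivAt_id' t).mul_const (2 * B)).const_add I).fun_add
      ((hasDerivAt_pow 2 t).mul_const Q)
    simpa using this
  have hpol : ∀ A B t : ℝ, HasDerivAt (fun t : ℝ => κ * (t * A + t ^ 2 * B))
      (κ * (A + 2 * t * B)) t := fun A B t => by
    have := (((hasDerivAt_id' t).mul_const A).fun_add
      ((hasDerivAt_pow 2 t).mul_const B)).const_mul κ
    simpa using this
  -- first order
  have hfirst : ∀ {z : X → ℝ} {G : X → V}, 𝒟.D z 0 G →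
      g₁ * (2 * ∫ x, (⟪gb x, G x⟫_ℝ + W x * b x * z x) ∂ν)
        + κ * ∫ x, σ x ^ 2 * (2 * (pr.p (b x) * pr.p' (b x))) * z x ∂ν = 0 := by
    intro z G hz
    obtain ⟨C, hC⟩ := key 𝒟 pr hε1 hW0 hWi hσm hσ hσi hb hb1 hG hκ hmin hz
    set I := Qf ν W b gb
    set B := ∫ x, (⟪gb x, G x⟫_ℝ + W x * b x * z x) ∂ν
    set Q := ∫ x, (‖G x‖ ^ 2 + W x * z x ^ 2) ∂ν
    set A₁ := ∫ x, σ x ^ 2 * (2 * (pr.p (b x) * pr.p' (b x))) * z x ∂ν
    set A₂ := ∫ x, σ x ^ 2 * (pr.p' (b x) ^ 2 + pr.p (b x) * pr.p'' (b x)) * z x ^ 2 ∂ν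
    have hGd' : HasDerivAt Gf g₁ (I + 0 * (2 * B) + 0 ^ 2 * Q) := by simpa using hGd
    have hd := (hGd'.comp 0 (hpath I B Q 0)).add (hpol A₁ A₂ 0)
    have := first_order (C := C) hd (by
      filter_upwards [hC] with t ht
      simpa using ht)
    simpa using this
  refine ⟨⟨Real.sqrt (κ / g₁), σ, dσ, b, gb, Real.sqrt_pos.2 (div_pos hκ hg₁), hσD, hσ, hσi, hdσ,
    hb, hb1, hfin, ?_⟩, rfl, rfl, rfl, rfl, rfl, ?_⟩
  · intro z G hz
    have h1 := hfirst hz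
    have iB : Integrable (fun x => ⟪gb x, G x⟫_ℝ + W x * b x * z x) ν :=
      (int_inner (𝒟.memG hb) (𝒟.memG hz)).add
        (int_comp hWi (F := fun s => s) continuous_id (𝒟.meas hb) (𝒟.bdd hb) (𝒟.meas hz)
          (𝒟.bdd hz))
    have i1 : Integrable (fun x => σ x ^ 2 * (2 * (pr.p (b x) * pr.p' (b x))) * z x) ν :=
      int_comp hσ2 (F := fun s => 2 * (pr.p s * pr.p' s)) (by fun_prop) (𝒟.meas hb) (𝒟.bdd hb)
        (𝒟.meas hz) (𝒟.bdd hz)
    have h2 : ∫ x, (⟪gb x, G x⟫_ℝ + (W x * b x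
          + Real.sqrt (κ / g₁) ^ 2 * σ x ^ 2 * (pr.p (b x) * pr.p' (b x))) * z x) ∂ν
        = (∫ x, (⟪gb x, G x⟫_ℝ + W x * b x * z x) ∂ν) + κ / g₁ / 2
          * ∫ x, σ x ^ 2 * (2 * (pr.p (b x) * pr.p' (b x))) * z x ∂ν := by
      rw [integral_lin iB i1, hΛ]
      refine integral_congr_ae (ae_of_all _ fun x => ?_)
      simp only
      ring
    rw [h2]
    generalize ∫ x, (⟪gb x, G x⟫_ℝ + W x * b x * z x) ∂ν = B at h1 ⊢
    generalize ∫ x, σ x ^ 2 * (2 * (pr.p (b x) * pr.p' (b x))) * z x ∂ν = A at h1 ⊢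
    field_simp
    linarith
  · intro G' g₂ hG' hG'' z G hz
    have h1 := hfirst hz
    obtain ⟨C, hC⟩ := key 𝒟 pr hε1 hW0 hWi hσm hσ hσi hb hb1 hG hκ hmin hz
    have iZ : Integrable (fun x => ‖G x‖ ^ 2 + W x * z x ^ 2) ν := by
      obtain ⟨M', hM'⟩ := sq_bdd (𝒟.bdd hz)
      exact (int_sq (𝒟.memG hz)).add (int_mul hWi ((𝒟.meas hz).pow_const 2) hM')
    have i2 : Integrable
        (fun x => σ x ^ 2 * (pr.p' (b x) ^ 2 + pr.p (b x) * pr.p'' (b x)) * z x ^ 2) ν :=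
      int_comp hσ2 (F := fun s => pr.p' s ^ 2 + pr.p s * pr.p'' s) (by fun_prop) (𝒟.meas hb)
        (𝒟.bdd hb) ((𝒟.meas hz).pow_const 2) (sq_bdd (𝒟.bdd hz))
    have e1 : ∫ x, 2 * Real.sqrt (κ / g₁) ^ 2 * σ x ^ 2 * (pr.p (b x) * pr.p' (b x)) * z x ∂ν
        = κ / g₁ * ∫ x, σ x ^ 2 * (2 * (pr.p (b x) * pr.p' (b x))) * z x ∂ν := by
      rw [← integral_const_mul, hΛ]
      refine integral_congr_ae (ae_of_all _ fun x => ?_)
      simp only
      ring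
    have e2 : ∫ x, (‖G x‖ ^ 2 + W x * z x ^ 2 + Real.sqrt (κ / g₁) ^ 2 * σ x ^ 2 *
          (pr.p' (b x) ^ 2 + pr.p (b x) * pr.p'' (b x)) * z x ^ 2) ∂ν
        = (∫ x, (‖G x‖ ^ 2 + W x * z x ^ 2) ∂ν) + κ / g₁ *
          ∫ x, σ x ^ 2 * (pr.p' (b x) ^ 2 + pr.p (b x) * pr.p'' (b x)) * z x ^ 2 ∂ν := by
      rw [integral_lin iZ i2, hΛ]
      refine integral_congr_ae (ae_of_all _ fun x => ?_)
      simp only
      ring
    simp only [Crit.xf]
    rw [e1, e2]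
    set I := Qf ν W b gb
    set B := ∫ x, (⟪gb x, G x⟫_ℝ + W x * b x * z x) ∂ν
    set Q := ∫ x, (‖G x‖ ^ 2 + W x * z x ^ 2) ∂ν
    set A₁ := ∫ x, σ x ^ 2 * (2 * (pr.p (b x) * pr.p' (b x))) * z x ∂ν
    set A₂ := ∫ x, σ x ^ 2 * (pr.p' (b x) ^ 2 + pr.p (b x) * pr.p'' (b x)) * z x ^ 2 ∂ν
    have hI : I + 0 * (2 * B) + 0 ^ 2 * Q = I := by simp
    have hg : G' I = g₁ := hG'.self_of_nhds.unique hGd
    have hten : Tendsto (fun t : ℝ => I + t * (2 * B) + t ^ 2 * Q) (𝓝 0) (𝓝 I) := by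
      have := (hpath I B Q 0).continuousAt.tendsto
      rwa [hI] at this
    have hG2 : HasDerivAt G' g₂ (I + 0 * (2 * B) + 0 ^ 2 * Q) := by rwa [hI]
    have hlin : ∀ A B : ℝ, HasDerivAt (fun t : ℝ => A + 2 * t * B) (2 * B) 0 := fun A B => by
      have := ((((hasDerivAt_id' (0 : ℝ)).const_mul 2).mul_const B).const_add A)
      simpa using this
    have h2 := second_order (C := C)
      (f := fun t => Gf (I + t * (2 * B) + t ^ 2 * Q) + κ * (t * A₁ + t ^ 2 * A₂))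
      (f' := fun t => G' (I + t * (2 * B) + t ^ 2 * Q) * (2 * B + 2 * t * Q)
        + κ * (A₁ + 2 * t * A₂))
      (by
        filter_upwards [hten.eventually hG'] with t ht
        exact (ht.comp t (hpath I B Q t)).add (hpol A₁ A₂ t))
      (by simpa [hg] using h1)
      (((hG2.comp 0 (hpath I B Q 0)).mul (hlin (2 * B) Q)).add ((hlin A₁ A₂).const_mul κ))
      (by
        filter_upwards [hC] with t ht
        simpa using ht)
    simp only [Function.comp, hI] at h2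
    simp only [hg, mul_zero, zero_mul, add_zero] at h2
    have h3 : κ / g₁ * A₁ = -(2 * B) := by
      field_simp
      linarith
    rw [h3]
    have h4 : -(g₂ / (2 * g₁)) * (-(2 * B)) ^ 2 = (-(g₂ * (2 * B) * (2 * B))) / (2 * g₁) := by
      ring
    have h5 : Q + κ / g₁ * A₂ = (g₁ * (2 * Q) + κ * (2 * A₂)) / (2 * g₁) := by
      field_simp
    rw [h4, h5]
    exact div_le_div_of_nonneg_right (by linarith) (by positivity)

end Crest.Agent.N346.P2
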