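import Crest.Agent.N346.P2.Basic

/-! Row 346, P2: `zero : ZeroStmt`, `comp : CompStmt`, `area : AreaStmt` (helper14). -/

set_option autoImplicit false
open MeasureTheory Set
open scoped InnerProductSpace

noncomputable section
namespace Crest.Agent.N346.P2

section
variable {X : Type} [MeasurableSpace X] {V : Type} [NormedAddCommGroup V] [InnerProductSpace ℝ V]
  {ν : Measure X} {𝒟 : DClass ν V} {a q τ₀ ω : ℝ}

theorem Neck.hi_flux (nk : Neck 𝒟 a q τ₀ ω) {h : X → ℝ} {c : ℝ} {G : X → V} (hh : 𝒟.D h c G) :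
    HI ν (fun x => nk.θ x * ⟪nk.e x, G x⟫_ℝ + h x * ⟪nk.e x, nk.dθ x⟫_ℝ) (c * q) := by
  refine ⟨((DClass.bd nk.θ_D).int (int_inner nk.e_memLp (𝒟.memG hh))).add
    ((DClass.bd hh).int (int_inner nk.e_memLp (𝒟.memG nk.θ_D))), ?_⟩
  rw [← nk.flux hh]
  simp only [inner_add_right, inner_smul_right]

theorem Neck.abs_inner_dθ (nk : Neck 𝒟 a q τ₀ ω) (hω : 0 ≤ ω) (x : X) :
    |⟪nk.e x, nk.dθ x⟫_ℝ| ≤ ω * nk.W x := by
  have hW := nk.W_nonneg x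
  refine (abs_real_inner_le_norm _ _).trans (le_of_sq_le_sq ?_ (by positivity))
  rw [mul_pow]
  exact (mul_le_mul (nk.e_le x) (nk.dθ_sq_le x) (by positivity) hW).trans (le_of_eq (by ring))

theorem Neck.θe_sq_le (nk : Neck 𝒟 a q τ₀ ω) (x : X) : ‖nk.θ x • nk.e x‖ ^ 2 ≤ nk.W x := by
  obtain ⟨h0, h1⟩ := nk.θ_mem x
  rw [norm_smul, mul_pow, Real.norm_of_nonneg h0]
  exact (mul_le_of_le_one_left (by positivity) (pow_le_one₀ h0 h1)).trans (nk.e_le x)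

theorem Neck.int_Kf (nk : Neck 𝒟 a q τ₀ ω) (τ : ℝ) {t : ℝ} {Y₁ Y₂ : X → ℝ} {G₁ G₂ β₁ β₂ : X → V}
    (h : IsPair 𝒟 nk.ρ t Y₁ Y₂ G₁ G₂) (h₁ : MemLp β₁ 2 ν) (h₂ : MemLp β₂ 2 ν) :
    Integrable (fun x => ‖G₁ x‖ ^ 2 + ‖G₂ x‖ ^ 2 + (nk.ρ x + nk.P x ^ 2) * (Y₁ x ^ 2 + Y₂ x ^ 2)
      + a * (τ * (2 * Y₁ x * ⟪β₁ x, G₁ x⟫_ℝ + 2 * Y₂ x * ⟪β₂ x, G₂ x⟫_ℝ)
        - τ ^ 2 * (‖β₁ x‖ ^ 2 * Y₁ x ^ 2 + ‖β₂ x‖ ^ 2 * Y₂ x ^ 2))
      - 2 * ‖nk.dP x‖ * Y₁ x * Y₂ x) ν := by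
  have b₁ := DClass.bd h.d₁
  have b₂ := DClass.bd h.d₂
  have g₁ := 𝒟.memG h.d₁
  have g₂ := 𝒟.memG h.d₂
  refine ((((((int_normsq g₁).add (int_normsq g₂)).add h.int).add
    (((DClass.bd nk.P_D).mul (b₁.sq.add b₂.sq)).int nk.P_int)).add
    ((((((b₁.cmul 2).int (int_inner h₁ g₁)).add ((b₂.cmul 2).int (int_inner h₂ g₂))).const_mul τ).sub
      (((b₁.sq.int (int_normsq h₁)).add (b₂.sq.int (int_normsq h₂))).const_mul (τ ^ 2))).const_mul a)).sub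
    (((b₁.mul b₂).cmul 2).int nk.dP_int.norm)).congr (ae_of_all _ fun x => ?_)
  simp only [Pi.add_apply, Pi.sub_apply]
  ring

theorem Neck.curv' (nk : Neck 𝒟 a q τ₀ ω) (x : X) (y₁ y₂ : ℝ) :
    (1 + a + τ₀) * nk.W x * (y₁ ^ 2 + y₂ ^ 2) ≤
      (nk.ρ x + nk.P x ^ 2) * (y₁ ^ 2 + y₂ ^ 2) - 2 * ‖nk.dP x‖ * y₁ * y₂ := by
  nlinarith [mul_le_mul_of_nonneg_right (nk.curv x) (show 0 ≤ y₁ ^ 2 + y₂ ^ 2 by positivity),
    mul_nonneg (norm_nonneg (nk.dP x)) (sq_nonneg (y₁ - y₂))]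

end

theorem zero : ZeroStmt := by
  intro X _ V _ _ ν 𝒟 a q τ₀ ω nk ha hq hω hτ
  have m₁ : MemLp (fun x => nk.θ x • nk.e x) 2 ν := (DClass.bd nk.θ_D).smul_memLp nk.e_memLp
  have m₂ : MemLp (fun x => -(nk.θ x • nk.e x)) 2 ν := m₁.neg
  have haω : 0 ≤ a * ω := by positivity
  refine ⟨fun t Y₁ Y₂ G₁ G₂ ht h => ?_, fun Y₁ Y₂ G₁ G₂ h => ?_⟩
  · have f₁ := nk.hi_flux (𝒟.mul h.d₁ h.d₁)
    have f₂ := nk.hi_flux (𝒟.mul h.d₂ h.d₂)
    have hK := HI.of (nk.int_Kf 1 h m₁ m₂)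
    have hQ : HI ν (fun x => ‖G₁ x‖ ^ 2 + nk.W x * Y₁ x ^ 2) (Qf ν nk.W Y₁ G₁) :=
      ⟨(int_normsq (𝒟.memG h.d₁)).add ((((DClass.bd h.d₁).sq).int nk.W_int).congr
        (ae_of_all _ fun x => mul_comm _ _)), rfl⟩
    have htt : t * t = t := by rcases ht with rfl | rfl <;> norm_num
    have ht0 : 0 ≤ t := by rcases ht with rfl | rfl <;> norm_num
    rw [htt] at f₁
    have key : ∀ x, a * (‖nk.θ x • nk.e x‖ ^ 2 * (Y₁ x ^ 2 + Y₂ x ^ 2)) ≤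
          a * (nk.W x * (Y₁ x ^ 2 + Y₂ x ^ 2)) ∧
        -(ω * (nk.W x * Y₁ x ^ 2)) ≤ -(Y₁ x ^ 2 * ⟪nk.e x, nk.dθ x⟫_ℝ) ∧
        -(ω * (nk.W x * Y₂ x ^ 2)) ≤ Y₂ x ^ 2 * ⟪nk.e x, nk.dθ x⟫_ℝ ∧
        0 ≤ nk.W x * Y₁ x ^ 2 ∧ 0 ≤ nk.W x * Y₂ x ^ 2 := fun x => by
      have h1 := abs_le.1 (nk.abs_inner_dθ hω x)
      have h2 := nk.W_nonneg x
      refine ⟨by gcongr; exact nk.θe_sq_le x, ?_, ?_, by positivity, by positivity⟩
      · nlinarith [mul_le_mul_of_nonneg_left h1.2 (sq_nonneg (Y₁ x))]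
      · nlinarith [mul_le_mul_of_nonneg_left h1.1 (sq_nonneg (Y₂ x))]
    refine max_le ?_ ?_
    · refine le_trans (le_of_eq (by ring)) (((f₁.cmul (1 + a)).sub (f₂.cmul a)).mono hK fun x => ?_)
      obtain ⟨k1, k2, k3, k4, k5⟩ := key x
      have k6 := nk.curv' x (Y₁ x) (Y₂ x)
      have k7 : 2 * Y₁ x * (nk.θ x * ⟪nk.e x, G₁ x⟫_ℝ) ≤ ‖G₁ x‖ ^ 2 + nk.W x * Y₁ x ^ 2 := by
        have h1 := real_inner_le_norm (nk.θ x • nk.e x) (G₁ x)
        rw [real_inner_smul_left] at h1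
        nlinarith [mul_le_mul_of_nonneg_left h1 (h.nn₁ x), sq_nonneg (‖G₁ x‖ - Y₁ x * ‖nk.θ x • nk.e x‖),
          mul_le_mul_of_nonneg_right (nk.θe_sq_le x) (sq_nonneg (Y₁ x))]
      simp only [inner_add_right, inner_smul_right, inner_neg_left, real_inner_smul_left, norm_neg]
      nlinarith [mul_le_mul_of_nonneg_left k2 (show 0 ≤ 1 + a by positivity),
        mul_le_mul_of_nonneg_left k3 ha.le, mul_le_mul_of_nonneg_right hτ (add_nonneg k4 k5),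
        sq_nonneg ‖G₂ x‖, mul_nonneg hω k5]
    · refine le_trans (by nlinarith [mul_nonneg ha.le (mul_nonneg ht0 hq)])
        (((hQ.add (f₁.cmul a)).sub (f₂.cmul a)).mono hK fun x => ?_)
      obtain ⟨k1, k2, k3, k4, k5⟩ := key x
      have k6 := nk.curv' x (Y₁ x) (Y₂ x)
      simp only [inner_add_right, inner_smul_right, inner_neg_left, real_inner_smul_left, norm_neg]
      nlinarith [mul_le_mul_of_nonneg_left k2 ha.le, mul_le_mul_of_nonneg_left k3 ha.le,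
        mul_le_mul_of_nonneg_right hτ (add_nonneg k4 k5), sq_nonneg ‖G₂ x‖,
        mul_nonneg hω (add_nonneg k4 k5)]
  · refine integral_mono_of_nonneg (ae_of_all _ fun x => by positivity) (nk.int_Kf 0 h m₁ m₂)
      (ae_of_all _ fun x => ?_)
    have k6 := nk.curv' x (Y₁ x) (Y₂ x)
    have k1 := mul_le_mul_of_nonneg_right (nk.θe_sq_le x) (show 0 ≤ Y₁ x ^ 2 + Y₂ x ^ 2 by positivity)
    have k2 : 0 ≤ (a + τ₀) * (nk.W x * (Y₁ x ^ 2 + Y₂ x ^ 2)) :=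
      mul_nonneg (by nlinarith) (mul_nonneg (nk.W_nonneg x) (by positivity))
    simp only [norm_neg]
    nlinarith

theorem comp : CompStmt := by
  intro X _ V _ _ ν 𝒟 W ε C0 pr c hε hWm hW0 hWi Y G hY
  have hN0 : ∀ x, W x * c.b x ≤ c.N x := fun x => by
    have := pr.p_nonneg hε (c.b_mem x)
    have := pr.p'_nonneg (c.b x)
    exact le_add_of_nonneg_right (by positivity)
  have hN : Integrable c.N ν :=
    ((c.bd_b.int hWi).add (c.int_σ2 (((c.bdb' pr.cp).mul (c.bdb' pr.cp')).cmul (c.Λ ^ 2)))).congr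
      (ae_of_all _ fun x => by simp only [Crit.N, Pi.add_apply]; ring)
  have hz : 𝒟.D (fun x => c.b x + -1 * Y x) 0 (fun x => c.gb x + (-1 : ℝ) • G x) := by
    simpa using 𝒟.add c.b_D (𝒟.smul (-1) hY)
  obtain ⟨M, hM⟩ := 𝒟.bdd hz
  have hQ : HI ν (fun x => ‖G x‖ ^ 2 + W x * Y x ^ 2) (Qf ν W Y G) :=
    ⟨(int_normsq (𝒟.memG hY)).add (((DClass.bd hY).sq.int hWi).congr
      (ae_of_all _ fun x => mul_comm _ _)), rfl⟩
  have key : ∀ δ : ℝ, 0 < δ → ∫ x, W x * c.b x ^ 2 ∂ν ≤ 4 * Qf ν W Y G + δ * ∫ x, c.N x ∂ν := by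
    intro δ hδ
    have hs : ∀ s : ℝ, 0 < √(s ^ 2 + δ ^ 2) := fun s => by positivity
    have hs' : ∀ s : ℝ, |s| ≤ √(s ^ 2 + δ ^ 2) := fun s =>
      Real.abs_le_sqrt (le_add_of_nonneg_right (by positivity))
    have hT := 𝒟.comp (fun s => (s + √(s ^ 2 + δ ^ 2) - δ) / 2) (fun s => (1 + s / √(s ^ 2 + δ ^ 2)) / 2)
      (-|M|) |M| hz (fun x => abs_le.1 ((hM x).trans (le_abs_self M)))
      ⟨by simp, abs_nonneg M⟩ (fun s _ => by
        have h1 := (((hasDerivAt_id s).add (((hasDerivAt_pow 2 s).add_const (δ ^ 2)).sqrt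
          (by positivity))).sub_const δ).div_const 2
        refine h1.congr_deriv ?_
        have := hs s
        simp only [Nat.cast_ofNat, Nat.add_one_sub_one, pow_one]
        field_simp)
      (Continuous.continuousOn (by
        refine (continuous_const.add (continuous_id.div (by fun_prop) fun s => (hs s).ne')).div_const 2))
    rw [show (0 + √(0 ^ 2 + δ ^ 2) - δ) / 2 = (0 : ℝ) by simp [Real.sqrt_sq hδ.le]] at hT
    have hE : HI ν _ 0 := ⟨(int_inner c.gb2 (𝒟.memG hT)).add (((DClass.bd hT).int hN).congr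
      (g := fun x => c.N x * _) (ae_of_all _ fun x => mul_comm _ _)), c.EL hT⟩
    have := (HI.of ((c.bd_b.sq.int hWi).congr (g := fun x => W x * c.b x ^ 2)
      (ae_of_all _ fun x => mul_comm _ _))).mono
      (((hQ.cmul 4).add (hE.cmul 2)).add ((HI.of hN).cmul δ)) fun x => ?_
    · linarith
    simp only [Pi.add_apply, inner_smul_right, inner_add_right, real_inner_self_eq_norm_sq]
    have h1 := abs_le.1 (hs' (c.b x + -1 * Y x))
    have h2 := hs (c.b x + -1 * Y x)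
    have h3 : |(c.b x + -1 * Y x) / √((c.b x + -1 * Y x) ^ 2 + δ ^ 2)| ≤ 1 := by
      rw [abs_div, abs_of_pos h2, div_le_one h2]; exact hs' _
    generalize (c.b x + -1 * Y x) / √((c.b x + -1 * Y x) ^ 2 + δ ^ 2) = r at h3
    generalize √((c.b x + -1 * Y x) ^ 2 + δ ^ 2) = u at h1 h2
    have h4 := abs_le.1 h3
    have h5 : -(‖G x‖ ^ 2 / 4) ≤ ‖c.gb x‖ ^ 2 + -1 * ⟪c.gb x, G x⟫_ℝ := by
      nlinarith [real_inner_le_norm (c.gb x) (G x), sq_nonneg (‖c.gb x‖ - ‖G x‖ / 2)]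
    have h6 : -(‖G x‖ ^ 2 / 4) ≤ (1 + r) / 2 * (‖c.gb x‖ ^ 2 + -1 * ⟪c.gb x, G x⟫_ℝ) := by
      nlinarith [mul_le_mul_of_nonneg_left h5 (show 0 ≤ (1 + r) / 2 by linarith), sq_nonneg ‖G x‖]
    have hb := (c.b_mem x).1
    have hW := hW0 x
    have h7 : c.b x ^ 2 ≤ 4 * Y x ^ 2 + c.b x * (c.b x + -1 * Y x + u) := by
      rcases le_total (c.b x) (2 * Y x) with h | h
      · nlinarith [mul_nonneg hb (show 0 ≤ c.b x + -1 * Y x + u by linarith)]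
      · nlinarith [mul_le_mul_of_nonneg_left (show c.b x ≤ c.b x + -1 * Y x + u by linarith) hb]
    nlinarith [mul_le_mul_of_nonneg_left h7 hW, sq_nonneg ‖G x‖,
      mul_le_mul_of_nonneg_right (hN0 x) (show 0 ≤ c.b x + -1 * Y x + u by linarith)]
  refine le_of_forall_pos_le_add fun η hη => ?_
  have h0 : 0 ≤ ∫ x, c.N x ∂ν :=
    integral_nonneg fun x => (mul_nonneg (hW0 x) (c.b_mem x).1).trans (hN0 x)
  refine (key (η / (∫ x, c.N x ∂ν + 1)) (by positivity)).trans (add_le_add le_rfl ?_)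
  rw [div_mul_eq_mul_div, div_le_iff₀ (by positivity)]
  nlinarith

theorem area : AreaStmt := by
  intro X _ V _ _ ν 𝒟 a q τ₀ ω nk ε C0 pr c T hε hε8 hq hω hT0 hT1
  have hT2 : 0 < 1 - T ^ 2 := by nlinarith
  have hp1 : pr.p 1 = 1 := pr.p_one 1 (by linarith)
  set j : ℝ → ℝ := fun s => √(T ^ 2 * s ^ 2 + (1 - T ^ 2)) with hj
  have hj0 : ∀ s, 0 < j s := fun s => Real.sqrt_pos.2 (by positivity)
  have hj1 : ∀ s, √(1 - T ^ 2) ≤ j s := fun s =>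
    Real.sqrt_le_sqrt (le_add_of_nonneg_left (by positivity))
  have hjc : Continuous j := by rw [hj]; fun_prop
  have hjd : ∀ s, HasDerivAt j (T ^ 2 * s / j s) s := fun s => by
    have h1 := (((hasDerivAt_pow 2 s).const_mul (T ^ 2)).add_const (1 - T ^ 2)).sqrt (by positivity)
    convert h1 using 1
    have := hj0 s
    simp only [Nat.cast_ofNat, Nat.add_one_sub_one, pow_one, hj] at this ⊢
    field_simp
  have hD := c.div1 nk.wok (fun s => pr.p s * j s) (fun s => pr.p' s * j s + pr.p s * (T ^ 2 * s / j s))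
    (fun s _ => (pr.hp s).mul (hjd s)) (Continuous.continuousOn ((pr.cp'.mul hjc).add
      (pr.cp.mul ((continuous_const.mul continuous_id).div hjc fun s => (hj0 s).ne'))))
  rw [hp1, show j 1 = 1 by simp [hj], one_mul, one_mul] at hD
  have hc : Continuous fun t => 2 * pr.p t * t := (continuous_const.mul pr.cp).mul continuous_id
  set Ξ : ℝ → ℝ := fun s => ∫ t in (0 : ℝ)..s, 2 * pr.p t * t with hΞ
  have hsq : ∀ u v : ℝ, ∫ t in u..v, 2 * t = v ^ 2 - u ^ 2 := fun u v => by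
    rw [intervalIntegral.integral_const_mul, integral_id]; ring
  have hΞ0 : ∀ s ∈ Icc (0 : ℝ) 1, 0 ≤ Ξ s := fun s hs =>
    intervalIntegral.integral_nonneg hs.1 fun t ht => mul_nonneg (mul_nonneg zero_le_two
      (pr.p_nonneg hε ⟨ht.1, ht.2.trans hs.2⟩)) ht.1
  have hΞ1 : ∀ s ∈ Icc (0 : ℝ) 1, Ξ s ≤ s ^ 2 := fun s hs => by
    refine (intervalIntegral.integral_mono_on hs.1 (hc.intervalIntegrable _ _)
      ((continuous_const.mul continuous_id).intervalIntegrable (u := fun t : ℝ => 2 * t) _ _)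
      fun t ht => ?_).trans_eq (by rw [hsq]; ring)
    nlinarith [pr.p_le_one t, ht.1]
  have hΞ2 : 1 - ε ^ 2 ≤ Ξ 1 := by
    have h1 := intervalIntegral.integral_add_adjacent_intervals (hc.intervalIntegrable (μ := volume) 0 ε)
      (hc.intervalIntegrable ε 1)
    have h2 : ∫ t in ε..1, 2 * pr.p t * t = ∫ t in ε..1, 2 * t :=
      intervalIntegral.integral_congr fun t ht => by
        rw [uIcc_of_le (by linarith)] at ht
        simp only [pr.p_one t ht.1, mul_one]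
    rw [h2, hsq] at h1
    have h3 := hΞ0 ε ⟨hε.le, by linarith⟩
    simp only [hΞ] at h3 ⊢
    linarith
  have hF := nk.hi_flux (𝒟.comp Ξ (fun t => 2 * pr.p t * t) 0 1 c.b_D c.b_mem ⟨zero_le_one, le_rfl⟩
    (fun s _ => (hc.integral_hasStrictDerivAt 0 s).hasDerivAt) hc.continuousOn)
  have hA : Integrable (fun x => c.σ x * ‖(2 * pr.p (c.b x) * pr.p' (c.b x)) • c.gb x‖) ν :=
    MemLp.integrable_mul (c.bd_σ.memLp_two c.σ_int)
      ((((c.bdb' pr.cp).cmul 2).mul (c.bdb' pr.cp')).smul_memLp c.gb2).norm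
  have hB : Integrable (fun x => nk.W x * c.b x ^ 2) ν :=
    (c.bd_b.sq.int nk.W_int).congr (ae_of_all _ fun x => mul_comm _ _)
  have h1 := (((HI.of hA).cmul (√(1 - T ^ 2) * c.Λ)).add (hF.cmul T)).mono
    (hD.add ((HI.of hB).cmul ω)) fun x => ?_
  · have h2 : c.Φ ≤ c.I / (1 - ε) := by
      rw [le_div_iff₀ (by linarith), mul_comm]; exact c.Φ_le hε nk.wok
    nlinarith [mul_le_mul_of_nonneg_left hΞ2 (mul_nonneg hT0 hq)]
  have hb := c.b_mem x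
  have k1 := pr.p_nonneg hε hb
  have k2 := pr.p'_nonneg (c.b x)
  have k3 := (c.σ_mem x).1
  have k4 := c.Λ_pos
  have k5 := nk.W_nonneg x
  have k6 := hj0 (c.b x)
  have k7 : T * (Ξ (c.b x) * ⟪nk.e x, nk.dθ x⟫_ℝ) ≤ ω * (nk.W x * c.b x ^ 2) := by
    calc _ ≤ T * (Ξ (c.b x) * (ω * nk.W x)) :=
          mul_le_mul_of_nonneg_left (mul_le_mul_of_nonneg_left
            (abs_le.1 (nk.abs_inner_dθ hω x)).2 (hΞ0 _ hb)) hT0
      _ ≤ 1 * (c.b x ^ 2 * (ω * nk.W x)) := by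
          have := hΞ0 _ hb
          gcongr
          exact hΞ1 _ hb
      _ = _ := by ring
  have k8 : 2 * T * (nk.θ x * ⟪nk.e x, c.gb x⟫_ℝ) ≤
      T ^ 2 / j (c.b x) * ‖c.gb x‖ ^ 2 + j (c.b x) * nk.W x := by
    have h1 := real_inner_le_norm (nk.θ x • nk.e x) (c.gb x)
    rw [real_inner_smul_left] at h1
    have h2 : 2 * T * (‖nk.θ x • nk.e x‖ * ‖c.gb x‖) ≤
        T ^ 2 / j (c.b x) * ‖c.gb x‖ ^ 2 + j (c.b x) * ‖nk.θ x • nk.e x‖ ^ 2 := by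
      rw [← sub_nonneg, show T ^ 2 / j (c.b x) * ‖c.gb x‖ ^ 2 + j (c.b x) * ‖nk.θ x • nk.e x‖ ^ 2 -
        2 * T * (‖nk.θ x • nk.e x‖ * ‖c.gb x‖) =
        (T * ‖c.gb x‖ - j (c.b x) * ‖nk.θ x • nk.e x‖) ^ 2 / j (c.b x) by field_simp; ring]
      positivity
    nlinarith [mul_le_mul_of_nonneg_left h1 hT0, mul_le_mul_of_nonneg_left (nk.θe_sq_le x) k6.le]
  have k9 : √(1 - T ^ 2) * c.Λ * (c.σ x * (2 * pr.p (c.b x) * pr.p' (c.b x) * ‖c.gb x‖)) ≤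
      pr.p' (c.b x) * j (c.b x) * (‖c.gb x‖ ^ 2 + (c.Λ * c.σ x * pr.p (c.b x)) ^ 2) := by
    calc _ ≤ j (c.b x) * c.Λ * (c.σ x * (2 * pr.p (c.b x) * pr.p' (c.b x) * ‖c.gb x‖)) := by
          gcongr; exact hj1 _
      _ = pr.p' (c.b x) * j (c.b x) * (2 * ‖c.gb x‖ * (c.Λ * c.σ x * pr.p (c.b x))) := by ring
      _ ≤ _ := mul_le_mul_of_nonneg_left (two_mul_le_add_sq _ _) (by positivity)
  have k10 := mul_le_mul_of_nonneg_left k8 (mul_nonneg k1 hb.1)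
  rw [norm_smul, Real.norm_of_nonneg (by positivity), inner_smul_right, Crit.N, mul_div_right_comm]
  nlinarith

end Crest.Agent.N346.P2
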