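import Mathlib

/-!
Row 346, part P2 (shielded Riemannian Penrose inequality with charge): the ABSTRACT scalar layer.
Everything lives on a measure space `(X, ν)` with a class `D u c G` of bounded functions `u` with
"value at infinity" `c` and square integrable "gradient" `G` (values in an inner product space).
See the notes "helper10: P2 (+charge) LEMMA LEVEL 1/2, 2/2" on row 346.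
-/

set_option autoImplicit false
open MeasureTheory Set
open scoped InnerProductSpace

noncomputable section
namespace Crest.Agent.N346.P2

/-- The abstract Dirichlet class. -/
structure DClass {X : Type} [MeasurableSpace X] (ν : Measure X) (V : Type)
    [NormedAddCommGroup V] [InnerProductSpace ℝ V] where
  D : (X → ℝ) → ℝ → (X → V) → Prop
  meas : ∀ {u c G}, D u c G → Measurable u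
  bdd : ∀ {u c G}, D u c G → ∃ M : ℝ, ∀ x, |u x| ≤ M
  memG : ∀ {u c G}, D u c G → MemLp G 2 ν
  const : ∀ c : ℝ, D (fun _ => c) c (fun _ => 0)
  add : ∀ {u c G v c' G'}, D u c G → D v c' G' →
    D (fun x => u x + v x) (c + c') (fun x => G x + G' x)
  smul : ∀ (r : ℝ) {u c G}, D u c G → D (fun x => r * u x) (r * c) (fun x => r • G x)
  mul : ∀ {u c G v c' G'}, D u c G → D v c' G' →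
    D (fun x => u x * v x) (c * c') (fun x => u x • G' x + v x • G x)
  comp : ∀ {u c G} (m m' : ℝ → ℝ) (lo hi : ℝ), D u c G → (∀ x, u x ∈ Icc lo hi) → c ∈ Icc lo hi →
    (∀ s ∈ Icc lo hi, HasDerivAt m (m' s) s) → ContinuousOn m' (Icc lo hi) →
    D (fun x => m (u x)) (m c) (fun x => m' (u x) • G x)
  trunc : ∀ {u G}, D u 1 G → ∃ G' : X → V, D (fun x => max 0 (min (u x) 1)) 1 G' ∧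
    ∀ x, ‖G' x‖ ≤ ‖G x‖

/-- The one-dimensional profiles at scale `ε`: the concave phase-field profile `p`, the convex
cut `B` and the cut `m` (`m3` in the notes). -/
structure Prof (ε C0 : ℝ) where
  p : ℝ → ℝ
  p' : ℝ → ℝ
  p'' : ℝ → ℝ
  hp : ∀ s, HasDerivAt p (p' s) s
  hp' : ∀ s, HasDerivAt p' (p'' s) s
  cp'' : Continuous p''
  p_zero : p 0 = 0
  p_one : ∀ s, ε ≤ s → p s = 1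
  p'_zero : ∀ s, ε ≤ s → p' s = 0
  p''_zero : ∀ s, ε ≤ s → p'' s = 0
  p'_nonneg : ∀ s, 0 ≤ p' s
  p''_nonpos : ∀ s, p'' s ≤ 0
  p_le_one : ∀ s, p s ≤ 1
  p'_le : ∀ s ∈ Icc (0 : ℝ) 1, p' s ≤ C0 / ε
  p''_le : ∀ s ∈ Icc (0 : ℝ) 1, -p'' s ≤ C0 / ε ^ 2
  p'_le_p'' : ∀ s ∈ Icc (0 : ℝ) 1, p' s ≤ C0 * ε * (-p'' s)
  le_p : ∀ s ∈ Icc (0 : ℝ) 1, min (s / ε) 1 ≤ p s
  mul_p'_le : ∀ s ∈ Icc (0 : ℝ) 1, s * p' s ≤ p s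
  taylor : ∃ C3 : ℝ, ∀ s ∈ Icc (0 : ℝ) 1, ∀ h : ℝ, |h| ≤ 1 →
    |p (s + h) ^ 2 - p s ^ 2 - 2 * p s * p' s * h - (p' s ^ 2 + p s * p'' s) * h ^ 2| ≤ C3 * |h| ^ 3
  B : ℝ → ℝ
  B' : ℝ → ℝ
  B'' : ℝ → ℝ
  hB : ∀ s, HasDerivAt B (B' s) s
  hB' : ∀ s, HasDerivAt B' (B'' s) s
  cB'' : Continuous B''
  B_zero : ∀ s, s ≤ ε → B s = 0
  B'_zero : ∀ s, s ≤ ε → B' s = 0
  B''_zero : ∀ s, s ≤ ε ∨ 2 * ε ≤ s → B'' s = 0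
  B'_top : ∀ s, 2 * ε ≤ s → B' s = B' 1
  B_one : B 1 = 1
  B''_nonneg : ∀ s, 0 ≤ B'' s
  B'_nonneg : ∀ s, 0 ≤ B' s
  B'_le : ∀ s, B' s ≤ B' 1
  one_le_B'_one : 1 ≤ B' 1
  B'_one_le : B' 1 ≤ 1 + 4 * ε
  B_nonneg : ∀ s, 0 ≤ B s
  B_le : ∀ s ∈ Icc (0 : ℝ) 1, B s ≤ s
  sub_B_le : ∀ s ∈ Icc (0 : ℝ) 1, s - B s ≤ 4 * ε
  tang_nonneg : ∀ s ∈ Icc (0 : ℝ) 1, 0 ≤ s * B' s - B s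
  tang_le : ∀ s ∈ Icc (0 : ℝ) 1, s * B' s - B s ≤ 4 * ε
  m : ℝ → ℝ
  m' : ℝ → ℝ
  hm : ∀ s, HasDerivAt m (m' s) s
  cm' : Continuous m'
  m'_one : ∀ s ∈ Icc (0 : ℝ) (2 * ε), m' s = 1
  m'_nonneg : ∀ s, 0 ≤ m' s
  m_nonneg : ∀ s ∈ Icc (0 : ℝ) 1, 0 ≤ m s
  m_le : ∀ s ∈ Icc (0 : ℝ) 1, m s ≤ min s (4 * ε)

/-- Existence of the profiles (leaf). -/
def ProfStmt : Prop := ∃ C0 : ℝ, 1 ≤ C0 ∧ ∀ ε : ℝ, 0 < ε → ε ≤ 1 / 8 → Nonempty (Prof ε C0)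

section defs
variable {X : Type} [MeasurableSpace X] {V : Type} [NormedAddCommGroup V] [InnerProductSpace ℝ V]

/-- The energy `Q(u) = ∫ |G|² + W u²`. -/
def Qf (ν : Measure X) (W u : X → ℝ) (G : X → V) : ℝ := ∫ x, (‖G x‖ ^ 2 + W x * u x ^ 2) ∂ν

/-- The functional `K_τ` of the spinor interface (`ρ = R/4`). -/
def Kf (ν : Measure X) (a τ : ℝ) (ρ F : X → ℝ) (dF β₁ β₂ : X → V) (Y₁ Y₂ : X → ℝ)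
    (G₁ G₂ : X → V) : ℝ :=
  ∫ x, (‖G₁ x‖ ^ 2 + ‖G₂ x‖ ^ 2 + (ρ x + F x ^ 2) * (Y₁ x ^ 2 + Y₂ x ^ 2)
    + a * (τ * (2 * Y₁ x * ⟪β₁ x, G₁ x⟫_ℝ + 2 * Y₂ x * ⟪β₂ x, G₂ x⟫_ℝ)
      - τ ^ 2 * (‖β₁ x‖ ^ 2 * Y₁ x ^ 2 + ‖β₂ x‖ ^ 2 * Y₂ x ^ 2))
    - 2 * ‖dF x‖ * Y₁ x * Y₂ x) ∂ν

/-- An admissible pair with value `(t, 0)` at infinity. -/
structure IsPair {ν : Measure X} (𝒟 : DClass ν V) (ρ : X → ℝ) (t : ℝ) (Y₁ Y₂ : X → ℝ)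
    (G₁ G₂ : X → V) : Prop where
  d₁ : 𝒟.D Y₁ t G₁
  d₂ : 𝒟.D Y₂ 0 G₂
  nn₁ : ∀ x, 0 ≤ Y₁ x
  nn₂ : ∀ x, 0 ≤ Y₂ x
  int : Integrable (fun x => ρ x * (Y₁ x ^ 2 + Y₂ x ^ 2)) ν

/-- The functions built from the neck (step 0 of the notes). -/
structure Neck {ν : Measure X} (𝒟 : DClass ν V) (a q τ₀ ω : ℝ) where
  W : X → ℝ
  ρ : X → ℝ
  P : X → ℝ
  θ : X → ℝ
  θ₀ : X → ℝ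
  e : X → V
  dP : X → V
  dθ : X → V
  dθ₀ : X → V
  W_meas : Measurable W
  W_nonneg : ∀ x, 0 ≤ W x
  W_bdd : ∃ M : ℝ, ∀ x, W x ≤ M
  W_int : Integrable W ν
  e_meas : AEStronglyMeasurable e ν
  e_le : ∀ x, ‖e x‖ ^ 2 ≤ W x
  P_D : 𝒟.D P 0 dP
  P_nonneg : ∀ x, 0 ≤ P x
  P_int : Integrable P ν
  dP_int : Integrable dP ν
  curv : ∀ x, (1 + a + τ₀) * W x ≤ ρ x + P x ^ 2 - ‖dP x‖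
  θ_D : 𝒟.D θ 1 dθ
  θ_mem : ∀ x, θ x ∈ Icc (0 : ℝ) 1
  dθ_le : ∀ x, ‖dθ x‖ ^ 2 ≤ 4 * ω ^ 2 * (θ x * (1 - θ x)) * W x
  θ_P : ∀ x, θ x * P x = 0
  θ₀_D : 𝒟.D θ₀ 0 dθ₀
  θ₀_one : ∀ x, θ x ≠ 1 → θ₀ x = 1
  dθ₀_le : ∀ x, ‖dθ₀ x‖ ^ 2 ≤ ω ^ 2 * W x
  flux : ∀ {h c G}, 𝒟.D h c G → ∫ x, ⟪e x, θ x • G x + h x • dθ x⟫_ℝ ∂ν = c * q

/-- A critical point `b` of the phase-field functional (multiplier `Λ²`, volume weight `σ²`). -/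
structure Crit {ν : Measure X} (𝒟 : DClass ν V) (W : X → ℝ) {ε C0 : ℝ} (pr : Prof ε C0) where
  Λ : ℝ
  σ : X → ℝ
  dσ : X → V
  b : X → ℝ
  gb : X → V
  Λ_pos : 0 < Λ
  σ_D : 𝒟.D σ 0 dσ
  σ_mem : ∀ x, σ x ∈ Icc (0 : ℝ) 1
  σ_int : Integrable σ ν
  dσ_int : Integrable dσ ν
  b_D : 𝒟.D b 1 gb
  b_mem : ∀ x, b x ∈ Icc (0 : ℝ) 1
  fin : ν {x | b x < ε} ≠ ⊤
  EL : ∀ {h G}, 𝒟.D h 0 G →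
    ∫ x, (⟪gb x, G x⟫_ℝ
      + (W x * b x + Λ ^ 2 * σ x ^ 2 * (pr.p (b x) * pr.p' (b x))) * h x) ∂ν = 0

namespace Crit
variable {ν : Measure X} {𝒟 : DClass ν V} {W : X → ℝ} {ε C0 : ℝ} {pr : Prof ε C0}
  (c : Crit 𝒟 W pr)

/-- `N = Δ b`. -/
def N (x : X) : ℝ := W x * c.b x + c.Λ ^ 2 * c.σ x ^ 2 * (pr.p (c.b x) * pr.p' (c.b x))
/-- The flux `Φ = ∫ N`. -/
def Φ : ℝ := ∫ x, c.N x ∂ν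
/-- The energy `I = Q(b)`. -/
def I : ℝ := Qf ν W c.b c.gb
/-- The Callias mass of the phase field. -/
def f (x : X) : ℝ := c.Λ * c.σ x * pr.p' (c.b x)
/-- Its gradient. -/
def df (x : X) : V :=
  (c.Λ * c.σ x * pr.p'' (c.b x)) • c.gb x + (c.Λ * pr.p' (c.b x)) • c.dσ x
/-- The linear functional `x(z)` of the second variation. -/
def xf (z : X → ℝ) : ℝ :=
  ∫ x, 2 * c.Λ ^ 2 * c.σ x ^ 2 * (pr.p (c.b x) * pr.p' (c.b x)) * z x ∂ν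
/-- The second variation inequality with constant `k`. -/
def Stab (k : ℝ) : Prop := ∀ {z : X → ℝ} {G : X → V}, 𝒟.D z 0 G →
  -k * c.xf z ^ 2 ≤ ∫ x, (‖G x‖ ^ 2 + W x * z x ^ 2 + c.Λ ^ 2 * c.σ x ^ 2 *
    (pr.p' (c.b x) ^ 2 + pr.p (c.b x) * pr.p'' (c.b x)) * z x ^ 2) ∂ν
/-- Sobolev inequality on the set `{b < ε}`. -/
def Sob (CZ : ℝ) : Prop := ∀ {z : X → ℝ} {G : X → V}, 𝒟.D z 0 G →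
  ∫ x in {x | c.b x < ε}, z x ^ 2 ∂ν ≤ CZ * ∫ x, ‖G x‖ ^ 2 ∂ν
end Crit
end defs

/-- The critical value of `k`. -/
def kstar (a μ q I : ℝ) : ℝ := (1 + 2 * a) * I / (I ^ 2 - q ^ 2) - (1 + a) / (I - μ)

/-- The coefficient functions of the two vector fields `β_i = θ (α_i e + γ_i d(B b))`. -/
structure Fields (μ q I Bc Γ : ℝ) where
  α₁ : ℝ → ℝ
  α₁' : ℝ → ℝ
  γ₁ : ℝ → ℝ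
  γ₁' : ℝ → ℝ
  α₂ : ℝ → ℝ
  α₂' : ℝ → ℝ
  γ₂ : ℝ → ℝ
  γ₂' : ℝ → ℝ
  hα₁ : ∀ s ∈ Icc (0 : ℝ) 1, HasDerivAt α₁ (α₁' s) s
  hγ₁ : ∀ s ∈ Icc (0 : ℝ) 1, HasDerivAt γ₁ (γ₁' s) s
  hα₂ : ∀ s ∈ Icc (0 : ℝ) 1, HasDerivAt α₂ (α₂' s) s
  hγ₂ : ∀ s ∈ Icc (0 : ℝ) 1, HasDerivAt γ₂ (γ₂' s) s
  cα₁ : ContinuousOn α₁' (Icc 0 1)
  cγ₁ : ContinuousOn γ₁' (Icc 0 1)
  cα₂ : ContinuousOn α₂' (Icc 0 1)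
  cγ₂ : ContinuousOn γ₂' (Icc 0 1)
  /-- positivity, written for the Gram data `E = |e|² ≤ w`, `S = ⟪e,v⟫`, `U = |v|²` -/
  psd₁ : ∀ s ∈ Icc (0 : ℝ) 1, ∀ w E S U : ℝ, 0 ≤ E → E ≤ w → 0 ≤ U → S ^ 2 ≤ E * U →
    0 ≤ w - (α₁ s ^ 2 * E + 2 * α₁ s * γ₁ s * S + γ₁ s ^ 2 * U) - α₁' s * S - γ₁' s * U
      - γ₁ s * w * s
  psd₂ : ∀ s ∈ Icc (0 : ℝ) 1, ∀ w E S U : ℝ, 0 ≤ E → E ≤ w → 0 ≤ U → S ^ 2 ≤ E * U →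
    0 ≤ w - (α₂ s ^ 2 * E + 2 * α₂ s * γ₂ s * S + γ₂ s ^ 2 * U) - α₂' s * S - γ₂' s * U
      - γ₂ s * w * s
  α_zero : α₁ 0 + α₂ 0 = 0
  γ_zero : γ₁ 0 + γ₂ 0 = -Bc
  flux : α₁ 1 * q + γ₁ 1 * I = μ
  γ₁_one : 0 ≤ γ₁ 1
  α₁_le : ∀ s ∈ Icc (0 : ℝ) 1, |α₁ s| ≤ 1
  α₂_le : ∀ s ∈ Icc (0 : ℝ) 1, |α₂ s| ≤ 1
  γ₁_le : ∀ s ∈ Icc (0 : ℝ) 1, |γ₁ s| ≤ Γ
  γ₂_le : ∀ s ∈ Icc (0 : ℝ) 1, |γ₂ s| ≤ Γ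
  γ₁_lip : ∀ s ∈ Icc (0 : ℝ) 1, |γ₁ s - γ₁ 0| ≤ Γ * s
  γ₂_lip : ∀ s ∈ Icc (0 : ℝ) 1, |γ₂ s - γ₂ 0| ≤ Γ * s

/-- Existence of the fields (leaf; explicit formulas in the note 2/2, with `T = q / I`,
`ϱ = I (I - μ) / (μ I - q²)`); `Γ` is uniform in `I ≥ Is`. -/
def FieldsStmt : Prop := ∀ μ q Is s₀ : ℝ, 0 ≤ q → q < μ → μ < Is → 1 < s₀ →
  s₀ * (μ * Is - q ^ 2) ≤ Is * (Is - μ) → ∃ Γ : ℝ, 0 ≤ Γ ∧ ∀ I : ℝ, Is ≤ I →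
    Nonempty (Fields μ q I
      ((1 / s₀ - (μ * I - q ^ 2) / (I * (I - μ))) / Real.sqrt (1 - (q / I) ^ 2)) Γ)

/-- MAIN ESTIMATE (case `I > I**` of the notes). -/
def CoreStmt : Prop :=
  ∀ a μ q Is η₁ τ₀ bb C0 : ℝ, 0 < a → a ≤ 1 → 0 ≤ q → q < μ → μ + Real.sqrt (μ ^ 2 - q ^ 2) < Is →
    0 < η₁ → 0 < τ₀ → 0 ≤ bb → 1 ≤ C0 →
  ∃ ω₀ : ℝ, 0 < ω₀ ∧ ∃ c₀ : ℝ, 0 < c₀ ∧ ∀ Ib CZ Λb : ℝ, 0 ≤ CZ →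
  ∃ ε₀ : ℝ, 0 < ε₀ ∧ ∀ ε : ℝ, 0 < ε → ε ≤ ε₀ → ∃ ℓ₀ : ℝ, 0 < ℓ₀ ∧
  ∀ (X : Type) [MeasurableSpace X] (V : Type) [NormedAddCommGroup V] [InnerProductSpace ℝ V]
    (ν : Measure X) (𝒟 : DClass ν V) (ω : ℝ) (nk : Neck 𝒟 a q τ₀ ω) (pr : Prof ε C0)
    (c : Crit 𝒟 nk.W pr) (γ : ℝ), 0 ≤ ω → ω ≤ ω₀ → Is ≤ c.I → c.I ≤ Ib → c.Λ ≤ Λb →
    (∀ x, ‖c.dσ x‖ ≤ ℓ₀) → c.Sob CZ → (ν {x | c.b x < ε}).toReal ≤ CZ →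
    ∫ x, nk.W x * c.b x ^ 2 ∂ν ≤ bb →
    0 < γ → η₁ ^ 2 ≤ γ ^ 2 * c.I ^ 3 → γ * c.I ≤ 1 → c.Stab (kstar a μ q c.I - γ) →
    ∃ β₁ β₂ : X → V, MemLp β₁ 2 ν ∧ MemLp β₂ 2 ν ∧
      (∀ x, (c.f x + nk.P x) • (β₁ x + β₂ x) = 0) ∧
      (∀ (t : ℝ) Y₁ Y₂ G₁ G₂, t = 0 ∨ t = 1 → IsPair 𝒟 nk.ρ t Y₁ Y₂ G₁ G₂ →
        t * ((1 + a) * μ + c₀) ≤ Kf ν a 1 nk.ρ (fun x => c.f x + nk.P x)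
          (fun x => c.df x + nk.dP x) β₁ β₂ Y₁ Y₂ G₁ G₂) ∧
      ∃ C : ℝ, ∀ Y₁ Y₂ G₁ G₂, IsPair 𝒟 nk.ρ 0 Y₁ Y₂ G₁ G₂ →
        ∫ x, (‖G₁ x‖ ^ 2 + ‖G₂ x‖ ^ 2 + ‖β₁ x‖ ^ 2 * Y₁ x ^ 2 + ‖β₂ x‖ ^ 2 * Y₂ x ^ 2) ∂ν
          ≤ C * Kf ν a 0 nk.ρ (fun x => c.f x + nk.P x)
            (fun x => c.df x + nk.dP x) β₁ β₂ Y₁ Y₂ G₁ G₂

/-- The estimate without phase field (`F = P`, `β₁ = θ e = -β₂`): step 1 of the notes. -/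
def ZeroStmt : Prop :=
  ∀ (X : Type) [MeasurableSpace X] (V : Type) [NormedAddCommGroup V] [InnerProductSpace ℝ V]
    (ν : Measure X) (𝒟 : DClass ν V) (a q τ₀ ω : ℝ) (nk : Neck 𝒟 a q τ₀ ω),
    0 < a → 0 ≤ q → 0 ≤ ω → (1 + a) * ω ≤ τ₀ →
    (∀ (t : ℝ) Y₁ Y₂ G₁ G₂, t = 0 ∨ t = 1 → IsPair 𝒟 nk.ρ t Y₁ Y₂ G₁ G₂ →
      max (t * ((1 + a) * q)) (Qf ν nk.W Y₁ G₁) ≤ Kf ν a 1 nk.ρ nk.P nk.dP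
        (fun x => nk.θ x • nk.e x) (fun x => -(nk.θ x • nk.e x)) Y₁ Y₂ G₁ G₂) ∧
    ∀ Y₁ Y₂ G₁ G₂, IsPair 𝒟 nk.ρ 0 Y₁ Y₂ G₁ G₂ →
      ∫ x, (‖G₁ x‖ ^ 2 + ‖G₂ x‖ ^ 2 + ‖nk.θ x • nk.e x‖ ^ 2 * Y₁ x ^ 2
          + ‖-(nk.θ x • nk.e x)‖ ^ 2 * Y₂ x ^ 2) ∂ν
        ≤ Kf ν a 0 nk.ρ nk.P nk.dP (fun x => nk.θ x • nk.e x) (fun x => -(nk.θ x • nk.e x))
          Y₁ Y₂ G₁ G₂

/-- Comparison of a critical point with any function of value `1` at infinity. -/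
def CompStmt : Prop :=
  ∀ (X : Type) [MeasurableSpace X] (V : Type) [NormedAddCommGroup V] [InnerProductSpace ℝ V]
    (ν : Measure X) (𝒟 : DClass ν V) (W : X → ℝ) (ε C0 : ℝ) (pr : Prof ε C0) (c : Crit 𝒟 W pr),
    0 < ε → Measurable W → (∀ x, 0 ≤ W x) → Integrable W ν → ∀ Y G, 𝒟.D Y 1 G →
    ∫ x, W x * c.b x ^ 2 ∂ν ≤ 4 * Qf ν W Y G

/-- The area estimate (case `I ≤ I**`), with `T = q / Is`. -/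
def AreaStmt : Prop :=
  ∀ (X : Type) [MeasurableSpace X] (V : Type) [NormedAddCommGroup V] [InnerProductSpace ℝ V]
    (ν : Measure X) (𝒟 : DClass ν V) (a q τ₀ ω : ℝ) (nk : Neck 𝒟 a q τ₀ ω) (ε C0 : ℝ)
    (pr : Prof ε C0) (c : Crit 𝒟 nk.W pr) (T : ℝ), 0 < ε → ε ≤ 1 / 8 → 0 ≤ q → 0 ≤ ω →
    0 ≤ T → T < 1 →
    Real.sqrt (1 - T ^ 2) * c.Λ *
        ∫ x, c.σ x * ‖(2 * pr.p (c.b x) * pr.p' (c.b x)) • c.gb x‖ ∂ν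
      ≤ c.I / (1 - ε) - T * q * (1 - ε ^ 2) + ω * ∫ x, nk.W x * c.b x ^ 2 ∂ν

/-- First and second variation of `G(Q b) - κ ∫ σ² (1 - p(b)²)` at a minimiser. -/
def VarStmt : Prop :=
  ∀ (X : Type) [MeasurableSpace X] (V : Type) [NormedAddCommGroup V] [InnerProductSpace ℝ V]
    (ν : Measure X) (𝒟 : DClass ν V) (W : X → ℝ) (ε C0 : ℝ) (pr : Prof ε C0)
    (σ : X → ℝ) (dσ : X → V) (b : X → ℝ) (gb : X → V) (Gf : ℝ → ℝ) (κ g₁ : ℝ),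
    0 < ε → ε ≤ 1 / 8 → Measurable W → (∀ x, 0 ≤ W x) → (∃ M : ℝ, ∀ x, W x ≤ M) →
    Integrable W ν → 𝒟.D σ 0 dσ → (∀ x, σ x ∈ Icc (0 : ℝ) 1) → Integrable σ ν → Integrable dσ ν →
    𝒟.D b 1 gb → (∀ x, b x ∈ Icc (0 : ℝ) 1) → ν {x | b x < ε} ≠ ⊤ →
    Monotone Gf → 0 < κ → 0 < g₁ → HasDerivAt Gf g₁ (Qf ν W b gb) →
    (∀ u G, 𝒟.D u 1 G → (∀ x, u x ∈ Icc (0 : ℝ) 1) →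
      Gf (Qf ν W b gb) - κ * ∫ x, σ x ^ 2 * (1 - pr.p (b x) ^ 2) ∂ν
        ≤ Gf (Qf ν W u G) - κ * ∫ x, σ x ^ 2 * (1 - pr.p (u x) ^ 2) ∂ν) →
    ∃ c : Crit 𝒟 W pr, c.Λ = Real.sqrt (κ / g₁) ∧ c.σ = σ ∧ c.dσ = dσ ∧ c.b = b ∧ c.gb = gb ∧
      ∀ (G' : ℝ → ℝ) (g₂ : ℝ), (∀ᶠ s in nhds (Qf ν W b gb), HasDerivAt Gf (G' s) s) →
        HasDerivAt G' g₂ (Qf ν W b gb) → c.Stab (g₂ / (2 * g₁))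

section top
variable {X : Type} [MeasurableSpace X] {V : Type} [NormedAddCommGroup V] [InnerProductSpace ℝ V]

/-- The output of the spinor layer (`ρ = R/4`, `μ = (n-2) ω m / 2`, `a = 1/(n-2)`). -/
def SPProp {ν : Measure X} (𝒟 : DClass ν V) (a μ : ℝ) (ρ : X → ℝ) : Prop :=
  ∀ (F : X → ℝ) (dF β₁ β₂ : X → V), 𝒟.D F 0 dF → (∀ x, 0 ≤ F x) → Integrable F ν →
    Integrable dF ν → MemLp β₁ 2 ν → MemLp β₂ 2 ν → (∀ x, F x • (β₁ x + β₂ x) = 0) →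
    (∃ C : ℝ, ∀ Y₁ Y₂ G₁ G₂, IsPair 𝒟 ρ 0 Y₁ Y₂ G₁ G₂ →
      ∫ x, (‖G₁ x‖ ^ 2 + ‖G₂ x‖ ^ 2 + ‖β₁ x‖ ^ 2 * Y₁ x ^ 2 + ‖β₂ x‖ ^ 2 * Y₂ x ^ 2) ∂ν
        ≤ C * Kf ν a 0 ρ F dF β₁ β₂ Y₁ Y₂ G₁ G₂) →
    (∀ Y₁ Y₂ G₁ G₂, IsPair 𝒟 ρ 0 Y₁ Y₂ G₁ G₂ → 0 ≤ Kf ν a 1 ρ F dF β₁ β₂ Y₁ Y₂ G₁ G₂) →
    ∀ η : ℝ, 0 < η → ∃ Y₁ Y₂ G₁ G₂, IsPair 𝒟 ρ 1 Y₁ Y₂ G₁ G₂ ∧
      Kf ν a 1 ρ F dF β₁ β₂ Y₁ Y₂ G₁ G₂ ≤ (1 + a) * μ + η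

/-- Everything the abstract argument uses about the concrete manifold `(ℝⁿ, g)` with its neck.
`cn` is the Euclidean isocapacitary constant (`vol = cn * cap ^ (1 + 2a)`), `A` the enclosing
area, `Z ⊆ Z'` the deep set and a bounded set containing the whole neck. -/
structure Geo {ν : Measure X} (𝒟 : DClass ν V) (a μ q τ₀ ω cn A : ℝ) where
  ρ : X → ℝ
  Z : Set X
  Z' : Set X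
  Z_sub : Z ⊆ Z'
  sp : SPProp 𝒟 a μ ρ
  u₀ : X → ℝ
  G₀ : X → V
  Q₀ : ℝ
  u₀_D : 𝒟.D u₀ 1 G₀
  u₀_mem : ∀ x, u₀ x ∈ Icc (0 : ℝ) 1
  neck : ∀ s : ℝ, 0 < s → ∃ nk : Neck 𝒟 a q τ₀ ω, nk.ρ = ρ ∧ Qf ν nk.W u₀ G₀ ≤ Q₀ ∧
    ∃ (θ₂ : X → ℝ) (dθ₂ : X → V), 𝒟.D θ₂ 1 dθ₂ ∧ (∀ x, θ₂ x ∈ Icc (0 : ℝ) 1) ∧
      (∀ x, ‖dθ₂ x‖ ≤ s * nk.W x) ∧ (∀ x ∈ Z, θ₂ x = 0) ∧ ∀ x, x ∉ Z' → θ₂ x = 1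
  iso : ∀ η : ℝ, 0 < η → ∃ C : ℝ, ∀ h G, 𝒟.D h 0 G → (∀ x, h x ∈ Icc (0 : ℝ) 1) →
    ∀ t ∈ Ioc (0 : ℝ) 1, ν {x | t < h x} ≤
      ENNReal.ofReal (C + (1 + η) * cn * ((∫ x, ‖G x‖ ^ 2 ∂ν) / t ^ 2) ^ (1 + 2 * a))
  sob : ∀ v : ℝ, ∃ CZ : ℝ, 0 ≤ CZ ∧ ∀ z G (Ω : Set X), 𝒟.D z 0 G → MeasurableSet Ω →
    ν Ω ≤ ENNReal.ofReal v → ∫ x in Ω, z x ^ 2 ∂ν ≤ CZ * ∫ x, ‖G x‖ ^ 2 ∂ν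
  cpt : ∀ (u : ℕ → X → ℝ) (G : ℕ → X → V) (M : ℝ), (∀ j, 𝒟.D (u j) 1 (G j)) →
    (∀ j x, u j x ∈ Icc (0 : ℝ) 1) → (∀ j, ∫ x, ‖G j x‖ ^ 2 ∂ν ≤ M) →
    ∃ (φ : ℕ → ℕ) (v : X → ℝ) (H : X → V), StrictMono φ ∧ 𝒟.D v 1 H ∧
      (∀ x, v x ∈ Icc (0 : ℝ) 1) ∧
      (∀ᵐ x ∂ν, Filter.Tendsto (fun j => u (φ j) x) Filter.atTop (nhds (v x))) ∧
      ∀ δ : ℝ, 0 < δ → ∀ᶠ j in Filter.atTop,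
        ∫ x, ‖H x‖ ^ 2 ∂ν ≤ ∫ x, ‖G (φ j) x‖ ^ 2 ∂ν + δ
  cut : ∀ ℓ : ℝ, 0 < ℓ → ∃ (σ : X → ℝ) (dσ : X → V) (χ : X → ℝ) (dχ : X → V),
    𝒟.D σ 0 dσ ∧ (∀ x, σ x ∈ Icc (0 : ℝ) 1) ∧ Integrable σ ν ∧ Integrable dσ ν ∧
    (∀ x, ‖dσ x‖ ≤ ℓ) ∧ 𝒟.D χ 0 dχ ∧ (∀ x, χ x ∈ Icc (0 : ℝ) 1) ∧ (∀ x, ‖dχ x‖ ≤ ℓ) ∧
    (∀ x, χ x ≠ 0 → σ x = 1) ∧ (∀ x ∈ Z', χ x = 1 ∧ dχ x = 0) ∧
    ∀ φ G, 𝒟.D φ 1 G → (∀ x, φ x ∈ Icc (0 : ℝ) 1) → (∀ x ∈ Z, φ x = 0) →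
      (∀ x, χ x = 0 → φ x = 1) → Integrable G ν → A ≤ ∫ x, ‖G x‖ ∂ν
end top

/-- The abstract form of the shielded, charged Riemannian Penrose inequality. -/
def TopStmt : Prop :=
  ∀ a μ q τ₀ η cn : ℝ, 0 < a → a ≤ 1 → 0 < μ → 0 ≤ q → 0 < τ₀ → 0 < η → 0 < cn →
  ∃ ω₀ : ℝ, 0 < ω₀ ∧
  ∀ (X : Type) [MeasurableSpace X] (V : Type) [NormedAddCommGroup V] [InnerProductSpace ℝ V]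
    (ν : Measure X) (𝒟 : DClass ν V) (ω A : ℝ), 0 ≤ ω → ω ≤ ω₀ → 0 ≤ A →
    Geo 𝒟 a μ q τ₀ ω cn A →
    q ≤ μ ∧ A ^ 2 ≤ (1 + η) * (cn * (1 + 2 * a)) *
      (2 * (μ + η + Real.sqrt ((μ + η) ^ 2 - q ^ 2))) ^ (2 + 2 * a)

end Crest.Agent.N346.P2
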