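import Crest.Agent.N346.P2.Core
import Crest.Agent.N346.P2.Fields
import Crest.Agent.N346.P2.Prof
import Crest.Agent.N346.P2.Zero
import Crest.Agent.N346.P2.Var
import Crest.Agent.N346.P2.Top
import Crest.Agent.N346.P2.Asm
import Crest.Agent.N346.P2.Iso
import Crest.Agent.N346.P2.Cpt
import Crest.Agent.N346.P2.Cut
import Crest.Agent.N346.P2.Shield
import Crest.Agent.N346.P2.NeckC

/-! Row 346, P2: everything except the spinor statement. -/

namespace Crest.Agent.N346.P2

theorem topAll : TopStmt := top prof (core fields) zero comp area var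

theorem p2u (h : SPStmt) : P2UStmt := p2u_of h iso' sob cpt' cut (neck shield) topAll

theorem p2c (h : SPStmt) : P2CStmt := p2c_of h iso' sob cpt' cut (neck shield) topAll

end Crest.Agent.N346.P2
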