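import Crest.Agent.N346.Defs
import Crest.Agent.N346.P2.Abs

/-!
Row 346, part P2: the CONCRETE side.  The Dirichlet class on `(ℝⁿ, g)` (gradients are written in a
smooth orthonormal frame `F`) and the leaf statements that together give `P2.Geo`.
-/

set_option autoImplicit false
open MeasureTheory Filter Topology Set Matrix
open scoped ContDiff ENNReal InnerProductSpace
open Crest.GeometryTopology.CoordMetric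
open Crest.MathPhysics.ExteriorData

noncomputable section
namespace Crest.Agent.N346.P2

variable {n : ℕ}

/-- The Riemannian volume measure. -/
def nu (g : MetricField n) : Measure (E n) :=
  volume.withDensity fun x => ENNReal.ofReal (volDensity g x)

/-- Frame components `e_a(u) = Σᵢ F i a ∂ᵢ u` of the differential of `u`. -/
def fgrad (F : MetricField n) (u : E n → ℝ) (x : E n) : E n :=
  WithLp.toLp 2 fun a => ∑ i, F x i a * pderiv i u x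

/-- Frame components of the vector field `EE / √det g` given by the vector density `EE`. -/
def fvec (g F : MetricField n) (EE : VectorField n) (x : E n) : E n :=
  WithLp.toLp 2 fun a => (∑ i, ∑ j, F x i a * g x i j * EE x j) / volDensity g x

/-- A smooth metric on `ℝⁿ`, uniformly equivalent to the flat one, with a smooth orthonormal frame
(the columns of `F`). -/
structure Fr (g F : MetricField n) : Prop where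
  riem : IsRiemannianOn g Set.univ
  bd : ∃ Λ : ℝ, 1 ≤ Λ ∧ (∀ x v, Λ⁻¹ * ‖v‖ ^ 2 ≤ quadForm g x v) ∧
    ∀ x v, quadForm g x v ≤ Λ * ‖v‖ ^ 2
  smooth : ∀ i a, ContDiff ℝ ∞ fun x => F x i a
  orth : ∀ x, (F x)ᵀ * g x * F x = 1

/-- The Dirichlet class: `u - c` is a bounded a.e. limit of uniformly bounded `C¹_c` functions whose
gradients converge to `G` in `L²`. -/
structure DD (g F : MetricField n) (u : E n → ℝ) (c : ℝ) (G : E n → E n) : Prop where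
  meas : Measurable u
  bdd : ∃ M : ℝ, ∀ x, |u x| ≤ M
  memG : MemLp G 2 (nu g)
  approx : ∃ (v : ℕ → E n → ℝ) (M : ℝ), (∀ j, ContDiff ℝ 1 (v j)) ∧
    (∀ j, HasCompactSupport (v j)) ∧ (∀ j x, |v j x| ≤ M) ∧
    (∀ᵐ x ∂(nu g), Tendsto (fun j => v j x) atTop (𝓝 (u x - c))) ∧
    Tendsto (fun j => eLpNorm (fun x => fgrad F (v j) x - G x) 2 (nu g)) atTop (𝓝 0)

/-- The conformally flat end. -/
structure EndD (n : ℕ) (g : MetricField n) (U : E n → ℝ) (μ : ℝ) : Prop where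
  riem : IsRiemannianOn g Set.univ
  bd : ∃ Λ : ℝ, 1 ≤ Λ ∧ (∀ x v, Λ⁻¹ * ‖v‖ ^ 2 ≤ quadForm g x v) ∧
    ∀ x v, quadForm g x v ≤ Λ * ‖v‖ ^ 2
  U_smooth : ContDiff ℝ ∞ U
  U_pos : ∀ x, 0 < U x
  g_inf : ∃ R : ℝ, ∀ x, R ≤ ‖x‖ →
    g x = U x ^ (4 / ((n : ℝ) - 2)) • (1 : Matrix (Fin n) (Fin n) ℝ)
  U_lim : Tendsto U (cocompact (E n)) (𝓝 1)
  U_grad : Integrable fun x => ∑ i, pderiv i U x ^ 2
  U_hardy : Integrable fun x => (U x - 1) ^ 2 / (1 + ‖x‖ ^ 2)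
  mass : FluxLE U μ
  R_far : ∃ R : ℝ, ∀ x, R ≤ ‖x‖ → 0 ≤ scalarCurv g x

/-- `a = 1/(n-2)`. -/
def aa (n : ℕ) : ℝ := 1 / ((n : ℝ) - 2)

/-- The Euclidean isocapacitary constant: `vol = cn * cap ^ (n/(n-2))` for round balls. -/
def cn (n : ℕ) : ℝ :=
  unitSphereArea n / n * (((n : ℝ) - 2) * unitSphereArea n) ^ (-(1 + 2 * aa n))

/-- The normalised charge. -/
def qq (n : ℕ) (η τ₀ Q : ℝ) : ℝ :=
  Real.sqrt ((1 - η) / (2 * (1 + aa n + τ₀))) * (unitSphereArea n * Q)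

/-- Leaf: `DD` is a Dirichlet class. -/
def ClassStmt : Prop := ∀ (n : ℕ) (g F : MetricField n), Fr g F →
  ∃ 𝒟 : DClass (nu g) (E n), 𝒟.D = DD g F

/-- Leaf (spinor layer). -/
def SPStmt : Prop := ∀ (n : ℕ), 3 ≤ n → ∀ (g : MetricField n) (U : E n → ℝ) (μ : ℝ),
  EndD n g U μ → ∃ F : MetricField n, Fr g F ∧ ∀ 𝒟 : DClass (nu g) (E n), 𝒟.D = DD g F →
    SPProp 𝒟 (aa n) μ fun x => scalarCurv g x / 4

/-- Leaf: the sharp Euclidean isocapacitary inequality for `C¹_c` functions. -/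
def IsoFlatStmt : Prop := ∀ (n : ℕ), 3 ≤ n → ∀ u : E n → ℝ, ContDiff ℝ 1 u → HasCompactSupport u →
  volume {x | 1 < u x} ≤
    ENNReal.ofReal (cn n * (∫ x, ∑ i, pderiv i u x ^ 2) ^ (1 + 2 * aa n))

/-- Leaf: `Geo.iso`. -/
def IsoStmt : Prop := ∀ (n : ℕ), 3 ≤ n → ∀ (g F : MetricField n) (U : E n → ℝ) (μ : ℝ),
  EndD n g U μ → Fr g F → ∀ η : ℝ, 0 < η → ∃ C : ℝ, ∀ h G, DD g F h 0 G →
    (∀ x, h x ∈ Icc (0 : ℝ) 1) → ∀ t ∈ Ioc (0 : ℝ) 1, nu g {x | t < h x} ≤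
      ENNReal.ofReal (C + (1 + η) * cn n * ((∫ x, ‖G x‖ ^ 2 ∂(nu g)) / t ^ 2) ^ (1 + 2 * aa n))

/-- Leaf: `Geo.sob`. -/
def SobStmt : Prop := ∀ (n : ℕ), 3 ≤ n → ∀ (g F : MetricField n), Fr g F →
  ∀ v : ℝ, ∃ CZ : ℝ, 0 ≤ CZ ∧ ∀ z G (Ω : Set (E n)), DD g F z 0 G → MeasurableSet Ω →
    nu g Ω ≤ ENNReal.ofReal v → ∫ x in Ω, z x ^ 2 ∂(nu g) ≤ CZ * ∫ x, ‖G x‖ ^ 2 ∂(nu g)

/-- Leaf: the class is closed under bounded a.e. convergence with `L²` convergence of gradients. -/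
def ClosureStmt : Prop := ∀ (n : ℕ) (g F : MetricField n), Fr g F →
  ∀ (u : ℕ → E n → ℝ) (G : ℕ → E n → E n) (c M : ℝ) (v : E n → ℝ) (H : E n → E n),
    (∀ j, DD g F (u j) c (G j)) → (∀ j x, |u j x| ≤ M) → Measurable v → (∀ x, |v x| ≤ M) →
    MemLp H 2 (nu g) → (∀ᵐ x ∂(nu g), Tendsto (fun j => u j x) atTop (𝓝 (v x))) →
    Tendsto (fun j => eLpNorm (fun x => G j x - H x) 2 (nu g)) atTop (𝓝 0) → DD g F v c H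

/-- Leaf: Rellich, in the form of an a.e. convergent subsequence. -/
def RelStmt : Prop := ∀ (n : ℕ), 3 ≤ n → ∀ (g F : MetricField n), Fr g F →
  ∀ (u : ℕ → E n → ℝ) (G : ℕ → E n → E n) (M : ℝ), (∀ j, DD g F (u j) 1 (G j)) →
    (∀ j x, u j x ∈ Icc (0 : ℝ) 1) → (∀ j, ∫ x, ‖G j x‖ ^ 2 ∂(nu g) ≤ M) →
    ∃ (φ : ℕ → ℕ) (v : E n → ℝ), StrictMono φ ∧ Measurable v ∧ (∀ x, v x ∈ Icc (0 : ℝ) 1) ∧
      ∀ᵐ x ∂(nu g), Tendsto (fun j => u (φ j) x) atTop (𝓝 (v x))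

/-- Leaf: `Geo.cpt` (from `ClassStmt`, `ClosureStmt`, `RelStmt`). -/
def CptStmt : Prop := ∀ (n : ℕ), 3 ≤ n → ∀ (g F : MetricField n), Fr g F →
  ∀ (u : ℕ → E n → ℝ) (G : ℕ → E n → E n) (M : ℝ), (∀ j, DD g F (u j) 1 (G j)) →
    (∀ j x, u j x ∈ Icc (0 : ℝ) 1) → (∀ j, ∫ x, ‖G j x‖ ^ 2 ∂(nu g) ≤ M) →
    ∃ (φ : ℕ → ℕ) (v : E n → ℝ) (H : E n → E n), StrictMono φ ∧ DD g F v 1 H ∧
      (∀ x, v x ∈ Icc (0 : ℝ) 1) ∧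
      (∀ᵐ x ∂(nu g), Tendsto (fun j => u (φ j) x) atTop (𝓝 (v x))) ∧
      ∀ δ : ℝ, 0 < δ → ∀ᶠ j in atTop,
        ∫ x, ‖H x‖ ^ 2 ∂(nu g) ≤ ∫ x, ‖G (φ j) x‖ ^ 2 ∂(nu g) + δ

/-- Leaf: `Geo.cut` with `Z = {ℓ - 1/2 ≤ d}` and `Z' = closedBall 0 Λ`. -/
def CutStmt : Prop := ∀ (n : ℕ), 3 ≤ n → ∀ (g F : MetricField n), Fr g F →
  ∀ (d : E n → ℝ) (Λ ℓ A : ℝ), ContDiff ℝ ∞ d → (∀ x, Λ ≤ ‖x‖ → d x = 0) → 1 ≤ ℓ →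
    BV g {x | ℓ ≤ d x} A → ∀ l : ℝ, 0 < l →
    ∃ (σ : E n → ℝ) (dσ : E n → E n) (χ : E n → ℝ) (dχ : E n → E n),
      DD g F σ 0 dσ ∧ (∀ x, σ x ∈ Icc (0 : ℝ) 1) ∧ Integrable σ (nu g) ∧ Integrable dσ (nu g) ∧
      (∀ x, ‖dσ x‖ ≤ l) ∧ DD g F χ 0 dχ ∧ (∀ x, χ x ∈ Icc (0 : ℝ) 1) ∧ (∀ x, ‖dχ x‖ ≤ l) ∧
      (∀ x, χ x ≠ 0 → σ x = 1) ∧
      (∀ x ∈ Metric.closedBall (0 : E n) Λ, χ x = 1 ∧ dχ x = 0) ∧
      ∀ φ G, DD g F φ 1 G → (∀ x, φ x ∈ Icc (0 : ℝ) 1) → (∀ x ∈ {x | ℓ - 1 / 2 ≤ d x}, φ x = 0) →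
        (∀ x, χ x = 0 → φ x = 1) → Integrable G (nu g) → A ≤ ∫ x, ‖G x‖ ∂(nu g)

/-- Leaf: the one-dimensional shield profile (seed, exponential growth, Riccati growth). -/
def ShieldStmt : Prop := ∃ C : ℝ, 1 ≤ C ∧ ∀ Λ : ℝ, 1 ≤ Λ → ∀ s₀ Pm : ℝ, 0 ≤ Pm →
  ∃ PP : ℝ → ℝ, ContDiff ℝ ∞ PP ∧ (∀ s, s ≤ s₀ → PP s = 0) ∧
    (∀ s, s₀ + C * (1 + Real.log Λ) ≤ s → PP s = Pm) ∧ (∀ s, 0 ≤ PP s) ∧ (∀ s, PP s ≤ Pm) ∧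
    ∀ s, ∀ t ∈ Icc (0 : ℝ) 1, |deriv PP s| * t ≤ t ^ 2 / 4 + Λ⁻¹ / 4 + PP s ^ 2

/-- Leaf: `Geo.neck`. -/
def NeckStmt : Prop := ∃ C : ℝ, 1 ≤ C ∧ ∀ (n : ℕ), 3 ≤ n →
  ∀ (η τ₀ Λ ℓ m A Q : ℝ) (g F : MetricField n) (d U : E n → ℝ) (EE : VectorField n),
    N346.Neck n η Λ ℓ m A Q g d U EE → Fr g F → η ≤ 1 → 0 < τ₀ → τ₀ ≤ 1 → 1 ≤ Λ →
    C * (1 + Real.log Λ) ≤ ℓ → ∀ 𝒟 : DClass (nu g) (E n), 𝒟.D = DD g F →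
    ∃ (u₀ : E n → ℝ) (G₀ : E n → E n) (Q₀ : ℝ), 𝒟.D u₀ 1 G₀ ∧ (∀ x, u₀ x ∈ Icc (0 : ℝ) 1) ∧
      ∀ s : ℝ, 0 < s → ∃ nk : P2.Neck 𝒟 (aa n) (qq n η τ₀ Q) τ₀ (C / ℓ),
        (nk.ρ = fun x => scalarCurv g x / 4) ∧ Qf (nu g) nk.W u₀ G₀ ≤ Q₀ ∧
        ∃ (θ₂ : E n → ℝ) (dθ₂ : E n → E n), 𝒟.D θ₂ 1 dθ₂ ∧ (∀ x, θ₂ x ∈ Icc (0 : ℝ) 1) ∧
          (∀ x, ‖dθ₂ x‖ ≤ s * nk.W x) ∧ (∀ x ∈ {x | ℓ - 1 / 2 ≤ d x}, θ₂ x = 0) ∧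
          ∀ x, x ∉ Metric.closedBall (0 : E n) Λ → θ₂ x = 1

end Crest.Agent.N346.P2

end
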