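import Crest.Agent.N346.P2.ConcB
import Crest.Agent.N346.P2.ConcL

/-! Row 346, P2 concrete side: `DD` is a Dirichlet class; closure; integration by parts. -/

set_option autoImplicit false
open MeasureTheory Filter Topology Set
open scoped ContDiff ENNReal InnerProductSpace
open Crest.GeometryTopology.CoordMetric
open Crest.MathPhysics.ExteriorData

noncomputable section
namespace Crest.Agent.N346.P2
open Crest.Agent.N346.Bs

variable {n : ℕ} {g F : MetricField n} {u v : E n → ℝ} {c c' : ℝ} {G G' : E n → E n}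

theorem contDiff_one_of_hasDerivAt {m m' : ℝ → ℝ} (hm : ∀ s, HasDerivAt m (m' s) s)
    (hc : Continuous m') : ContDiff ℝ 1 m :=
  contDiff_one_iff_deriv.2 ⟨fun s => (hm s).differentiableAt,
    by rwa [show deriv m = m' from funext fun s => (hm s).deriv]⟩

theorem abs_sub_le_of_hasDerivAt {m m' : ℝ → ℝ} (hm : ∀ s, HasDerivAt m (m' s) s) {L : ℝ}
    (hL : ∀ s, |m' s| ≤ L) (s t : ℝ) : |m s - m t| ≤ L * |s - t| :=
  convex_univ.norm_image_sub_le_of_norm_hasDerivWithin_le (f := m) (f' := m')
    (fun x _ => (hm x).hasDerivWithinAt) (fun x _ => hL x) (mem_univ t) (mem_univ s)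

/-- a `C¹` function on a compact interval extends to a globally Lipschitz `C¹` function -/
theorem exists_ext {m m' : ℝ → ℝ} {lo hi : ℝ} (hle : lo ≤ hi)
    (hm : ∀ s ∈ Icc lo hi, HasDerivAt m (m' s) s) (hc : ContinuousOn m' (Icc lo hi)) :
    ∃ (M M' : ℝ → ℝ) (L : ℝ), (∀ s, HasDerivAt M (M' s) s) ∧ Continuous M' ∧ (∀ s, |M' s| ≤ L) ∧
      ∀ s ∈ Icc lo hi, M s = m s ∧ M' s = m' s := by
  obtain ⟨L, hL⟩ := isCompact_Icc.exists_bound_of_continuousOn hc
  have hc' : Continuous fun s => m' (projIcc lo hi hle s) :=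
    hc.comp_continuous (continuous_subtype_val.comp continuous_projIcc) fun s => Subtype.prop _
  have he : ∀ s ∈ Icc lo hi, m' (projIcc lo hi hle s) = m' s := fun s hs => by
    rw [projIcc_of_mem hle hs]
  refine ⟨fun s => m lo + ∫ t in lo..s, m' (projIcc lo hi hle t), _, L,
    fun s => (intervalIntegral.integral_hasDerivAt_right (hc'.intervalIntegrable _ _)
      (hc'.stronglyMeasurableAtFilter _ _) hc'.continuousAt).const_add _, hc',
    fun s => hL _ (Subtype.prop _), fun s hs => ⟨?_, he s hs⟩⟩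
  have hsub : uIcc lo s ⊆ Icc lo hi := by
    rw [uIcc_of_le hs.1]; exact Icc_subset_Icc_right hs.2
  beta_reduce
  rw [intervalIntegral.integral_eq_sub_of_hasDerivAt (f := m)
    (fun t ht => by rw [he t (hsub ht)]; exact hm t (hsub ht)) (hc'.intervalIntegrable _ _)]
  ring

namespace DD

theorem of_contDiff (h : Fr g F) (hu : ContDiff ℝ 1 u) (hc : HasCompactSupport fun x => u x - c) :
    DD g F u c (fgrad F u) := by
  have h1 : ContDiff ℝ 1 fun x => u x - c := hu.sub contDiff_const
  obtain ⟨M, hM⟩ := h1.continuous.bounded_above_of_compact_support hc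
  have e : fgrad F (fun x => u x - c) = fgrad F u := funext (fgrad_sub_const u c)
  refine ⟨hu.continuous.measurable, ⟨M + |c|, fun x => ?_⟩, e ▸ h.memLp_fgrad h1 hc 2,
    fun _ x => u x - c, M, fun _ => h1, fun _ => hc, fun _ => hM,
    .of_forall fun _ => tendsto_const_nhds, by simp [e]⟩
  have := abs_add_le (u x - c) c
  rw [sub_add_cancel] at this
  exact this.trans (add_le_add_left (hM x) _)

/-- a `C¹` function that is constant outside a ball -/
theorem of_far (h : Fr g F) (hu : ContDiff ℝ 1 u) {R : ℝ} (hc : ∀ x, R < ‖x‖ → u x = c) :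
    DD g F u c (fgrad F u) :=
  of_contDiff h hu (hasCompactSupport_of_far fun y hy => sub_eq_zero.2 (hc y hy))

theorem const (h : Fr g F) (c : ℝ) : DD g F (fun _ => c) c fun _ => 0 := by
  have := of_far h (contDiff_const (c := c)) (R := 0) fun _ _ => rfl
  rwa [show fgrad F (fun _ => c) = fun _ => 0 from funext (fgrad_const c)] at this

theorem congr_G (hu : DD g F u c G) (e : G' =ᵐ[nu g] G) : DD g F u c G' := by
  obtain ⟨v, M, h1, h2, h3, h4, h5⟩ := hu.approx
  refine ⟨hu.meas, hu.bdd, hu.memG.ae_eq e.symm, v, M, h1, h2, h3, h4, h5.congr fun j => ?_⟩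
  exact eLpNorm_congr_ae (e.mono fun x hx => by simp only [hx])

theorem add (h : Fr g F) (hu : DD g F u c G) (hv : DD g F v c' G') :
    DD g F (fun x => u x + v x) (c + c') fun x => G x + G' x := by
  obtain ⟨a, M, a1, a2, a3, a4, a5⟩ := hu.approx
  obtain ⟨b, N, b1, b2, b3, b4, b5⟩ := hv.approx
  obtain ⟨P, hP⟩ := hu.bdd
  obtain ⟨Q, hQ⟩ := hv.bdd
  refine ⟨hu.meas.add hv.meas, ⟨P + Q, fun x => (abs_add_le _ _).trans (add_le_add (hP x) (hQ x))⟩,
    hu.memG.add hv.memG, fun j x => a j x + b j x, M + N, fun j => (a1 j).add (b1 j),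
    fun j => (a2 j).add (b2 j), fun j x => (abs_add_le _ _).trans (add_le_add (a3 j x) (b3 j x)),
    ?_, ?_⟩
  · filter_upwards [a4, b4] with x h1 h2
    convert h1.add h2 using 2; ring
  · refine (L2T.add a5 b5 (fun j => (h.continuous_fgrad (a1 j)).aestronglyMeasurable) hu.memG.1
      (fun j => (h.continuous_fgrad (b1 j)).aestronglyMeasurable) hv.memG.1).congr fun j x => ?_
    rw [fgrad_add ((a1 j).differentiable one_ne_zero x) ((b1 j).differentiable one_ne_zero x)]

/-- composition with a globally Lipschitz `C¹` function -/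
theorem comp_global (h : Fr g F) (hu : DD g F u c G) {m m' : ℝ → ℝ} {L : ℝ}
    (hm : ∀ s, HasDerivAt m (m' s) s) (hc : Continuous m') (hL : ∀ s, |m' s| ≤ L) :
    DD g F (fun x => m (u x)) (m c) fun x => m' (u x) • G x := by
  obtain ⟨a, M, a1, a2, a3, a4, a5⟩ := hu.approx
  obtain ⟨P, hP⟩ := hu.bdd
  have hm1 := contDiff_one_of_hasDerivAt hm hc
  have hL0 : 0 ≤ L := (abs_nonneg _).trans (hL 0)
  have hlip := abs_sub_le_of_hasDerivAt hm hL
  have a4' : ∀ᵐ x ∂(nu g), Tendsto (fun j => a j x + c) atTop (𝓝 (u x)) :=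
    a4.mono fun x hx => by simpa using hx.add_const c
  refine ⟨hm1.continuous.measurable.comp hu.meas, ⟨L * P + |m 0|, fun x => ?_⟩,
    hu.memG.of_le_mul (c := L) ((hc.measurable.comp hu.meas).aestronglyMeasurable.smul hu.memG.1)
      (.of_forall fun x => ?_), fun j x => m (a j x + c) - m c, L * M,
    fun j => (hm1.comp ((a1 j).add contDiff_const)).sub contDiff_const,
    fun j => (a2 j).comp_left (g := fun s => m (s + c) - m c) (by simp), fun j x => ?_,
    a4'.mono fun x hx => (hm1.continuous.continuousAt.tendsto.comp hx).sub_const _, ?_⟩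
  · have h1 := hlip (u x) 0
    have h2 := abs_add_le (m (u x) - m 0) (m 0)
    rw [sub_add_cancel] at h2
    rw [sub_zero] at h1
    nlinarith [hP x]
  · rw [norm_smul]; exact mul_le_mul_of_nonneg_right (hL _) (norm_nonneg _)
  · have h1 := hlip (a j x + c) c
    rw [add_sub_cancel_right] at h1
    exact h1.trans (mul_le_mul_of_nonneg_left (a3 j x) hL0)
  · refine (L2T.smul a5 (fun j => (h.continuous_fgrad (a1 j)).aestronglyMeasurable) hu.memG
      (a := fun j x => m' (a j x + c)) (M := L)
      (fun j => (hc.comp ((a1 j).continuous.add continuous_const)).aestronglyMeasurable)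
      (fun j x => hL _) (a4'.mono fun x hx => hc.continuousAt.tendsto.comp hx)).congr fun j x => ?_
    rw [fgrad_sub_const, fgrad_comp (u := fun y => a j y + c) (hm _)
      (((a1 j).differentiable one_ne_zero x).add_const c), fgrad_add_const]

theorem comp (h : Fr g F) (hu : DD g F u c G) {m m' : ℝ → ℝ} {lo hi : ℝ}
    (hx : ∀ x, u x ∈ Icc lo hi) (hc : c ∈ Icc lo hi)
    (hm : ∀ s ∈ Icc lo hi, HasDerivAt m (m' s) s) (hc' : ContinuousOn m' (Icc lo hi)) :
    DD g F (fun x => m (u x)) (m c) fun x => m' (u x) • G x := by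
  obtain ⟨M, M', L, h1, h2, h3, h4⟩ := exists_ext (hc.1.trans hc.2) hm hc'
  have := hu.comp_global h h1 h2 h3
  simpa only [(h4 _ (hx _)).1, (h4 _ (hx _)).2, (h4 _ hc).1] using this

/-- composition with a `C¹` function on `ℝ` -/
theorem comp' (h : Fr g F) (hu : DD g F u c G) {m m' : ℝ → ℝ}
    (hm : ∀ s, HasDerivAt m (m' s) s) (hc : Continuous m') :
    DD g F (fun x => m (u x)) (m c) fun x => m' (u x) • G x := by
  obtain ⟨P, hP⟩ := hu.bdd
  refine hu.comp h (lo := -(max P |c|)) (hi := max P |c|) (fun x => ?_) ?_ (fun s _ => hm s)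
    hc.continuousOn
  · exact abs_le.1 ((hP x).trans (le_max_left _ _))
  · exact abs_le.1 (le_max_right _ _)

theorem smul (h : Fr g F) (r : ℝ) (hu : DD g F u c G) :
    DD g F (fun x => r * u x) (r * c) fun x => r • G x :=
  hu.comp' h (m := fun s => r * s) (m' := fun _ => r)
    (fun s => by simpa using (hasDerivAt_id s).const_mul r) continuous_const

theorem add_const (h : Fr g F) (r : ℝ) (hu : DD g F u c G) :
    DD g F (fun x => u x + r) (c + r) G := by
  simpa using hu.add h (const h r)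

theorem sub (h : Fr g F) (hu : DD g F u c G) (hv : DD g F v c' G') :
    DD g F (fun x => u x - v x) (c - c') fun x => G x - G' x := by
  simpa [sub_eq_add_neg] using hu.add h (hv.smul h (-1))

theorem sq (h : Fr g F) (hu : DD g F u c G) :
    DD g F (fun x => u x ^ 2) (c ^ 2) fun x => (2 * u x) • G x :=
  hu.comp' h (m := fun s => s ^ 2) (m' := fun s => 2 * s)
    (fun s => by simpa using hasDerivAt_pow 2 s) (by fun_prop)

theorem mul (h : Fr g F) (hu : DD g F u c G) (hv : DD g F v c' G') :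
    DD g F (fun x => u x * v x) (c * c') fun x => u x • G' x + v x • G x := by
  have := (((hu.add h hv).sq h).sub h ((hu.sub h hv).sq h)).smul h (1 / 4)
  convert this using 1
  · funext x; ring
  · ring
  · funext x; module

/-- the approximating sequence can be bounded in terms of the bound of `u - c` -/
theorem approx_bdd (h : Fr g F) (hu : DD g F u c G) {K : ℝ} (hK0 : 0 ≤ K)
    (hK : ∀ x, |u x - c| ≤ K) :
    ∃ v : ℕ → E n → ℝ, (∀ j, ContDiff ℝ 1 (v j)) ∧ (∀ j, HasCompactSupport (v j)) ∧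
      (∀ j x, |v j x| ≤ K + 2) ∧ (∀ᵐ x ∂(nu g), Tendsto (fun j => v j x) atTop (𝓝 (u x - c))) ∧
      L2T (nu g) (fun j => fgrad F (v j)) G := by
  obtain ⟨a, M, a1, a2, a3, a4, a5⟩ := hu.approx
  let b : ContDiffBump (0 : ℝ) := ⟨K + 1, K + 2, by linarith, by linarith⟩
  let κ : ℝ → ℝ := fun s => b s * s
  have hκ : ContDiff ℝ 1 κ := b.contDiff.mul contDiff_id
  have hκc : HasCompactSupport κ := b.hasCompactSupport.mul_right
  have hd := hκ.continuous_deriv le_rfl
  obtain ⟨L, hL⟩ := hd.bounded_above_of_compact_support hκc.deriv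
  have hloc : ∀ s, |s| ≤ K → κ =ᶠ[𝓝 s] id := fun s hs => by
    have : Metric.ball (0 : ℝ) (K + 1) ∈ 𝓝 s :=
      Metric.isOpen_ball.mem_nhds (by simpa using hs.trans_lt (lt_add_one K))
    filter_upwards [this] with t ht
    simp only [κ, b.one_of_mem_closedBall (Metric.ball_subset_closedBall ht), one_mul, id]
  refine ⟨fun j x => κ (a j x), fun j => hκ.comp (a1 j), fun j => (a2 j).comp_left (g := κ) (by simp [κ]),
    fun j x => ?_, a4.mono fun x hx => ?_, ?_⟩
  · by_cases hs : |a j x| ≤ K + 2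
    · simp only [κ, abs_mul, abs_of_nonneg b.nonneg]
      exact (mul_le_of_le_one_left (abs_nonneg _) b.le_one).trans hs
    · have : b (a j x) = 0 := b.zero_of_le_dist (by simpa using (not_le.1 hs).le)
      simp only [κ, this, zero_mul, abs_zero]; linarith
  · have := hκ.continuous.continuousAt.tendsto.comp hx
    rwa [(hloc _ (hK x)).eq_of_nhds] at this
  · refine (L2T.smul a5 (fun j => (h.continuous_fgrad (a1 j)).aestronglyMeasurable) hu.memG
      (a := fun j x => deriv κ (a j x)) (a0 := fun _ => 1) (M := L)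
      (fun j => (hd.comp (a1 j).continuous).aestronglyMeasurable) (fun j x => hL _)
      (a4.mono fun x hx => ?_)).congr fun j x => ?_
    · have := hd.continuousAt.tendsto.comp hx
      rwa [(hloc _ (hK x)).deriv_eq, deriv_id] at this
    · rw [fgrad_comp (hκ.differentiable one_ne_zero _).hasDerivAt
        ((a1 j).differentiable one_ne_zero x), one_smul]

end DD

theorem closure : ClosureStmt := by
  intro n g F h u G c M v H hu hM mv hv mH hae hL
  have hK : ∀ k x, |u k x - c| ≤ |M| + |c| := fun k x =>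
    (abs_sub _ _).trans (add_le_add_left ((hM k x).trans (le_abs_self M)) _)
  choose a a1 a2 a3 a4 a5 using fun k => (hu k).approx_bdd h (by positivity) (hK k)
  obtain ⟨J, hJ, hJ'⟩ := exists_diag_ae (ν := nu g) (v := a) (w := fun k x => u k x - c)
    (w0 := fun x => v x - c) (fun k j => (a1 k j).continuous.aestronglyMeasurable) a4
    (hae.mono fun x hx => hx.sub_const c)
    (P := fun k j => eLpNorm (fun x => fgrad F (a k j) x - G k x) 2 (nu g) ≤ ((k : ℝ≥0∞) + 1)⁻¹)
    fun k => (a5 k).eventually (ge_mem_nhds (ENNReal.inv_pos.2 (by simp)))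
  refine ⟨mv, ⟨M, hv⟩, mH, fun k => a k (J k), _, fun k => a1 k _, fun k => a2 k _,
    fun k => a3 k _, hJ', ?_⟩
  have h0 : Tendsto (fun k : ℕ => ((k : ℝ≥0∞) + 1)⁻¹) atTop (𝓝 0) := by
    have := ENNReal.tendsto_inv_nat_nhds_zero.comp (tendsto_add_atTop_nat 1)
    simpa [Function.comp_def] using this
  have := h0.add hL
  rw [add_zero] at this
  refine tendsto_of_tendsto_of_tendsto_of_le_of_le tendsto_const_nhds this (fun _ => zero_le)
    fun k => ?_
  refine le_trans (le_trans (le_of_eq ?_) (eLpNorm_add_le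
    ((h.continuous_fgrad (a1 k (J k))).aestronglyMeasurable.sub (hu k).memG.1)
    ((hu k).memG.1.sub mH.1) one_le_two)) (add_le_add_left (hJ k) _)
  congr 1; funext x; simp

namespace DD

theorem abs (h : Fr g F) (hu : DD g F u c G) :
    DD g F (fun x => |u x|) |c| fun x => (u x / |u x|) • G x := by
  obtain ⟨P, hP⟩ := hu.bdd
  let δ : ℕ → ℝ := fun k => 1 / ((k : ℝ) + 1)
  have hδ : ∀ k, 0 < δ k := fun k => by positivity
  have hδ0 : Tendsto δ atTop (𝓝 0) := tendsto_one_div_add_atTop_nhds_zero_nat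
  have hpos : ∀ k (s : ℝ), 0 < s ^ 2 + δ k := fun k s => by have := hδ k; positivity
  have hd : ∀ k s, HasDerivAt (fun s => √(s ^ 2 + δ k)) (s / √(s ^ 2 + δ k)) s := fun k s => by
    convert ((hasDerivAt_pow 2 s).add_const (δ k)).sqrt (hpos k s).ne' using 1
    simp only [Nat.cast_ofNat, Nat.add_one_sub_one, pow_one]
    rw [mul_div_mul_left _ _ two_ne_zero]
  have hc : ∀ k, Continuous fun s => s / √(s ^ 2 + δ k) := fun k =>
    continuous_id.div (by fun_prop) fun s => (Real.sqrt_pos.2 (hpos k s)).ne'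
  have hL : ∀ k s, |s / √(s ^ 2 + δ k)| ≤ 1 := fun k s => by
    rw [abs_div, abs_of_nonneg (Real.sqrt_nonneg _), div_le_one (Real.sqrt_pos.2 (hpos k s))]
    exact Real.abs_le_sqrt (by linarith [hδ k])
  have hs : ∀ s : ℝ, Tendsto (fun k => √(s ^ 2 + δ k)) atTop (𝓝 |s|) := fun s => by
    have := (hδ0.const_add (s ^ 2)).sqrt
    rwa [add_zero, Real.sqrt_sq_eq_abs] at this
  have hs' : ∀ s : ℝ, Tendsto (fun k => s / √(s ^ 2 + δ k)) atTop (𝓝 (s / |s|)) := fun s => by
    rcases eq_or_ne s 0 with rfl | h0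
    · simp
    · exact tendsto_const_nhds.div (hs s) (abs_ne_zero.2 h0)
  have hD := fun k => (hu.comp_global h (hd k) (hc k) (hL k)).add_const h (|c| - √(c ^ 2 + δ k))
  simp only [add_sub_cancel] at hD
  have mu : Measurable fun x => u x / |u x| := hu.meas.div hu.meas.abs
  refine closure n g F h _ _ _ (P + 2 * |c|) _ _ hD (fun k x => ?_) hu.meas.abs (fun x => ?_)
    (hu.memG.of_le_mul (c := 1) (mu.aestronglyMeasurable.smul hu.memG.1)
      (.of_forall fun x => ?_)) (.of_forall fun x => ?_) ?_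
  · have h1 := abs_sub_le_of_hasDerivAt (hd k) (hL k) (u x) c
    have h2 := abs_sub (u x) c
    have h3 := abs_add_le (√(u x ^ 2 + δ k) - √(c ^ 2 + δ k)) |c|
    rw [abs_abs] at h3
    calc _ = |√(u x ^ 2 + δ k) - √(c ^ 2 + δ k) + (|c|)| := by congr 1; ring
      _ ≤ _ := by linarith [hP x]
  · rw [abs_abs]; linarith [hP x, abs_nonneg c]
  · rw [norm_smul]
    exact mul_le_mul_of_nonneg_right (le_of_tendsto (hs' (u x)).abs (.of_forall fun k => hL k _))
      (norm_nonneg _)
  · simpa using (hs (u x)).add ((hs c).const_sub |c|)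
  · exact (L2T.const G).smul (fun _ => hu.memG.1) hu.memG
      (fun k => ((hc k).measurable.comp hu.meas).aestronglyMeasurable) (fun k x => hL k _)
      (.of_forall fun x => hs' (u x))

theorem trunc (h : Fr g F) (hu : DD g F u 1 G) : ∃ G' : E n → E n,
    DD g F (fun x => max 0 (min (u x) 1)) 1 G' ∧ ∀ x, ‖G' x‖ ≤ ‖G x‖ := by
  have h1 := (((hu.abs h).sub h ((hu.add_const h (-1)).abs h)).add_const h 1).smul h (1 / 2)
  have e : ∀ x, 1 / 2 * (|u x| - |u x + -1| + 1) = max 0 (min (u x) 1) := fun x => by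
    rcases le_total (u x) 0 with h2 | h2
    · rw [abs_of_nonpos h2, abs_of_nonpos (by linarith), min_eq_left (by linarith),
        max_eq_left h2]; ring
    · rcases le_total (u x) 1 with h3 | h3
      · rw [abs_of_nonneg h2, abs_of_nonpos (by linarith), min_eq_left h3, max_eq_right h2]; ring
      · rw [abs_of_nonneg h2, abs_of_nonneg (by linarith), min_eq_right h3,
          max_eq_right zero_le_one]; ring
  have e1 : (1 : ℝ) / 2 * (|1| - |1 + -1| + 1) = 1 := by norm_num
  simp only [e, e1] at h1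
  refine ⟨_, h1, fun x => ?_⟩
  · have hb : ∀ s : ℝ, |s / (|s|)| ≤ 1 := fun s => by
      rw [abs_div, abs_abs]; exact div_self_le_one _
    rw [← sub_smul, smul_smul, norm_smul]
    refine mul_le_of_le_one_left (norm_nonneg _) ?_
    rw [Real.norm_eq_abs, abs_mul, abs_of_pos (by norm_num : (0 : ℝ) < 1 / 2)]
    linarith [abs_sub (u x / |u x|) ((u x + -1) / |u x + -1|), hb (u x), hb (u x + -1)]

end DD

/-- the Dirichlet class -/
def dclass (h : Fr g F) : DClass (nu g) (E n) where
  D := DD g F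
  meas := DD.meas
  bdd := DD.bdd
  memG := DD.memG
  const := DD.const h
  add := DD.add h
  smul := fun r => DD.smul h r
  mul := DD.mul h
  comp := fun _ _ _ _ hu hx hc hm hc' => hu.comp h hx hc hm hc'
  trunc := DD.trunc h

theorem classStmt : ClassStmt := fun _ _ _ h => ⟨dclass h, rfl⟩

/-- Integration by parts against a `C¹` vector density: for `h ∈ DD(c)` and a `C¹_c` density. -/
theorem DD.ibp (h : Fr g F) (hu : DD g F u c G) {V : VectorField n}
    (hV : ∀ i, ContDiff ℝ 1 fun x => V x i) (hc : ∀ i, HasCompactSupport fun x => V x i) :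
    ∫ x, ⟪fvec g F V x, G x⟫_ℝ ∂(nu g) = -∫ x, u x * divE V x := by
  obtain ⟨a, M, a1, a2, a3, a4, a5⟩ := hu.approx
  have hcd : Continuous (divE V) := continuous_finsetSum _ fun i _ => continuous_pd (hV i) i
  have hK : IsCompact (⋃ i, tsupport fun x => V x i) := isCompact_iUnion fun i => hc i
  have hsd : HasCompactSupport (divE V) := .intro hK fun x hx =>
    Finset.sum_eq_zero fun i _ => pd_of_notMem (fun hi => hx (mem_iUnion.2 ⟨i, hi⟩)) i
  have hi := hcd.integrable_of_hasCompactSupport (μ := volume) hsd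
  have me : MemLp (fvec g F V) 2 (nu g) :=
    h.memLp_of_cs (h.continuous_fvec fun i => (hV i).continuous) (.intro hK fun x hx => by
      ext b
      have : ∀ j, V x j = 0 := fun j =>
        image_eq_zero_of_notMem_tsupport (f := fun x => V x j) fun hj => hx (mem_iUnion.2 ⟨j, hj⟩)
      simp [fvec_apply, this]) 2
  have t1 := L2T.tendsto_inner_left a5 (fun j => h.memLp_fgrad (a1 j) (a2 j) 2) hu.memG me
  have t2 : Tendsto (fun j => ∫ x, a j x * divE V x) atTop (𝓝 (∫ x, (u x - c) * divE V x)) := by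
    refine tendsto_integral_of_dominated_convergence (fun x => M * ‖divE V x‖)
      (fun j => ((a1 j).continuous.mul hcd).aestronglyMeasurable) (hi.norm.const_mul M)
      (fun j => .of_forall fun x => ?_)
      (((ae_nu_iff h.riem).1 a4).mono fun x hx => hx.mul_const _)
    rw [norm_mul]; exact mul_le_mul_of_nonneg_right (a3 j x) (norm_nonneg _)
  have e : ∀ j, ∫ x, ⟪fvec g F V x, fgrad F (a j) x⟫_ℝ ∂(nu g) = -∫ x, a j x * divE V x := by
    intro j
    rw [integral_nu h.riem, ibp_divE (a1 j) (a2 j) hV, neg_neg]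
    simp only [h.inner_fvec_fgrad]
  simp only [e] at t1
  rw [tendsto_nhds_unique t1 t2.neg]
  obtain ⟨P, hP⟩ := hu.bdd
  simp only [sub_mul]
  rw [integral_sub (hi.bdd_mul hu.meas.aestronglyMeasurable (.of_forall hP)) (hi.const_mul c),
    integral_const_mul, integral_divE hV hc]
  simp

end Crest.Agent.N346.P2

end
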