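import Crest.Agent.N346.P2.ConcD

/-! Row 346, P2 concrete side: smooth approximants. -/

set_option autoImplicit false
open MeasureTheory Filter Topology Set
open scoped ContDiff ENNReal InnerProductSpace Convolution
open Crest.GeometryTopology.CoordMetric
open Crest.MathPhysics.ExteriorData

noncomputable section
namespace Crest.Agent.N346.P2
open Crest.Agent.N346.Bs

variable {n : ℕ} {g F : MetricField n} {u v : E n → ℝ} {c : ℝ} {G : E n → E n}

theorem exists_smooth_seq (h : Fr g F) (hv : ContDiff ℝ 1 v) (hc : HasCompactSupport v) {M : ℝ}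
    (hM : ∀ x, |v x| ≤ M) : ∃ w : ℕ → E n → ℝ, (∀ k, ContDiff ℝ ∞ (w k)) ∧
      (∀ k, HasCompactSupport (w k)) ∧ (∀ k x, |w k x| ≤ 3 * M) ∧
      (∀ x, Tendsto (fun k => w k x) atTop (𝓝 (v x))) ∧
      L2T (nu g) (fun k => fgrad F (w k)) (fgrad F v) := by
  let φ : ℕ → ContDiffBump (0 : E n) := fun k =>
    ⟨1 / ((k : ℝ) + 1) / 2, 1 / ((k : ℝ) + 1), by positivity, half_lt_self (by positivity)⟩
  have hφ : Tendsto (fun k => (φ k).rOut) atTop (𝓝 0) := tendsto_one_div_add_atTop_nhds_zero_nat
  have hφ1 : ∀ k, (φ k).rOut ≤ 1 := fun k => by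
    change 1 / ((k : ℝ) + 1) ≤ 1
    rw [div_le_one (by positivity)]; linarith [(Nat.cast_nonneg k : (0 : ℝ) ≤ k)]
  let cv : ℕ → (E n → ℝ) → E n → ℝ := fun k f =>
    (φ k).normed volume ⋆[ContinuousLinearMap.lsmul ℝ ℝ, volume] f
  have hb : ∀ k (f : E n → ℝ) (B : ℝ), Continuous f → (∀ x, |f x| ≤ B) → ∀ x,
      |cv k f x - f x| ≤ 2 * B := fun k f B hf hB x =>
    (φ k).dist_normed_convolution_le hf.aestronglyMeasurable fun y _ =>
      (abs_sub _ _).trans (by linarith [hB y, hB x])
  have hsm : ∀ k, ContDiff ℝ ∞ (cv k v) := fun k =>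
    (φ k).hasCompactSupport_normed.contDiff_convolution_left _ (φ k).contDiff_normed
      hv.continuous.locallyIntegrable
  have hpd : ∀ k i, pderiv i (cv k v) = cv k (pderiv i v) := fun k i => by
    funext x
    have h1 := hc.hasFDerivAt_convolution_right (ContinuousLinearMap.lsmul ℝ ℝ) (μ := volume)
      ((φ k).continuous_normed (μ := volume)).locallyIntegrable hv x
    rw [pderiv, h1.fderiv, convolution_precompR_apply _
      ((φ k).continuous_normed (μ := volume)).locallyIntegrable (hc.fderiv ℝ)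
      (hv.continuous_fderiv one_ne_zero)]
    rfl
  obtain ⟨R, hR⟩ := hc.isCompact.isBounded.subset_closedBall 0
  have hz : ∀ k (f : E n → ℝ), (∀ y, R < ‖y‖ → f y = 0) → ∀ x, R + 1 < ‖x‖ → cv k f x = 0 := by
    intro k f hf x hx
    have h0 : f x = 0 := hf x (by linarith)
    rw [← h0]
    refine (φ k).normed_convolution_eq_right fun y hy => ?_
    rw [h0]
    refine hf y ?_
    have h1 := norm_sub_norm_le x y
    rw [Metric.mem_ball, dist_comm, dist_eq_norm] at hy
    linarith [hφ1 k]
  have hnot : ∀ y : E n, R < ‖y‖ → y ∉ tsupport v := fun y hy h1 => by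
    have := hR h1
    rw [mem_closedBall_zero_iff] at this
    linarith
  have hv0 : ∀ y, R < ‖y‖ → v y = 0 := fun y hy => image_eq_zero_of_notMem_tsupport (hnot y hy)
  have hp0 : ∀ i y, R < ‖y‖ → pderiv i v y = 0 := fun i y hy => pd_of_notMem (hnot y hy) i
  obtain ⟨B, hB⟩ := (hv.continuous_fderiv one_ne_zero).bounded_above_of_compact_support
    (hc.fderiv ℝ)
  obtain ⟨K, hK1, hK⟩ := h.exists_grad_bd
  have hdiff : ∀ k x, fgrad F (cv k v) x - fgrad F v x = fgrad F (fun y => cv k v y - v y) x :=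
    fun k x => (fgrad_sub (smooth_diff (hsm k) x) (hv.differentiable one_ne_zero x)).symm
  refine ⟨fun k => cv k v, hsm, fun k => hasCompactSupport_of_far (hz k v hv0), fun k x => ?_,
    fun x => ContDiffBump.convolution_tendsto_right_of_continuous hφ hv.continuous x, ?_⟩
  · have h1 := hb k v M hv.continuous hM x
    have h2 := abs_add_le (cv k v x - v x) (v x)
    rw [sub_add_cancel] at h2
    linarith [hM x]
  · refine tendsto_eLpNorm_dom
      (b := (Metric.closedBall (0 : E n) (R + 1)).indicator fun _ => K * √(n * (2 * B) ^ 2))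
      (fun k => ((h.continuous_fgrad (smooth_one (hsm k))).sub
        (h.continuous_fgrad hv)).aestronglyMeasurable)
      (h.memLp_nu_iff.2 (memLp_indicator_const 2 measurableSet_closedBall _
        (Or.inr measure_closedBall_lt_top.ne))) (fun k => .of_forall fun x => ?_)
      (.of_forall fun x => ?_)
    · by_cases hx : x ∈ Metric.closedBall (0 : E n) (R + 1)
      · rw [indicator_of_mem hx, hdiff]
        refine (hK _ x).1.trans (mul_le_mul_of_nonneg_left (Real.le_sqrt_of_sq_le ?_) (by linarith))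
        rw [← sum_pd_sq]
        refine (Finset.sum_le_card_nsmul _ _ ((2 * B) ^ 2) fun i _ => ?_).trans (by simp)
        rw [pd_sub (smooth_diff (hsm k) x) (hv.differentiable one_ne_zero x), hpd, ← sq]
        exact sq_le_sq' (abs_le.1 (hb k _ B (continuous_pd hv i)
          (fun y => (abs_pd_le i v y).trans (hB y)) x)).1 (abs_le.1 (hb k _ B (continuous_pd hv i)
          (fun y => (abs_pd_le i v y).trans (hB y)) x)).2
      · rw [mem_closedBall_zero_iff, not_le] at hx
        beta_reduce
        rw [indicator_of_notMem (by simpa using hx), fgrad_of_pd_zero (u := cv k v) fun i => by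
          rw [hpd]; exact hz k _ (hp0 i) x hx, fgrad_of_pd_zero fun i => hp0 i x (by linarith)]
        simp
    · rw [← sub_self (fgrad F v x)]
      refine Tendsto.sub_const ?_ _
      refine ((PiLp.continuous_toLp 2 _).tendsto _).comp (tendsto_pi_nhds.2 fun a => ?_)
      refine tendsto_finsetSum _ fun i _ => Tendsto.const_mul _ ?_
      simp only [hpd]
      exact ContDiffBump.convolution_tendsto_right_of_continuous hφ (continuous_pd hv i) x

/-- the approximants can be taken smooth -/
theorem DD.smooth_approx (h : Fr g F) (hu : DD g F u c G) :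
    ∃ (v : ℕ → E n → ℝ) (M : ℝ), (∀ j, ContDiff ℝ ∞ (v j)) ∧ (∀ j, HasCompactSupport (v j)) ∧
      (∀ j x, |v j x| ≤ M) ∧ (∀ᵐ x ∂(nu g), Tendsto (fun j => v j x) atTop (𝓝 (u x - c))) ∧
      L2T (nu g) (fun j => fgrad F (v j)) G := by
  obtain ⟨a, M, a1, a2, a3, a4, a5⟩ := hu.approx
  choose w w1 w2 w3 w4 w5 using fun k => exists_smooth_seq h (a1 k) (a2 k) (a3 k)
  obtain ⟨J, hJ, hJ'⟩ := exists_diag_ae (ν := nu g) (v := w) (w := a)
    (w0 := fun x => u x - c) (fun k j => (w1 k j).continuous.aestronglyMeasurable)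
    (fun k => .of_forall (w4 k)) a4
    (P := fun k j => eLpNorm (fun x => fgrad F (w k j) x - fgrad F (a k) x) 2 (nu g)
      ≤ ((k : ℝ≥0∞) + 1)⁻¹)
    fun k => (w5 k).eventually (ge_mem_nhds (ENNReal.inv_pos.2 (by simp)))
  refine ⟨fun k => w k (J k), _, fun k => w1 k _, fun k => w2 k _, fun k => w3 k _, hJ', ?_⟩
  have h0 : Tendsto (fun k : ℕ => ((k : ℝ≥0∞) + 1)⁻¹) atTop (𝓝 0) := by
    have := ENNReal.tendsto_inv_nat_nhds_zero.comp (tendsto_add_atTop_nat 1)
    simpa [Function.comp_def] using this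
  have := h0.add a5
  rw [add_zero] at this
  refine tendsto_of_tendsto_of_tendsto_of_le_of_le tendsto_const_nhds this (fun _ => zero_le)
    fun k => ?_
  refine le_trans (le_trans (le_of_eq ?_) (eLpNorm_add_le
    ((h.continuous_fgrad (smooth_one (w1 k (J k)))).aestronglyMeasurable.sub
      (h.continuous_fgrad (a1 k)).aestronglyMeasurable)
    ((h.continuous_fgrad (a1 k)).aestronglyMeasurable.sub hu.memG.1) one_le_two))
    (add_le_add_left (hJ k) _)
  congr 1; funext x; simp

end Crest.Agent.N346.P2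

end
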