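import Crest.Agent.N346.P2.Basic

/-! Row 346, P2, main estimate, part 1: the cut function `β = B(b)`, the measure `nu`,
the Barta substitution and the Hardy type bounds (L2, L3, L7 of the notes). -/

set_option autoImplicit false
set_option linter.unusedSectionVars false
open MeasureTheory Set
open scoped InnerProductSpace

noncomputable section
namespace Crest.Agent.N346.P2

variable {X : Type} [MeasurableSpace X] {V : Type} [NormedAddCommGroup V] [InnerProductSpace ℝ V]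
  {ν : Measure X}

theorem two_inner_le (A B : V) (y r : ℝ) (hr : 0 < r) :
    |2 * y * ⟪A, B⟫_ℝ| ≤ r * (y ^ 2 * ‖B‖ ^ 2) + ‖A‖ ^ 2 / r := by
  have h1 := abs_real_inner_le_norm A B
  have h2 : |2 * y * ⟪A, B⟫_ℝ| ≤ 2 * |y| * (‖A‖ * ‖B‖) := by
    rw [abs_mul, abs_mul, abs_two]
    exact mul_le_mul_of_nonneg_left h1 (by positivity)
  have h3 : 2 * |y| * (‖A‖ * ‖B‖) ≤ r * (y ^ 2 * ‖B‖ ^ 2) + ‖A‖ ^ 2 / r := by
    rw [← sub_nonneg, ← sq_abs y]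
    have : r * (|y| ^ 2 * ‖B‖ ^ 2) + ‖A‖ ^ 2 / r - 2 * |y| * (‖A‖ * ‖B‖)
        = (r * |y| * ‖B‖ - ‖A‖) ^ 2 / r := by field_simp; ring
    rw [this]; positivity
  exact h2.trans h3

theorem inner_sq_le (A B : V) : ⟪A, B⟫_ℝ ^ 2 ≤ ‖A‖ ^ 2 * ‖B‖ ^ 2 := by
  have h1 := abs_real_inner_le_norm A B
  have := mul_self_le_mul_self (abs_nonneg _) h1
  rw [abs_mul_abs_self] at this
  nlinarith

/-- small parameters -/
structure Par (ε δ : ℝ) : Prop where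
  ε_pos : 0 < ε
  ε_le : ε ≤ 1 / 8
  δ_pos : 0 < δ
  δ_le : δ ≤ 1

theorem Prof.B'_mul_p' {ε C0 : ℝ} (pr : Prof ε C0) (s : ℝ) : pr.B' s * pr.p' s = 0 := by
  rcases le_total s ε with h | h
  · rw [pr.B'_zero s h, zero_mul]
  · rw [pr.p'_zero s h, mul_zero]

namespace Crit
variable {𝒟 : DClass ν V} {W : X → ℝ} {ε C0 : ℝ} {pr : Prof ε C0} (c : Crit 𝒟 W pr)

def β (x : X) : ℝ := pr.B (c.b x)
def v (x : X) : V := pr.B' (c.b x) • c.gb x
def nu (x : X) : ℝ :=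
  pr.B'' (c.b x) * ‖c.gb x‖ ^ 2 + W x * (c.b x * pr.B' (c.b x) - pr.B (c.b x))
def Φt : ℝ := pr.B' 1 * c.Φ
def chi (x : X) : ℝ := if c.b x < ε then 1 else 0
def P1 (δ : ℝ) (x : X) : ℝ := pr.p (c.b x) + δ
def eta (δ : ℝ) (z : X → ℝ) (x : X) : ℝ := z x / c.P1 δ x
def w (δ : ℝ) (z : X → ℝ) (G : X → V) (x : X) : V :=
  G x - (z x * pr.p' (c.b x) / c.P1 δ x) • c.gb x
def J (δ : ℝ) (z : X → ℝ) (G : X → V) : ℝ := ∫ x, ‖c.w δ z G x‖ ^ 2 ∂ν
def M : ℝ := ∫ x, c.nu x ∂ν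
def Qt : ℝ := ∫ x, (‖c.v x‖ ^ 2 + W x * c.β x ^ 2) ∂ν
def Z (z : X → ℝ) : ℝ := ∫ x, c.chi x * z x ^ 2 ∂ν

theorem β_D : 𝒟.D c.β 1 c.v := by
  have := 𝒟.comp pr.B pr.B' 0 1 c.b_D c.b_mem ⟨zero_le_one, le_rfl⟩ (fun s _ => pr.hB s)
    pr.cB'.continuousOn
  rwa [pr.B_one] at this
theorem β_mem (x : X) : c.β x ∈ Icc (0 : ℝ) 1 := pr.B_mem (c.b_mem x)
theorem β_le (x : X) : c.β x ≤ c.b x := pr.B_le _ (c.b_mem x)
theorem bd_β : Bd c.β := DClass.bd c.β_D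
theorem v2 : MemLp c.v 2 ν := 𝒟.memG c.β_D
theorem nu_nonneg (hW : WOK ν W) (x : X) : 0 ≤ c.nu x := by
  have := pr.B''_nonneg (c.b x)
  have := pr.tang_nonneg _ (c.b_mem x)
  have := hW.nonneg x
  unfold nu; positivity
theorem int_nu (hW : WOK ν W) : Integrable c.nu ν := by
  have h1 := c.int_g2 (c.bdb' pr.cB'')
  have h2 := ((c.bd_b.mul (c.bdb' pr.cB')).sub (c.bdb' pr.cB)).int hW.int
  exact (h1.add h2).congr (ae_of_all _ fun x => by simp only [nu, Pi.add_apply]; ring)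
theorem hiM (hW : WOK ν W) : HI ν c.nu c.M := ⟨c.int_nu hW, rfl⟩
theorem hiQt (hW : WOK ν W) : HI ν (fun x => ‖c.v x‖ ^ 2 + W x * c.β x ^ 2) c.Qt :=
  ⟨(int_normsq c.v2).add ((c.bd_β.sq.int hW.int).congr
    (ae_of_all _ fun x => by simp only []; ring)), rfl⟩

/-- Euler–Lagrange equation of the cut function. -/
theorem ELt (hW : WOK ν W) {h : X → ℝ} {k : ℝ} {G : X → V} (hh : 𝒟.D h k G) :
    HI ν (fun x => ⟪c.v x, G x⟫_ℝ + h x * (c.nu x + W x * c.β x)) (k * c.Φt) := by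
  have := c.div hW hh pr.B' pr.B'' (fun s _ => pr.hB' s) pr.cB''.continuousOn
  rw [mul_assoc] at this
  refine this.congr fun x => ?_
  have h0 := pr.B'_mul_p' (c.b x)
  simp only [v, nu, β, N, inner_smul_right, real_inner_comm (G x)]
  linear_combination (-(h x * c.Λ ^ 2 * c.σ x ^ 2 * pr.p (c.b x))) * h0

theorem bd_chi : Bd c.chi := by
  refine ⟨Measurable.ite (measurableSet_lt c.b_meas measurable_const) measurable_const
    measurable_const, 1, fun x => ?_⟩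
  unfold chi; split_ifs <;> simp
theorem chi_eq : c.chi = {x | c.b x < ε}.indicator (fun _ => (1 : ℝ)) := by
  funext x; simp [chi, indicator]
theorem hiChi : HI ν c.chi (ν {x | c.b x < ε}).toReal := by
  have hs : MeasurableSet {x | c.b x < ε} := measurableSet_lt c.b_meas measurable_const
  rw [chi_eq]
  refine ⟨(integrable_indicator_iff hs).2 (integrableOn_const c.fin), ?_⟩
  rw [integral_indicator hs]; simp [Measure.real]
theorem hiZ {z : X → ℝ} (hz : Bd z) : HI ν (fun x => c.chi x * z x ^ 2) (c.Z z) :=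
  ⟨(hz.sq.int c.hiChi.1).congr (ae_of_all _ fun x => by simp only []; ring), rfl⟩
theorem Z_eq (z : X → ℝ) : c.Z z = ∫ x in {x | c.b x < ε}, z x ^ 2 ∂ν := by
  have hs : MeasurableSet {x | c.b x < ε} := measurableSet_lt c.b_meas measurable_const
  rw [← integral_indicator hs, Z]
  congr 1; funext x; by_cases hx : c.b x < ε <;> simp [chi, indicator, hx]

variable {δ : ℝ}
theorem P1_pos (h : Par ε δ) (x : X) : 0 < c.P1 δ x :=
  add_pos_of_nonneg_of_pos (pr.p_nonneg h.ε_pos (c.b_mem x)) h.δ_pos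
theorem P1_le (h : Par ε δ) (x : X) : c.P1 δ x ≤ 2 := by
  have := pr.p_le_one (c.b x); have := h.δ_le; unfold P1; linarith
theorem bd_P1 : Bd (c.P1 δ) := (c.bdb' pr.cp).add (Bd.const δ)
theorem bd_inv (h : Par ε δ) : Bd (fun x => (c.P1 δ x)⁻¹) :=
  c.bdb (m := fun s => (pr.p s + δ)⁻¹) ((pr.cp.add continuous_const).continuousOn.inv₀
    fun _ hs => (add_pos_of_nonneg_of_pos (pr.p_nonneg h.ε_pos hs) h.δ_pos).ne')
theorem bd_div (h : Par ε δ) {u : X → ℝ} (hu : Bd u) : Bd (fun x => u x / c.P1 δ x) := by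
  simpa [div_eq_mul_inv] using hu.mul (c.bd_inv h)
theorem bd_eta (h : Par ε δ) {z : X → ℝ} (hz : Bd z) : Bd (c.eta δ z) := c.bd_div h hz

variable {z : X → ℝ} {G : X → V}
theorem w2 (h : Par ε δ) (hz : 𝒟.D z 0 G) : MemLp (c.w δ z G) 2 ν :=
  (𝒟.memG hz).sub ((c.bd_div h ((DClass.bd hz).mul (c.bdb' pr.cp'))).smul_memLp c.gb2)
theorem hiJ (h : Par ε δ) (hz : 𝒟.D z 0 G) : HI ν (fun x => ‖c.w δ z G x‖ ^ 2) (c.J δ z G) :=
  ⟨int_normsq (c.w2 h hz), rfl⟩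
theorem J_nonneg : 0 ≤ c.J δ z G := integral_nonneg fun _ => sq_nonneg _
theorem inner_w (x : X) : ⟪c.w δ z G x, c.gb x⟫_ℝ
    = ⟪G x, c.gb x⟫_ℝ - z x * pr.p' (c.b x) / c.P1 δ x * ‖c.gb x‖ ^ 2 := by
  simp only [w, inner_sub_left, inner_smul_left, RCLike.conj_to_real, real_inner_self_eq_norm_sq]
theorem normsq_w (x : X) : ‖c.w δ z G x‖ ^ 2 = ‖G x‖ ^ 2
    - 2 * (z x * pr.p' (c.b x) / c.P1 δ x) * ⟪G x, c.gb x⟫_ℝ
    + (z x * pr.p' (c.b x) / c.P1 δ x) ^ 2 * ‖c.gb x‖ ^ 2 := by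
  simp only [w, norm_sub_sq_real, inner_smul_right, norm_smul, mul_pow, Real.norm_eq_abs, sq_abs]
  ring
theorem inner_v_w (x : X) : ⟪c.v x, c.w δ z G x⟫_ℝ = ⟪c.v x, G x⟫_ℝ := by
  have h0 := pr.B'_mul_p' (c.b x)
  simp only [w, v, inner_sub_right, inner_smul_left, inner_smul_right, RCLike.conj_to_real,
    real_inner_self_eq_norm_sq]
  linear_combination (-(z x / c.P1 δ x * ‖c.gb x‖ ^ 2)) * h0
theorem w_eq {x : X} (hx : ε ≤ c.b x) : c.w δ z G x = G x := by simp [w, pr.p'_zero _ hx]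

theorem sq_D (hz : 𝒟.D z 0 G) : 𝒟.D (fun x => z x * z x) 0 (fun x => z x • G x + z x • G x) := by
  simpa using 𝒟.mul hz hz

/-- L2 (Barta). -/
theorem barta (hW : WOK ν W) (h : Par ε δ) (hz : 𝒟.D z 0 G) :
    HI ν (fun x => ‖G x‖ ^ 2 + z x ^ 2 * (pr.p'' (c.b x) * ‖c.gb x‖ ^ 2
      + pr.p' (c.b x) * c.N x) / c.P1 δ x) (c.J δ z G) := by
  have hpos : ∀ s ∈ Icc (0 : ℝ) 1, pr.p s + δ ≠ 0 := fun s hs =>
    (add_pos_of_nonneg_of_pos (pr.p_nonneg h.ε_pos hs) h.δ_pos).ne'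
  have := c.div hW (sq_D hz) (fun s => pr.p' s / (pr.p s + δ))
    (fun s => (pr.p'' s * (pr.p s + δ) - pr.p' s * pr.p' s) / (pr.p s + δ) ^ 2)
    (fun s hs => (pr.hp' s).div ((pr.hp s).add_const δ) (hpos s hs))
    (((pr.cp''.mul (pr.cp.add continuous_const)).sub (pr.cp'.mul pr.cp')).continuousOn.div
      ((pr.cp.add continuous_const).pow 2).continuousOn fun s hs => pow_ne_zero 2 (hpos s hs))
  have h2 := (c.hiJ h hz).add this
  simp only [zero_mul, add_zero] at h2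
  refine h2.congr fun x => ?_
  have hp := (c.P1_pos h x).ne'
  rw [normsq_w]
  simp only [inner_add_left, inner_smul_left, RCLike.conj_to_real]
  unfold P1 at hp ⊢
  field_simp
  ring

/-- The divergence lemma for `η² m₀(b)`, `η = z / P₁`. -/
theorem div_eta (hW : WOK ν W) (h : Par ε δ) (hz : 𝒟.D z 0 G) (m m' : ℝ → ℝ)
    (hm : ∀ s, HasDerivAt m (m' s) s) (hc : Continuous m') :
    HI ν (fun x => c.eta δ z x ^ 2 * (m' (c.b x) * ‖c.gb x‖ ^ 2 + m (c.b x) * c.N x)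
      + m (c.b x) / c.P1 δ x * (2 * c.eta δ z x * ⟪c.w δ z G x, c.gb x⟫_ℝ)) 0 := by
  have hpos : ∀ s ∈ Icc (0 : ℝ) 1, pr.p s + δ ≠ 0 := fun s hs =>
    (add_pos_of_nonneg_of_pos (pr.p_nonneg h.ε_pos hs) h.δ_pos).ne'
  have cm : Continuous m := continuous_iff_continuousAt.2 fun s => (hm s).continuousAt
  have cP : Continuous fun s => pr.p s + δ := pr.cp.add continuous_const
  have := c.div hW (sq_D hz) (fun s => m s / ((pr.p s + δ) * (pr.p s + δ)))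
    (fun s => (m' s * ((pr.p s + δ) * (pr.p s + δ))
      - m s * (pr.p' s * (pr.p s + δ) + (pr.p s + δ) * pr.p' s))
        / ((pr.p s + δ) * (pr.p s + δ)) ^ 2)
    (fun s hs => (hm s).div (((pr.hp s).add_const δ).mul ((pr.hp s).add_const δ))
      (mul_ne_zero (hpos s hs) (hpos s hs)))
    (((hc.mul (cP.mul cP)).sub (cm.mul ((pr.cp'.mul cP).add (cP.mul pr.cp')))).continuousOn.div
      ((cP.mul cP).pow 2).continuousOn fun s hs =>
        pow_ne_zero 2 (mul_ne_zero (hpos s hs) (hpos s hs)))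
  simp only [zero_mul] at this
  refine this.congr fun x => ?_
  have hp := (c.P1_pos h x).ne'
  rw [inner_w]
  simp only [inner_add_left, inner_smul_left, RCLike.conj_to_real, eta]
  unfold P1 at hp ⊢
  field_simp
  ring

theorem hi_eg (h : Par ε δ) (hz : 𝒟.D z 0 G) {u : X → ℝ} (hu : Bd u) :
    Integrable (fun x => u x * (c.eta δ z x ^ 2 * ‖c.gb x‖ ^ 2)) ν :=
  (c.int_g2 (hu.mul (c.bd_eta h (DClass.bd hz)).sq)).congr
    (ae_of_all _ fun x => by simp only []; ring)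

/-- `∫ η² g²` -/
def Eg (δ : ℝ) (z : X → ℝ) : ℝ := ∫ x, c.eta δ z x ^ 2 * ‖c.gb x‖ ^ 2 ∂ν
theorem hiEg (h : Par ε δ) (hz : 𝒟.D z 0 G) :
    HI ν (fun x => c.eta δ z x ^ 2 * ‖c.gb x‖ ^ 2) (c.Eg δ z) :=
  ⟨by simpa using c.hi_eg h hz (Bd.const 1), rfl⟩

theorem Eg_le (hW : WOK ν W) (h : Par ε δ) (hz : 𝒟.D z 0 G) : c.Eg δ z ≤ 4 * c.J δ z G := by
  have h1 := c.div_eta hW h hz (fun s => s) (fun _ => 1) (fun s => hasDerivAt_id s)
    continuous_const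
  have := (c.hiEg h hz).mono (h1.add (((c.hiEg h hz).cmul (1 / 2)).add
    ((c.hiJ h hz).cmul 2))) fun x => by
      have hp := c.P1_pos h x
      have hb := (c.b_mem x).1
      have hN := c.N_nonneg h.ε_pos hW x
      have h3 : c.b x / c.P1 δ x ≤ 1 := by
        rw [div_le_one hp]
        have := pr.self_le_p h.ε_pos (by linarith [h.ε_le]) (c.b_mem x)
        have := h.δ_pos
        unfold P1; linarith
      have h4 : 0 ≤ c.b x / c.P1 δ x := by positivity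
      have h5 := neg_abs_le (2 * c.eta δ z x * ⟪c.w δ z G x, c.gb x⟫_ℝ)
      have h6 := two_inner_le (c.w δ z G x) (c.gb x) (c.eta δ z x) (1 / 2) (by norm_num)
      have h7 := abs_nonneg (2 * c.eta δ z x * ⟪c.w δ z G x, c.gb x⟫_ℝ)
      have h8 : 0 ≤ c.eta δ z x ^ 2 * (c.b x * c.N x) := by positivity
      nlinarith
  linarith

/-- the general consequence of `div_eta` -/
theorem eta_le (hW : WOK ν W) (h : Par ε δ) (hz : 𝒟.D z 0 G) (m m' : ℝ → ℝ)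
    (hm : ∀ s, HasDerivAt m (m' s) s) (hc : Continuous m') {κ : ℝ} (hκ : 0 ≤ κ)
    (h0 : ∀ x, 0 ≤ m (c.b x)) (h1 : ∀ x, m (c.b x) ≤ κ * c.P1 δ x) {f : X → ℝ} {r : ℝ}
    (hf : HI ν f r) (hle : ∀ x, f x ≤ c.eta δ z x ^ 2 * (m' (c.b x) * ‖c.gb x‖ ^ 2)) :
    r ≤ 4 * κ * c.J δ z G := by
  have h2 := c.div_eta hW h hz m m' hm hc
  have := hf.mono (h2.add (((c.hiEg h hz).cmul (κ / 2)).add
    ((c.hiJ h hz).cmul (2 * κ)))) fun x => by
      have hp := c.P1_pos h x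
      have hN := c.N_nonneg h.ε_pos hW x
      have h3 : m (c.b x) / c.P1 δ x ≤ κ := by rw [div_le_iff₀ hp]; exact h1 x
      have hm0 := h0 x
      have h4 : 0 ≤ m (c.b x) / c.P1 δ x := by positivity
      have h5 := neg_abs_le (2 * c.eta δ z x * ⟪c.w δ z G x, c.gb x⟫_ℝ)
      have h6 := two_inner_le (c.w δ z G x) (c.gb x) (c.eta δ z x) (1 / 2) (by norm_num)
      have h7 := abs_nonneg (2 * c.eta δ z x * ⟪c.w δ z G x, c.gb x⟫_ℝ)
      have h8 : 0 ≤ c.eta δ z x ^ 2 * (m (c.b x) * c.N x) := by positivity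
      have h9 := hle x
      have h10 := mul_le_mul_of_nonneg_left h6 hκ
      have h11 := mul_le_mul_of_nonneg_left h5 h4
      have h12 := mul_le_mul_of_nonneg_right h3 h7
      nlinarith
  have h3 := c.Eg_le hW h hz
  nlinarith

/-- `∫ |G|² ≤ (2 + 8 C₀/ε) J`. -/
theorem G_le (hW : WOK ν W) (h : Par ε δ) (hz : 𝒟.D z 0 G) :
    ∫ x, ‖G x‖ ^ 2 ∂ν ≤ (2 + 8 * (C0 / ε)) * c.J δ z G := by
  have h1 := HI.of (c.hi_eg h hz (c.bdb' pr.cp'))
  have h2 := c.eta_le hW h hz (fun s => pr.p s + δ) pr.p' (fun s => (pr.hp s).add_const δ) pr.cp'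
    zero_le_one (fun x => (c.P1_pos h x).le) (fun x => by simp [P1]) h1
    (fun x => le_of_eq (by ring))
  have hC : 0 ≤ C0 / ε := (pr.p'_nonneg 0).trans (pr.p'_le 0 ⟨le_rfl, zero_le_one⟩)
  have := (HI.of (int_normsq (𝒟.memG hz))).mono (((c.hiJ h hz).cmul 2).add
    (h1.cmul (2 * (C0 / ε)))) fun x => by
      have e : G x = c.w δ z G x + (z x * pr.p' (c.b x) / c.P1 δ x) • c.gb x := by simp [w]
      have h3 : ‖G x‖ ^ 2 ≤ 2 * ‖c.w δ z G x‖ ^ 2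
          + 2 * ‖(z x * pr.p' (c.b x) / c.P1 δ x) • c.gb x‖ ^ 2 := by
        have := norm_add_le (c.w δ z G x) ((z x * pr.p' (c.b x) / c.P1 δ x) • c.gb x)
        rw [← e] at this
        have := mul_self_le_mul_self (norm_nonneg _) this
        nlinarith [sq_nonneg (‖c.w δ z G x‖ - ‖(z x * pr.p' (c.b x) / c.P1 δ x) • c.gb x‖)]
      have h4 : ‖(z x * pr.p' (c.b x) / c.P1 δ x) • c.gb x‖ ^ 2
          = pr.p' (c.b x) * (pr.p' (c.b x) * (c.eta δ z x ^ 2 * ‖c.gb x‖ ^ 2)) := by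
        rw [norm_smul, mul_pow, Real.norm_eq_abs, sq_abs, eta]; ring
      have h5 := pr.p'_le _ (c.b_mem x)
      have h6 := pr.p'_nonneg (c.b x)
      have h7 : 0 ≤ pr.p' (c.b x) * (c.eta δ z x ^ 2 * ‖c.gb x‖ ^ 2) := by positivity
      have := mul_le_mul_of_nonneg_right h5 h7
      linarith
  nlinarith

theorem z_sq_le (h : Par ε δ) (x : X) : z x ^ 2 ≤ 4 * c.eta δ z x ^ 2 := by
  have hp := c.P1_pos h x
  have h2 := c.P1_le h x
  have : z x = c.P1 δ x * c.eta δ z x := by unfold eta; field_simp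
  rw [this, mul_pow]
  exact mul_le_mul_of_nonneg_right (by nlinarith) (sq_nonneg _)

/-- `∫_{b ≤ 2ε} z² g² ≤ 64 ε J`. -/
theorem zg_le (hW : WOK ν W) (h : Par ε δ) (hz : 𝒟.D z 0 G) :
    ∫ x, pr.m' (c.b x) * z x ^ 2 * ‖c.gb x‖ ^ 2 ∂ν ≤ 64 * ε * c.J δ z G := by
  have h1 := (HI.of (c.int_g2 ((c.bdb' pr.cm').mul (DClass.bd hz).sq))).cmul (1 / 4)
  have h2 := c.eta_le hW h hz pr.m pr.m' pr.hm pr.cm' (κ := 4 * ε) (by linarith [h.ε_pos])
    (fun x => pr.m_nonneg _ (c.b_mem x)) (fun x => by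
      have := pr.m_le_p h.ε_pos (c.b_mem x)
      have := mul_pos h.ε_pos h.δ_pos
      unfold P1; nlinarith) h1 (fun x => by
      have h3 := c.z_sq_le (z := z) h x
      have h4 : 0 ≤ pr.m' (c.b x) * ‖c.gb x‖ ^ 2 := mul_nonneg (pr.m'_nonneg _) (sq_nonneg _)
      nlinarith)
  linarith

/-- `∫_{b ≤ 2ε} g² ≤ 4 ε Φ`. -/
theorem mg_le (hW : WOK ν W) (hε : 0 < ε) :
    ∫ x, pr.m' (c.b x) * ‖c.gb x‖ ^ 2 ∂ν ≤ 4 * ε * c.Φ := by
  have h1 := c.div1 hW pr.m pr.m' (fun s _ => pr.hm s) pr.cm'.continuousOn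
  have h2 := (HI.of (c.int_g2 (c.bdb' pr.cm'))).mono h1 fun x => by
    have := mul_nonneg (pr.m_nonneg _ (c.b_mem x)) (c.N_nonneg hε hW x)
    linarith
  have h3 := (pr.m_le 1 ⟨zero_le_one, le_rfl⟩).trans (min_le_right _ _)
  have := mul_le_mul_of_nonneg_right h3 (c.Φ_nonneg hε hW)
  linarith

theorem v_sq_le (h : Par ε δ) (x : X) : ‖c.v x‖ ^ 2 ≤ 9 / 4 * ‖c.gb x‖ ^ 2 := by
  have h1 := pr.B'_nonneg (c.b x)
  have h2 := (pr.B'_le (c.b x)).trans pr.B'_one_le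
  have h3 := h.ε_le
  rw [v, norm_smul, mul_pow, Real.norm_eq_abs, sq_abs]
  exact mul_le_mul_of_nonneg_right (by nlinarith) (sq_nonneg _)

/-- `∫ z² |v|² ≤ 36 J`. -/
theorem zv_le (hW : WOK ν W) (h : Par ε δ) (hz : 𝒟.D z 0 G) :
    ∫ x, z x ^ 2 * ‖c.v x‖ ^ 2 ∂ν ≤ 36 * c.J δ z G := by
  have := (HI.of ((DClass.bd hz).sq.int (int_normsq c.v2))).mono ((c.hiEg h hz).cmul 9)
    fun x => by
      have := mul_le_mul (c.z_sq_le (z := z) h x) (c.v_sq_le h x) (sq_nonneg _) (by positivity)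
      linarith
  linarith [c.Eg_le hW h hz]

/-- L7: `∫ z² ν ≤ 12 J`. -/
theorem znu_le (hW : WOK ν W) (h : Par ε δ) (hz : 𝒟.D z 0 G) :
    ∫ x, z x ^ 2 * c.nu x ∂ν ≤ 12 * c.J δ z G := by
  have h1 := c.ELt hW (sq_D hz)
  have := (HI.of ((DClass.bd hz).sq.int (c.int_nu hW))).mono (h1.add
    (((HI.of ((DClass.bd hz).sq.int (int_normsq c.v2))).cmul (1 / 6)).add
      ((c.hiJ h hz).cmul 6))) fun x => by
      have h5 := neg_abs_le (2 * z x * ⟪c.w δ z G x, c.v x⟫_ℝ)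
      have h6 := two_inner_le (c.w δ z G x) (c.v x) (z x) (1 / 6) (by norm_num)
      rw [real_inner_comm, inner_v_w] at h5 h6
      have h7 : 0 ≤ z x ^ 2 * (W x * c.β x) :=
        mul_nonneg (sq_nonneg _) (mul_nonneg (hW.nonneg x) (c.β_mem x).1)
      simp only [inner_add_right, inner_smul_right]
      nlinarith
  linarith [c.zv_le hW h hz]

theorem Φt_nonneg (hW : WOK ν W) (hε : 0 < ε) : 0 ≤ c.Φt :=
  mul_nonneg (pr.B'_nonneg 1) (c.Φ_nonneg hε hW)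
theorem Φ_le_Φt (hW : WOK ν W) (hε : 0 < ε) : c.Φ ≤ c.Φt := by
  have := mul_le_mul_of_nonneg_right pr.one_le_B'_one (c.Φ_nonneg hε hW)
  unfold Φt; linarith
theorem Φt_le (hW : WOK ν W) (hε : 0 < ε) : c.Φt ≤ (1 + 4 * ε) * c.Φ :=
  mul_le_mul_of_nonneg_right pr.B'_one_le (c.Φ_nonneg hε hW)
theorem Φt_le_I (hW : WOK ν W) (h : Par ε δ) : c.Φt ≤ (1 + 6 * ε) * c.I := by
  have h1 := c.Φt_le hW h.ε_pos
  have h2 := c.Φ_le h.ε_pos hW
  have h3 := c.Φ_nonneg h.ε_pos hW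
  have h4 := h.ε_pos
  have h5 := h.ε_le
  have h6 : (1 + 4 * ε) * c.Φ ≤ (1 + 6 * ε) * ((1 - ε) * c.Φ) := by
    rw [← mul_assoc]; exact mul_le_mul_of_nonneg_right (by nlinarith) h3
  nlinarith
theorem M_le (hW : WOK ν W) : c.M ≤ c.Φt := by
  have h1 := c.ELt hW (𝒟.const 1)
  rw [one_mul] at h1
  exact (c.hiM hW).mono h1 fun x => by
    have := mul_nonneg (hW.nonneg x) (c.β_mem x).1
    simp only [inner_zero_right]; linarith
theorem M_nonneg (hW : WOK ν W) : 0 ≤ c.M := (c.hiM hW).nonneg (c.nu_nonneg hW)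

/-- pointwise: `β ν ≤ 2 ε ν + 4 ε W b` -/
theorem βnu_pt (hW : WOK ν W) (hε : 0 < ε) (x : X) :
    c.β x * c.nu x ≤ 2 * ε * c.nu x + 4 * ε * (W x * c.b x) := by
  have h1 := c.β_le x
  have h2 := (c.β_mem x).1
  have h3 := pr.tang_nonneg _ (c.b_mem x)
  have h4 := pr.tang_le _ (c.b_mem x)
  have h5 := hW.nonneg x
  have h6 : c.β x * (W x * (c.b x * pr.B' (c.b x) - pr.B (c.b x))) ≤ 4 * ε * (W x * c.b x) := by
    have := mul_le_mul h1 (mul_le_mul_of_nonneg_left h4 h5) (mul_nonneg h5 h3) (h2.trans h1)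
    linarith
  have h7 : 0 ≤ ε * (W x * (c.b x * pr.B' (c.b x) - pr.B (c.b x))) := by positivity
  have h8 : c.β x * (pr.B'' (c.b x) * ‖c.gb x‖ ^ 2) ≤ 2 * ε * (pr.B'' (c.b x) * ‖c.gb x‖ ^ 2) := by
    rcases le_total (c.b x) (2 * ε) with hb | hb
    · exact mul_le_mul_of_nonneg_right (h1.trans hb)
        (mul_nonneg (pr.B''_nonneg _) (sq_nonneg _))
    · rw [pr.B''_zero _ (Or.inr hb)]; simp
  unfold nu; nlinarith

theorem Wb_le (hW : WOK ν W) (hε : 0 < ε) : ∫ x, W x * c.b x ∂ν ≤ c.Φ :=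
  (HI.of ((c.bd_b.int hW.int).congr (ae_of_all _ fun x => mul_comm _ _))).mono (c.hiN hW)
    fun x => by
      have := pr.p_nonneg hε (c.b_mem x)
      have := pr.p'_nonneg (c.b x)
      have : 0 ≤ c.Λ ^ 2 * c.σ x ^ 2 * (pr.p (c.b x) * pr.p' (c.b x)) := by positivity
      unfold N; linarith

theorem βnu_le (hW : WOK ν W) (h : Par ε δ) : ∫ x, c.β x * c.nu x ∂ν ≤ 7 * ε * c.Φ := by
  have h1 := (HI.of (c.bd_β.int (c.int_nu hW))).mono (((c.hiM hW).cmul (2 * ε)).add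
    ((HI.of ((c.bd_b.int hW.int).congr (ae_of_all _ fun x => mul_comm _ _))).cmul (4 * ε)))
    (c.βnu_pt hW h.ε_pos)
  have h2 := c.Wb_le hW h.ε_pos
  have h3 := c.M_le hW
  have h4 := c.Φt_le hW h.ε_pos
  have h5 := c.Φ_nonneg h.ε_pos hW
  have h6 := h.ε_pos
  have h7 := h.ε_le
  have h8 : c.M ≤ 3 / 2 * c.Φ := by nlinarith
  nlinarith

theorem Qt_eq (hW : WOK ν W) : c.Qt = c.Φt - ∫ x, c.β x * c.nu x ∂ν := by
  have h1 := c.ELt hW c.β_D
  rw [one_mul] at h1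
  exact (c.hiQt hW).uniq (h1.sub (HI.of (c.bd_β.int (c.int_nu hW)))) fun x => by
    rw [real_inner_self_eq_norm_sq]; ring
theorem Qt_le (hW : WOK ν W) : c.Qt ≤ c.Φt := by
  have : 0 ≤ ∫ x, c.β x * c.nu x ∂ν :=
    integral_nonneg fun x => mul_nonneg (c.β_mem x).1 (c.nu_nonneg hW x)
  rw [c.Qt_eq hW]; linarith
theorem le_Qt (hW : WOK ν W) (h : Par ε δ) : c.I - 7 * ε * c.Φ ≤ c.Qt := by
  have := c.βnu_le hW h
  have := c.I_le_Φ h.ε_pos hW
  have := c.Φ_le_Φt hW h.ε_pos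
  rw [c.Qt_eq hW]; linarith

end Crit
end Crest.Agent.N346.P2
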