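import Crest.Agent.N346.P2.Core1

/-! Row 346, P2, main estimate, part 2: comparison of the two linear functionals (L5),
the projection inequality, the Bogomolny bound and the neck errors (L8). -/

set_option autoImplicit false
set_option linter.unusedSectionVars false
open MeasureTheory Set
open scoped InnerProductSpace

noncomputable section
namespace Crest.Agent.N346.P2

variable {X : Type} [MeasurableSpace X] {V : Type} [NormedAddCommGroup V] [InnerProductSpace ℝ V]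
  {ν : Measure X}

theorem WOK.hi {W : X → ℝ} (hW : WOK ν W) {u : X → ℝ} (hu : Bd u) :
    HI ν (fun x => W x * u x) (∫ x, W x * u x ∂ν) :=
  HI.of ((hu.int hW.int).congr (ae_of_all _ fun _ => mul_comm _ _))

theorem Prof.C0_nonneg {ε C0 : ℝ} (pr : Prof ε C0) : 0 ≤ C0 / ε :=
  (pr.p'_nonneg 0).trans (pr.p'_le 0 ⟨le_rfl, zero_le_one⟩)

namespace Crit
variable {𝒟 : DClass ν V} {W : X → ℝ} {ε C0 : ℝ} {pr : Prof ε C0} (c : Crit 𝒟 W pr)

def dm (δ : ℝ) (x : X) : ℝ := ‖c.gb x‖ - c.Λ * c.P1 δ x * c.σ x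
def dp (δ : ℝ) (x : X) : ℝ := ‖c.gb x‖ + c.Λ * c.P1 δ x * c.σ x
def Dz (δ : ℝ) (z : X → ℝ) : ℝ :=
  ∫ x, -pr.p'' (c.b x) / c.P1 δ x * z x ^ 2 * c.dm δ x ^ 2 ∂ν
def H (δ : ℝ) (z : X → ℝ) (G : X → V) : ℝ :=
  ∫ x, (‖c.w δ z G x‖ ^ 2 + W x * ((1 - c.chi x) * z x ^ 2)) ∂ν
def x1 (z : X → ℝ) : ℝ := ∫ x, z x * c.nu x ∂ν
def vol : ℝ := (ν {x | c.b x < ε}).toReal

variable {δ : ℝ} {z : X → ℝ} {G : X → V}

theorem σ2 : MemLp (fun x => c.Λ * c.P1 δ x * c.σ x) 2 ν :=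
  ((c.bd_P1.cmul c.Λ).mul c.bd_σ).memLp_two ((c.bd_P1.cmul c.Λ).int c.σ_int)
theorem dm2 : MemLp (c.dm δ) 2 ν := c.gb2.norm.sub c.σ2
theorem dp2 : MemLp (c.dp δ) 2 ν := c.gb2.norm.add c.σ2
theorem hiDz (h : Par ε δ) (hz : Bd z) :
    HI ν (fun x => -pr.p'' (c.b x) / c.P1 δ x * z x ^ 2 * c.dm δ x ^ 2) (c.Dz δ z) :=
  ⟨((c.bd_div h (c.bdb' pr.cp'').neg).mul hz.sq).int c.dm2.integrable_sq, rfl⟩
theorem Dz_nonneg (h : Par ε δ) (hz : Bd z) : 0 ≤ c.Dz δ z := (c.hiDz h hz).nonneg fun x => by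
  have := c.P1_pos h x
  have : 0 ≤ -pr.p'' (c.b x) := neg_nonneg.2 (pr.p''_nonpos _)
  positivity
theorem hiH (hW : WOK ν W) (h : Par ε δ) (hz : 𝒟.D z 0 G) :
    HI ν (fun x => ‖c.w δ z G x‖ ^ 2 + W x * ((1 - c.chi x) * z x ^ 2)) (c.H δ z G) :=
  ⟨(c.hiJ h hz).1.add (hW.hi (((Bd.const 1).sub c.bd_chi).mul (DClass.bd hz).sq)).1, rfl⟩
theorem chi_mem (x : X) : 0 ≤ c.chi x ∧ c.chi x ≤ 1 := by unfold chi; split_ifs <;> simp
theorem J_le_H (hW : WOK ν W) (h : Par ε δ) (hz : 𝒟.D z 0 G) : c.J δ z G ≤ c.H δ z G :=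
  (c.hiJ h hz).mono (c.hiH hW h hz) fun x => by
    have := hW.nonneg x
    have : 0 ≤ 1 - c.chi x := sub_nonneg.2 (c.chi_mem x).2
    have : 0 ≤ W x * ((1 - c.chi x) * z x ^ 2) := by positivity
    linarith
theorem hix1 (hW : WOK ν W) (hz : Bd z) : HI ν (fun x => z x * c.nu x) (c.x1 z) :=
  ⟨hz.int (c.int_nu hW), rfl⟩
theorem hixf (hz : Bd z) :
    HI ν (fun x => 2 * c.Λ ^ 2 * c.σ x ^ 2 * (pr.p (c.b x) * pr.p' (c.b x)) * z x) (c.xf z) :=
  ⟨(c.int_σ2 ((((c.bdb' pr.cp).mul (c.bdb' pr.cp')).mul hz).cmul (2 * c.Λ ^ 2))).congr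
    (ae_of_all _ fun x => by simp only []; ring), rfl⟩
theorem Z_nonneg (hz : Bd z) : 0 ≤ c.Z z := (c.hiZ hz).nonneg fun x =>
  mul_nonneg (c.chi_mem x).1 (sq_nonneg _)
theorem p'_le_chi (x : X) : pr.p' (c.b x) ≤ C0 / ε * c.chi x := by
  unfold chi; split_ifs with hx
  · simpa using pr.p'_le _ (c.b_mem x)
  · simp [pr.p'_zero _ (not_lt.1 hx)]
theorem p''_le_chi (x : X) : -pr.p'' (c.b x) ≤ C0 / ε ^ 2 * c.chi x := by
  unfold chi; split_ifs with hx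
  · simpa using pr.p''_le _ (c.b_mem x)
  · simp [pr.p''_zero _ (not_lt.1 hx)]
theorem σ_sq_le (x : X) : c.σ x ^ 2 ≤ 1 := by
  have := c.σ_mem x; nlinarith [this.1, this.2]

theorem gv_le (hW : WOK ν W) (h : Par ε δ) : ∫ x, ‖c.gb x - c.v x‖ ^ 2 ∂ν ≤ 6 * ε * c.Φ := by
  have h1 := (HI.of (int_normsq (c.gb2.sub c.v2))).mono
    ((HI.of (c.int_g2 (c.bdb' pr.cm'))).add ((c.hiI hW).cmul (16 * ε ^ 2))) fun x => by
      have e : c.gb x - c.v x = (1 - pr.B' (c.b x)) • c.gb x := by simp [v, sub_smul]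
      have h2 : (1 - pr.B' (c.b x)) ^ 2 ≤ pr.m' (c.b x) + 16 * ε ^ 2 := by
        have a1 := pr.B'_nonneg (c.b x)
        have a2 := pr.B'_le (c.b x)
        have a3 := pr.B'_one_le
        have a4 := pr.one_le_B'_one
        have a5 := h.ε_le
        have a6 := h.ε_pos
        rcases le_total (c.b x) (2 * ε) with hb | hb
        · rw [pr.m'_one _ ⟨(c.b_mem x).1, hb⟩]; nlinarith
        · have := pr.m'_nonneg (c.b x)
          rw [pr.B'_top _ hb]; nlinarith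
      simp only [Pi.sub_apply]
      rw [e, norm_smul, mul_pow, Real.norm_eq_abs, sq_abs]
      have := mul_le_mul_of_nonneg_right h2 (sq_nonneg ‖c.gb x‖)
      have : 0 ≤ ε ^ 2 * (W x * c.b x ^ 2) :=
        mul_nonneg (sq_nonneg _) (mul_nonneg (hW.nonneg x) (sq_nonneg _))
      nlinarith
  simp only [Pi.sub_apply] at h1
  have h2 := c.mg_le hW h.ε_pos
  have h3 := c.I_le_Φ h.ε_pos hW
  have h4 := c.Φ_nonneg h.ε_pos hW
  have h5 := h.ε_pos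
  have h6 := h.ε_le
  have : ε ^ 2 * c.I ≤ ε ^ 2 * c.Φ := by gcongr
  have : ε ^ 2 * c.Φ ≤ ε / 8 * c.Φ := by gcongr; nlinarith
  linarith

theorem Wbβ_le (hW : WOK ν W) (hε : 0 < ε) :
    ∫ x, W x * (c.b x - c.β x) ^ 2 ∂ν ≤ 4 * ε * c.Φ := by
  have h1 := (hW.hi (c.bd_b.sub c.bd_β).sq).mono ((hW.hi c.bd_b).cmul (4 * ε)) fun x => by
    have a1 := c.β_le x
    have a2 := (c.β_mem x).1
    have a3 : c.b x - c.β x ≤ 4 * ε := pr.sub_B_le _ (c.b_mem x)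
    have : (c.b x - c.β x) ^ 2 ≤ 4 * ε * c.b x := by nlinarith
    have := mul_le_mul_of_nonneg_left this (hW.nonneg x)
    linarith
  have := c.Wb_le hW hε
  nlinarith

theorem log_le (hW : WOK ν W) (h : Par ε δ) :
    ∫ x, pr.p' (c.b x) / c.P1 δ x * ‖c.gb x‖ ^ 2 ∂ν
      ≤ (Real.log (1 + δ) - Real.log δ) * c.Φ := by
  have hpos : ∀ s ∈ Icc (0 : ℝ) 1, pr.p s + δ ≠ 0 := fun s hs =>
    (add_pos_of_nonneg_of_pos (pr.p_nonneg h.ε_pos hs) h.δ_pos).ne'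
  have h1 := c.div1 hW (fun s => Real.log (pr.p s + δ) - Real.log (1 + δ))
    (fun s => pr.p' s / (pr.p s + δ))
    (fun s hs => (((pr.hp s).add_const δ).log (hpos s hs)).sub_const _)
    (pr.cp'.continuousOn.div (pr.cp.add continuous_const).continuousOn hpos)
  simp only [pr.p_one 1 (by linarith [h.ε_le]), sub_self, zero_mul] at h1
  have := (HI.of (c.int_g2 (c.bd_div h (c.bdb' pr.cp')))).mono
    (h1.add ((c.hiN hW).cmul (Real.log (1 + δ) - Real.log δ))) fun x => by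
      have a1 : Real.log δ ≤ Real.log (pr.p (c.b x) + δ) :=
        Real.log_le_log h.δ_pos (by linarith [pr.p_nonneg h.ε_pos (c.b_mem x)])
      have := mul_le_mul_of_nonneg_right a1 (c.N_nonneg h.ε_pos hW x)
      unfold P1; linarith
  linarith

theorem dp_le (hW : WOK ν W) (h : Par ε δ) :
    ∫ x, pr.p' (c.b x) / c.P1 δ x * c.dp δ x ^ 2 ∂ν ≤ 2 * ((Real.log (1 + δ) - Real.log δ) * c.Φ)
      + 2 * c.Φ + 2 * (δ * c.Λ ^ 2 * (C0 / ε)) * c.vol := by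
  have := (HI.of ((c.bd_div h (c.bdb' pr.cp')).int (c.dp2 (δ := δ)).integrable_sq)).mono
    ((((HI.of (c.int_g2 (c.bd_div h (c.bdb' pr.cp')))).cmul 2).add ((c.hiN hW).cmul 2)).add
      (c.hiChi.cmul (2 * (δ * c.Λ ^ 2 * (C0 / ε))))) fun x => by
      have hp := c.P1_pos h x
      have a1 := pr.p'_nonneg (c.b x)
      have a2 : c.dp δ x ^ 2 ≤ 2 * ‖c.gb x‖ ^ 2 + 2 * (c.Λ * c.P1 δ x * c.σ x) ^ 2 := by
        unfold dp; nlinarith [sq_nonneg (‖c.gb x‖ - c.Λ * c.P1 δ x * c.σ x)]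
      have a3 := mul_le_mul_of_nonneg_left a2 (div_nonneg a1 hp.le)
      have a4 : pr.p' (c.b x) / c.P1 δ x * (c.Λ * c.P1 δ x * c.σ x) ^ 2
          = c.Λ ^ 2 * c.σ x ^ 2 * (pr.p (c.b x) * pr.p' (c.b x))
            + δ * c.Λ ^ 2 * (c.σ x ^ 2 * pr.p' (c.b x)) := by
        field_simp; unfold P1; ring
      have a5 : c.σ x ^ 2 * pr.p' (c.b x) ≤ C0 / ε * c.chi x := by
        have := mul_le_mul_of_nonneg_right (c.σ_sq_le x) a1
        linarith [c.p'_le_chi x]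
      have a6 := mul_le_mul_of_nonneg_left a5 (mul_nonneg h.δ_pos.le (sq_nonneg c.Λ))
      have a7 := mul_nonneg (hW.nonneg x) (c.b_mem x).1
      unfold N; nlinarith
  unfold vol
  linarith [c.log_le hW h]

/-- L5. -/
theorem x1_sub_xf (hW : WOK ν W) (h : Par ε δ) (hz : 𝒟.D z 0 G) :
    (c.x1 z - c.xf z) ^ 2 ≤ 4 * (c.J δ z G * (6 * ε * c.Φ)
      + (∫ x, W x * z x ^ 2 ∂ν) * (4 * ε * c.Φ)
      + c.Dz δ z * (C0 * ε * (2 * ((Real.log (1 + δ) - Real.log δ) * c.Φ)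
        + 2 * c.Φ + 2 * (δ * c.Λ ^ 2 * (C0 / ε)) * c.vol))
      + c.Z z * ((δ * c.Λ ^ 2 * (C0 / ε)) ^ 2 * c.vol)) := by
  have bz := DClass.bd hz
  have i1 := HI.of (int_inner (c.w2 h hz) (c.gb2.sub c.v2))
  have i2 := hW.hi (bz.mul (c.bd_b.sub c.bd_β))
  have i3 := HI.of ((bz.mul (c.bd_div h (c.bdb' pr.cp'))).int
    (MemLp.integrable_mul (c.dm2 (δ := δ)) (c.dp2 (δ := δ))))
  have i4 := HI.of (c.int_σ2 ((bz.mul (c.bdb' pr.cp')).cmul (δ * c.Λ ^ 2)))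
  have e := ((c.hix1 hW bz).sub (c.hixf bz)).uniq
    ((((((c.ELt hW hz).sub (c.EL' hW hz)).add i1).add i2).add i3).add i4) fun x => by
      have hp := (c.P1_pos h x).ne'
      simp only [Pi.sub_apply, Pi.mul_apply, inner_sub_right]
      rw [inner_w, real_inner_comm (c.v x), inner_v_w, real_inner_comm (G x) (c.gb x)]
      simp only [N, dm, dp]
      field_simp
      unfold P1; ring
  have b1 := (c.hiJ h hz).cs (HI.of (int_normsq (c.gb2.sub c.v2))) i1 (fun _ => sq_nonneg _)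
    (fun _ => sq_nonneg _) fun x => inner_sq_le _ _
  have b2 := (hW.hi bz.sq).cs (hW.hi (c.bd_b.sub c.bd_β).sq) i2
    (fun x => mul_nonneg (hW.nonneg x) (sq_nonneg _))
    (fun x => mul_nonneg (hW.nonneg x) (sq_nonneg _)) fun x => le_of_eq (by ring)
  have hCε : 0 ≤ C0 * ε := by
    have := mul_nonneg pr.C0_nonneg (sq_nonneg ε)
    have e2 : C0 / ε * ε ^ 2 = C0 * ε := by field_simp [h.ε_pos.ne']
    linarith
  have b3 := (c.hiDz h bz).cs ((HI.of ((c.bd_div h (c.bdb' pr.cp')).int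
    (c.dp2 (δ := δ)).integrable_sq)).cmul (C0 * ε)) i3
    (fun x => by
      have := c.P1_pos h x
      have : 0 ≤ -pr.p'' (c.b x) := neg_nonneg.2 (pr.p''_nonpos _)
      positivity)
    (fun x => by
      have := c.P1_pos h x
      have := pr.p'_nonneg (c.b x)
      positivity)
    fun x => by
      have hp := c.P1_pos h x
      have a1 := pr.p'_nonneg (c.b x)
      have a2 := mul_le_mul_of_nonneg_right (pr.p'_le_p'' _ (c.b_mem x)) a1
      have a3 : 0 ≤ (z x * c.dm δ x * c.dp δ x / c.P1 δ x) ^ 2 := sq_nonneg _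
      have a4 := mul_le_mul_of_nonneg_right a2 a3
      simp only [Pi.mul_apply]
      calc _ = pr.p' (c.b x) * pr.p' (c.b x) * (z x * c.dm δ x * c.dp δ x / c.P1 δ x) ^ 2 := by
            field_simp
        _ ≤ _ := a4
        _ = _ := by field_simp
  have b4 := (c.hiZ bz).cs (c.hiChi.cmul ((δ * c.Λ ^ 2 * (C0 / ε)) ^ 2)) i4
    (fun x => mul_nonneg (c.chi_mem x).1 (sq_nonneg _))
    (fun x => mul_nonneg (sq_nonneg _) (c.chi_mem x).1) fun x => by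
      have a1 := pr.p'_nonneg (c.b x)
      have a5 : c.σ x ^ 2 * pr.p' (c.b x) ≤ C0 / ε * c.chi x := by
        have := mul_le_mul_of_nonneg_right (c.σ_sq_le x) a1
        linarith [c.p'_le_chi x]
      have a6 := mul_self_le_mul_self (by positivity) a5
      have a7 := mul_le_mul_of_nonneg_left a6 (sq_nonneg (δ * c.Λ ^ 2 * z x))
      calc _ = (δ * c.Λ ^ 2 * z x) ^ 2
            * (c.σ x ^ 2 * pr.p' (c.b x) * (c.σ x ^ 2 * pr.p' (c.b x))) := by ring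
        _ ≤ _ := a7
        _ = _ := by ring
  simp only [Pi.sub_apply] at b1 e
  have c1 := mul_le_mul_of_nonneg_left (c.gv_le hW h) (c.J_nonneg (δ := δ) (z := z) (G := G))
  have c2 := mul_le_mul_of_nonneg_left (c.Wbβ_le hW h.ε_pos)
    ((hW.hi bz.sq).nonneg fun x => mul_nonneg (hW.nonneg x) (sq_nonneg _))
  have c3 := mul_le_mul_of_nonneg_left (mul_le_mul_of_nonneg_left (c.dp_le hW h) hCε)
    (c.Dz_nonneg h bz)
  have key : ∀ d1 d2 d3 d4 : ℝ, (d1 + d2 + d3 + d4) ^ 2 ≤ 4 * (d1 ^ 2 + d2 ^ 2 + d3 ^ 2 + d4 ^ 2) :=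
    fun d1 d2 d3 d4 => by
      nlinarith [sq_nonneg (d1 - d2), sq_nonneg (d1 - d3), sq_nonneg (d1 - d4),
        sq_nonneg (d2 - d3), sq_nonneg (d2 - d4), sq_nonneg (d3 - d4)]
  rw [e, zero_mul, zero_mul, sub_self, zero_add]
  refine (key _ _ _ _).trans ?_
  unfold vol at *
  linarith

end Crit

namespace Neck
variable {𝒟 : DClass ν V} {a q τ₀ ω : ℝ} (nk : Neck 𝒟 a q τ₀ ω)

theorem dθ2 : MemLp nk.dθ 2 ν := 𝒟.memG nk.θ_D
theorem bd_θ : Bd nk.θ := DClass.bd nk.θ_D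
theorem hiFlux {h : X → ℝ} {k : ℝ} {G : X → V} (hh : 𝒟.D h k G) :
    HI ν (fun x => nk.θ x * ⟪nk.e x, G x⟫_ℝ + h x * ⟪nk.e x, nk.dθ x⟫_ℝ) (k * q) := by
  have : HI ν (fun x => ⟪nk.e x, nk.θ x • G x + h x • nk.dθ x⟫_ℝ) (k * q) :=
    ⟨int_inner nk.e_memLp ((nk.bd_θ.smul_memLp (𝒟.memG hh)).add
      ((DClass.bd hh).smul_memLp nk.dθ2)), nk.flux hh⟩
  exact this.congr fun x => by simp only [inner_add_right, inner_smul_right]
theorem int_edθ {u : X → ℝ} (hu : Bd u) :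
    Integrable (fun x => u x * ⟪nk.e x, nk.dθ x⟫_ℝ) ν := hu.int (int_inner nk.e_memLp nk.dθ2)
theorem edθ_sq (x : X) : ⟪nk.e x, nk.dθ x⟫_ℝ ^ 2 ≤ (ω * nk.W x) ^ 2 := by
  have := mul_le_mul (nk.e_le x) (nk.dθ_sq_le x) (sq_nonneg _) (nk.W_nonneg x)
  have := inner_sq_le (nk.e x) (nk.dθ x)
  nlinarith
theorem edθ_abs (hω : 0 ≤ ω) (x : X) : |⟪nk.e x, nk.dθ x⟫_ℝ| ≤ ω * nk.W x :=
  abs_le_of_sq_le_sq' (nk.edθ_sq x) (mul_nonneg hω (nk.W_nonneg x)) |> abs_le.2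
end Neck

namespace Crit
variable {𝒟 : DClass ν V} {a q τ₀ ω : ℝ} {nk : Neck 𝒟 a q τ₀ ω} {ε C0 : ℝ} {pr : Prof ε C0}
  (c : Crit 𝒟 nk.W pr) {δ : ℝ} {z : X → ℝ} {G : X → V}

def r1 (z : X → ℝ) : ℝ := ∫ x, c.β x * z x * ⟪nk.e x, nk.dθ x⟫_ℝ ∂ν
def r2 : ℝ := ∫ x, c.β x * c.β x * ⟪nk.e x, nk.dθ x⟫_ℝ ∂ν
def bb : ℝ := ∫ x, nk.W x * c.b x ^ 2 ∂ν
def xd (z : X → ℝ) : ℝ := ∫ x, (1 - nk.θ x) * z x * c.nu x ∂ν

theorem Wβ_le : ∫ x, nk.W x * c.β x ^ 2 ∂ν ≤ c.bb :=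
  (nk.wok.hi c.bd_β.sq).mono (nk.wok.hi c.bd_b.sq) fun x =>
    mul_le_mul_of_nonneg_left (pow_le_pow_left₀ (c.β_mem x).1 (c.β_le x) 2) (nk.W_nonneg x)

theorem r1_sq (hz : Bd z) : c.r1 z ^ 2 ≤ ω ^ 2 * c.bb * ∫ x, nk.W x * z x ^ 2 ∂ν := by
  have := ((nk.wok.hi c.bd_β.sq).cmul (ω ^ 2)).cs (nk.wok.hi hz.sq)
    (HI.of (nk.int_edθ (c.bd_β.mul hz)))
    (fun x => mul_nonneg (sq_nonneg _) (mul_nonneg (nk.W_nonneg x) (sq_nonneg _)))
    (fun x => mul_nonneg (nk.W_nonneg x) (sq_nonneg _)) fun x => by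
      have := mul_le_mul_of_nonneg_left (nk.edθ_sq x) (sq_nonneg (c.β x * z x))
      nlinarith
  refine this.trans (mul_le_mul_of_nonneg_right
    (mul_le_mul_of_nonneg_left c.Wβ_le (sq_nonneg _)) ?_)
  exact (nk.wok.hi hz.sq).nonneg fun x => mul_nonneg (nk.W_nonneg x) (sq_nonneg _)

theorem r2_abs (hω : 0 ≤ ω) : |c.r2| ≤ ω * c.bb := by
  have h0 := mul_le_mul_of_nonneg_left c.Wβ_le hω
  have h1 := (HI.of (nk.int_edθ (c.bd_β.mul c.bd_β))).mono ((nk.wok.hi c.bd_β.sq).cmul ω)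
    fun x => by
      have := mul_le_mul_of_nonneg_left (abs_le.1 (nk.edθ_abs hω x)).2 (mul_self_nonneg (c.β x))
      nlinarith
  have h2 := ((nk.wok.hi c.bd_β.sq).cmul (-ω)).mono (HI.of (nk.int_edθ (c.bd_β.mul c.bd_β)))
    fun x => by
      have := mul_le_mul_of_nonneg_left (abs_le.1 (nk.edθ_abs hω x)).1 (mul_self_nonneg (c.β x))
      nlinarith
  unfold r2; rw [abs_le]; constructor <;> linarith

theorem zero_of_lt {x : X} (hx : c.b x < ε) : c.β x = 0 ∧ c.v x = 0 ∧ c.chi x = 1 :=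
  ⟨pr.B_zero _ hx.le, by simp [v, pr.B'_zero _ hx.le], by simp [chi, hx]⟩

/-- L8: the projection inequality. -/
theorem proj (h : Par ε δ) (hz : 𝒟.D z 0 G) (u u' : ℝ) :
    -2 * u * c.x1 z - 2 * u' * c.r1 z - (u ^ 2 + u' ^ 2) * c.Qt - 2 * u * u' * (q - c.r2)
      ≤ c.H δ z G := by
  have hW := nk.wok
  have bz := DClass.bd hz
  have f1 := (nk.hiFlux (𝒟.mul c.β_D hz)).sub (HI.of (nk.int_edθ (c.bd_β.mul bz)))
  have f2 := (nk.hiFlux (𝒟.mul c.β_D c.β_D)).sub (HI.of (nk.int_edθ (c.bd_β.mul c.bd_β)))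
  have := ((((((c.ELt hW hz).sub (c.hix1 hW bz)).cmul (2 * u)).add (f1.cmul (2 * u'))).sub
    ((c.hiQt hW).cmul (u ^ 2 + u' ^ 2))).sub (f2.cmul (2 * u * u'))).mono (c.hiH hW h hz)
    fun x => by
      simp only [inner_add_right, inner_smul_right]
      by_cases hx : c.b x < ε
      · obtain ⟨e1, e2, e3⟩ := c.zero_of_lt hx
        simp [e1, e2, e3]
      · have e3 : c.chi x = 0 := by simp [chi, hx]
        rw [c.w_eq (not_lt.1 hx), e3]
        have p1 := sq_nonneg ‖G x - u • c.v x - (u' * c.β x * nk.θ x) • nk.e x‖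
        have p2 := sq_nonneg ‖((z x - u * c.β x) * nk.θ x) • nk.e x - u' • c.v x‖
        have hθ : nk.θ x ^ 2 * ‖nk.e x‖ ^ 2 ≤ nk.W x := by
          have := nk.θ_mem x
          have t1 : nk.θ x ^ 2 ≤ 1 := by nlinarith [this.1, this.2]
          have := mul_le_mul_of_nonneg_right t1 (sq_nonneg ‖nk.e x‖)
          linarith [nk.e_le x]
        have p3 := mul_le_mul_of_nonneg_right hθ (sq_nonneg (z x - u * c.β x))
        have p4 := mul_le_mul_of_nonneg_right hθ (sq_nonneg (u' * c.β x))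
        simp only [norm_sub_sq_real, inner_sub_left, inner_smul_left, inner_smul_right, norm_smul,
          mul_pow, Real.norm_eq_abs, sq_abs, RCLike.conj_to_real] at p1 p2 p4
        rw [real_inner_comm (c.v x) (G x), real_inner_comm (nk.e x) (G x),
          real_inner_comm (nk.e x) (c.v x)] at p1
        nlinarith
  unfold r1 r2
  linarith

/-- The Bogomolny bound for the total mass of `nu`. -/
theorem bogo {T : ℝ} (hT0 : 0 ≤ T) (hT : T < 1) :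
    Real.sqrt (1 - T ^ 2) * c.M ≤ c.Φt - T * (q - c.r2) := by
  have hW := nk.wok
  have hpos : ∀ s : ℝ, 0 < T ^ 2 * s ^ 2 + (1 - T ^ 2) := fun s => by
    have : 0 < 1 - T ^ 2 := by nlinarith
    positivity
  have hj : ∀ s : ℝ, 0 < Real.sqrt (T ^ 2 * s ^ 2 + (1 - T ^ 2)) := fun s =>
    Real.sqrt_pos.2 (hpos s)
  have hD := 𝒟.comp (fun s => Real.sqrt (T ^ 2 * s ^ 2 + (1 - T ^ 2)))
    (fun s => T ^ 2 * s / Real.sqrt (T ^ 2 * s ^ 2 + (1 - T ^ 2))) 0 1 c.β_D c.β_mem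
    ⟨zero_le_one, le_rfl⟩ (fun s _ => by
      have := ((((hasDerivAt_pow 2 s).const_mul (T ^ 2)).add_const (1 - T ^ 2)).sqrt (hpos s).ne')
      convert this using 1
      have := (hj s).ne'
      field_simp; ring)
    (ContinuousOn.div (by fun_prop) (by fun_prop) fun s _ => (hj s).ne')
  have e1 : Real.sqrt (T ^ 2 * 1 ^ 2 + (1 - T ^ 2)) = 1 := by simp
  have h1 := c.ELt hW hD
  simp only [e1, one_mul] at h1
  have f2 := (nk.hiFlux (𝒟.mul c.β_D c.β_D)).sub (HI.of (nk.int_edθ (c.bd_β.mul c.bd_β)))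
  have := (((c.hiM hW).cmul (Real.sqrt (1 - T ^ 2))).add (f2.cmul T)).mono h1 fun x => by
    set j := Real.sqrt (T ^ 2 * c.β x ^ 2 + (1 - T ^ 2)) with hjdef
    have j0 : 0 < j := hj _
    have a1 : Real.sqrt (1 - T ^ 2) ≤ j := Real.sqrt_le_sqrt (by nlinarith [sq_nonneg (T * c.β x)])
    have a2 := mul_le_mul_of_nonneg_right a1 (c.nu_nonneg hW x)
    have a3 := (le_abs_self _).trans (two_inner_le (T • c.v x) (nk.e x) (nk.θ x) j j0)
    have hθ : nk.θ x ^ 2 * ‖nk.e x‖ ^ 2 ≤ nk.W x := by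
      have := nk.θ_mem x
      have t1 : nk.θ x ^ 2 ≤ 1 := by nlinarith [this.1, this.2]
      have := mul_le_mul_of_nonneg_right t1 (sq_nonneg ‖nk.e x‖)
      linarith [nk.e_le x]
    have a4 := mul_le_mul_of_nonneg_left hθ j0.le
    rw [inner_smul_left, norm_smul, mul_pow, Real.norm_eq_abs, sq_abs, real_inner_comm] at a3
    simp only [RCLike.conj_to_real] at a3
    have a5 := mul_le_mul_of_nonneg_left (a3.trans (add_le_add_left a4 _)) (c.β_mem x).1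
    simp only [inner_add_right, inner_smul_right, real_inner_self_eq_norm_sq]
    have e2 : T ^ 2 * c.β x / j * ‖c.v x‖ ^ 2 = c.β x * (T ^ 2 * ‖c.v x‖ ^ 2 / j) := by ring
    rw [e2]; nlinarith
  unfold r2; linarith

theorem cacc : ∫ x, nk.θ₀ x ^ 2 * (‖c.v x‖ ^ 2 + nk.W x * c.β x ^ 2) ∂ν ≤ 4 * ω ^ 2 * c.bb := by
  have hW := nk.wok
  have h1 := c.ELt hW (𝒟.mul (𝒟.mul nk.θ₀_D nk.θ₀_D) c.β_D)
  have := (HI.of ((DClass.bd nk.θ₀_D).sq.int (c.hiQt hW).1)).mono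
    ((h1.cmul 2).add ((hW.hi c.bd_β.sq).cmul (4 * ω ^ 2))) fun x => by
      have a1 := (neg_le_abs _).trans
        (two_inner_le (c.β x • nk.dθ₀ x) (c.v x) (nk.θ₀ x) (1 / 2) (by norm_num))
      rw [inner_smul_left, norm_smul, mul_pow, Real.norm_eq_abs, sq_abs, real_inner_comm] at a1
      simp only [RCLike.conj_to_real] at a1
      have a2 := mul_le_mul_of_nonneg_left (nk.dθ₀_le x) (sq_nonneg (c.β x))
      have a3 : 0 ≤ nk.θ₀ x ^ 2 * (c.β x * c.nu x) :=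
        mul_nonneg (sq_nonneg _) (mul_nonneg (c.β_mem x).1 (c.nu_nonneg hW x))
      have a4 : 0 ≤ nk.θ₀ x ^ 2 * (nk.W x * c.β x ^ 2) :=
        mul_nonneg (sq_nonneg _) (mul_nonneg (nk.W_nonneg x) (sq_nonneg _))
      simp only [inner_add_right, inner_smul_right, real_inner_self_eq_norm_sq]
      nlinarith
  have := mul_le_mul_of_nonneg_left c.Wβ_le (by positivity : 0 ≤ 4 * ω ^ 2)
  linarith

theorem xd_sq (h : Par ε δ) (hz : 𝒟.D z 0 G) (hω0 : 0 ≤ ω) (hω : ω ≤ 1) :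
    c.xd z ^ 2 ≤ 16 * ω ^ 2 * c.bb * c.H δ z G := by
  have hW := nk.wok
  have bz := DClass.bd hz
  have b1 : Bd fun x => 1 - nk.θ x := (Bd.const 1).sub nk.bd_θ
  have h1 := c.ELt hW (𝒟.mul (𝒟.add (𝒟.const 1) (𝒟.smul (-1) nk.θ_D)) hz)
  have i1 := HI.of (b1.int ((int_inner c.v2 (𝒟.memG hz)).add (hW.hi (c.bd_β.mul bz)).1))
  have i2 := HI.of (bz.int (int_inner c.v2 nk.dθ2))
  have iC := HI.of ((DClass.bd nk.θ₀_D).sq.int (c.hiQt hW).1)
  have e := (HI.of ((b1.mul bz).int (c.int_nu hW))).uniq ((h1.sub i1).add i2) fun x => by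
    simp only [inner_add_right, inner_smul_right, inner_zero_right, Pi.add_apply]; ring
  have n1 : ∀ x, 0 ≤ ‖c.w δ z G x‖ ^ 2 + nk.W x * ((1 - c.chi x) * z x ^ 2) := fun x => by
    have := hW.nonneg x
    have : 0 ≤ 1 - c.chi x := sub_nonneg.2 (c.chi_mem x).2
    positivity
  have n2 : ∀ x, 0 ≤ nk.θ₀ x ^ 2 * (‖c.v x‖ ^ 2 + nk.W x * c.β x ^ 2) := fun x => by
    have := hW.nonneg x
    positivity
  have c1 := (c.hiH hW h hz).cs iC i1 n1 n2 fun x => by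
    by_cases hθ : nk.θ x = 1
    · simpa [hθ] using mul_nonneg (n1 x) (n2 x)
    by_cases hx : c.b x < ε
    · obtain ⟨e1, e2, e3⟩ := c.zero_of_lt hx
      simp [e1, e2]
    have e3 : c.chi x = 0 := by simp [chi, hx]
    rw [c.w_eq (not_lt.1 hx), e3, nk.θ₀_one x hθ]
    have a1 := (le_abs_self _).trans (two_inner_le (c.β x • G x) (c.v x) (z x) 1 one_pos)
    rw [inner_smul_left, norm_smul, mul_pow, Real.norm_eq_abs, sq_abs, real_inner_comm] at a1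
    simp only [RCLike.conj_to_real] at a1
    have a2 := mul_le_mul_of_nonneg_left a1 (hW.nonneg x)
    have a3 := inner_sq_le (c.v x) (G x)
    have a4 : (1 - nk.θ x) ^ 2 ≤ 1 := by have := nk.θ_mem x; nlinarith [this.1, this.2]
    have a5 := mul_le_mul_of_nonneg_right a4
      (sq_nonneg (⟪c.v x, G x⟫_ℝ + nk.W x * (c.β x * z x)))
    simp only [Pi.add_apply]
    nlinarith
  have c2 := (c.hiH hW h hz).cs iC i2 n1 n2 fun x => by
    by_cases hθ : nk.θ x = 1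
    · have : ‖nk.dθ x‖ ^ 2 ≤ 0 := by simpa [hθ] using nk.dθ_le x
      have : nk.dθ x = 0 := by simpa using le_antisymm this (sq_nonneg _)
      simpa [this] using mul_nonneg (n1 x) (n2 x)
    by_cases hx : c.b x < ε
    · obtain ⟨e1, e2, e3⟩ := c.zero_of_lt hx
      simp [e1, e2]
    have e3 : c.chi x = 0 := by simp [chi, hx]
    rw [c.w_eq (not_lt.1 hx), e3, nk.θ₀_one x hθ]
    have a1 := inner_sq_le (c.v x) (nk.dθ x)
    have a0 := hW.nonneg x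
    have a2 : ‖nk.dθ x‖ ^ 2 ≤ nk.W x := by
      have := nk.dθ_sq_le x
      have : ω ^ 2 * nk.W x ≤ 1 * nk.W x := mul_le_mul_of_nonneg_right (by nlinarith) a0
      linarith
    have a3 := mul_le_mul_of_nonneg_left
      (a1.trans (mul_le_mul_of_nonneg_left a2 (sq_nonneg _))) (sq_nonneg (z x))
    have : 0 ≤ ‖G x‖ ^ 2 * (‖c.v x‖ ^ 2 + nk.W x * c.β x ^ 2) := by positivity
    have : 0 ≤ nk.W x * z x ^ 2 * (nk.W x * c.β x ^ 2) := by positivity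
    nlinarith
  have hH := (c.hiH hW h hz).nonneg n1
  have c3 := mul_le_mul_of_nonneg_left c.cacc hH
  unfold xd; rw [e]
  simp only [mul_zero, zero_mul, zero_sub]
  have key : ∀ d1 d2 : ℝ, (-d1 + d2) ^ 2 ≤ 2 * d1 ^ 2 + 2 * d2 ^ 2 := fun d1 d2 => by
    nlinarith [sq_nonneg (d1 + d2)]
  refine (key _ _).trans ?_
  linarith

end Crit
end Crest.Agent.N346.P2
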