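import Crest.Agent.N346.P2.Core2

/-! Row 346, P2, main estimate, part 3: pairs; the lower bound for `K₀` (L4) and the bound for
the antisymmetric part (L6). -/

set_option autoImplicit false
set_option linter.unusedSectionVars false
open MeasureTheory Set
open scoped InnerProductSpace

noncomputable section
namespace Crest.Agent.N346.P2

variable {X : Type} [MeasurableSpace X] {V : Type} [NormedAddCommGroup V] [InnerProductSpace ℝ V]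
  {ν : Measure X}

theorem int_smul {u : X → ℝ} {G : X → V} (hu : MemLp u 2 ν) (hG : MemLp G 2 ν) :
    Integrable (fun x => u x • G x) ν :=
  (MemLp.integrable_mul hu.norm hG.norm).mono' (hu.1.smul hG.1)
    (ae_of_all _ fun x => by simp [norm_smul])

theorem Bd.smul_int {u : X → ℝ} {G : X → V} (hu : Bd u) (hG : Integrable G ν) :
    Integrable (fun x => u x • G x) ν :=
  (hu.abs.int hG.norm).mono' (hu.1.aestronglyMeasurable.smul hG.1)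
    (ae_of_all _ fun x => by simp [norm_smul])

/-- a bundled admissible pair -/
structure Pair (𝒟 : DClass ν V) (ρ : X → ℝ) where
  t : ℝ
  Y₁ : X → ℝ
  Y₂ : X → ℝ
  G₁ : X → V
  G₂ : X → V
  is : IsPair 𝒟 ρ t Y₁ Y₂ G₁ G₂
  ht : t = 0 ∨ t = 1

namespace Pair
variable {𝒟 : DClass ν V} {ρ : X → ℝ} (P : Pair 𝒟 ρ)
theorem t_sq : P.t ^ 2 = P.t := by rcases P.ht with h | h <;> simp [h]
theorem t_nonneg : 0 ≤ P.t := by rcases P.ht with h | h <;> simp [h]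
theorem t_le : P.t ≤ 1 := by rcases P.ht with h | h <;> simp [h]
def Yp (x : X) : ℝ := 1 / 2 * P.Y₁ x + 1 / 2 * P.Y₂ x
def Ym (x : X) : ℝ := 1 / 2 * P.Y₁ x + -(1 / 2) * P.Y₂ x
def Gp (x : X) : V := (1 / 2 : ℝ) • P.G₁ x + (1 / 2 : ℝ) • P.G₂ x
def Gm (x : X) : V := (1 / 2 : ℝ) • P.G₁ x + (-(1 / 2) : ℝ) • P.G₂ x
theorem Yp_D : 𝒟.D P.Yp (P.t / 2) P.Gp := by
  have := 𝒟.add (𝒟.smul (1 / 2) P.is.d₁) (𝒟.smul (1 / 2) P.is.d₂)
  rwa [show 1 / 2 * P.t + 1 / 2 * 0 = P.t / 2 by ring] at this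
theorem Ym_D : 𝒟.D P.Ym (P.t / 2) P.Gm := by
  have := 𝒟.add (𝒟.smul (1 / 2) P.is.d₁) (𝒟.smul (-(1 / 2)) P.is.d₂)
  rwa [show 1 / 2 * P.t + -(1 / 2) * 0 = P.t / 2 by ring] at this
theorem Ym_sq_le (x : X) : P.Ym x ^ 2 ≤ P.Yp x ^ 2 := by
  have := mul_nonneg (P.is.nn₁ x) (P.is.nn₂ x)
  unfold Ym Yp; nlinarith
theorem bd_sq : Bd fun x => P.Y₁ x ^ 2 + P.Y₂ x ^ 2 :=
  (DClass.bd P.is.d₁).sq.add (DClass.bd P.is.d₂).sq
/-- `S = ∫ W (Y₁² + Y₂²)` -/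
def S (W : X → ℝ) : ℝ := ∫ x, W x * (P.Y₁ x ^ 2 + P.Y₂ x ^ 2) ∂ν
theorem hiS {W : X → ℝ} (hW : WOK ν W) :
    HI ν (fun x => W x * (P.Y₁ x ^ 2 + P.Y₂ x ^ 2)) (P.S W) := hW.hi P.bd_sq
theorem S_nonneg {W : X → ℝ} (hW : WOK ν W) : 0 ≤ P.S W :=
  (P.hiS hW).nonneg fun x => mul_nonneg (hW.nonneg x) (by positivity)
end Pair

namespace Crit
variable {𝒟 : DClass ν V} {a q τ₀ ω : ℝ} {nk : Neck 𝒟 a q τ₀ ω} {ε C0 : ℝ} {pr : Prof ε C0}
  (c : Crit 𝒟 nk.W pr) (P : Pair 𝒟 nk.ρ) {δ : ℝ}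

def zf (x : X) : ℝ := P.Yp x + -(P.t / 2) * c.β x
def Gz (x : X) : V := P.Gp x + (-(P.t / 2)) • c.v x
def ξf (x : X) : ℝ := P.Ym x + -(P.t / 2) * c.β x
def Gξ (x : X) : V := P.Gm x + (-(P.t / 2)) • c.v x
theorem z_D : 𝒟.D (c.zf P) 0 (c.Gz P) := by
  have := 𝒟.add P.Yp_D (𝒟.smul (-(P.t / 2)) c.β_D)
  rwa [show P.t / 2 + -(P.t / 2) * 1 = 0 by ring] at this
theorem ξ_D : 𝒟.D (c.ξf P) 0 (c.Gξ P) := by
  have := 𝒟.add P.Ym_D (𝒟.smul (-(P.t / 2)) c.β_D)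
  rwa [show P.t / 2 + -(P.t / 2) * 1 = 0 by ring] at this
theorem G₁_eq (x : X) : P.G₁ x = c.Gz P x + c.Gξ P x + P.t • c.v x := by
  simp only [Gz, Gξ, Pair.Gp, Pair.Gm]; module
theorem G₂_eq (x : X) : P.G₂ x = c.Gz P x - c.Gξ P x := by
  simp only [Gz, Gξ, Pair.Gp, Pair.Gm]; module
theorem Y₁_eq (x : X) : P.Y₁ x = c.zf P x + c.ξf P x + P.t * c.β x := by
  simp only [zf, ξf, Pair.Yp, Pair.Ym]; ring
theorem Y₂_eq (x : X) : P.Y₂ x = c.zf P x - c.ξf P x := by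
  simp only [zf, ξf, Pair.Yp, Pair.Ym]; ring
theorem normsq_G (x : X) : ‖P.G₁ x‖ ^ 2 + ‖P.G₂ x‖ ^ 2 = 2 * ‖c.Gz P x‖ ^ 2 + 2 * ‖c.Gξ P x‖ ^ 2
    + 2 * P.t * ⟪c.v x, c.Gz P x⟫_ℝ + 2 * P.t * ⟪c.v x, c.Gξ P x⟫_ℝ + P.t * ‖c.v x‖ ^ 2 := by
  rw [c.G₁_eq P x, c.G₂_eq P x]
  simp only [norm_add_sq_real, norm_sub_sq_real, inner_add_right, inner_smul_right, norm_smul,
    mul_pow, Real.norm_eq_abs, sq_abs, P.t_sq, real_inner_comm (c.v x)]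
  ring

def Qξ : ℝ := ∫ x, (‖c.Gξ P x‖ ^ 2 + nk.W x * c.ξf P x ^ 2) ∂ν
def Fm : ℝ := ∫ x, c.f x ^ 2 * P.Ym x ^ 2 ∂ν
def Nm : ℝ := ∫ x, P.Ym x ^ 2 * c.nu x ∂ν
def K0 : ℝ := ∫ x, (‖P.G₁ x‖ ^ 2 + ‖P.G₂ x‖ ^ 2
  + (nk.ρ x + (c.f x + nk.P x) ^ 2) * (P.Y₁ x ^ 2 + P.Y₂ x ^ 2)
  - 2 * ‖c.df x + nk.dP x‖ * P.Y₁ x * P.Y₂ x) ∂ν

theorem hiQξ : HI ν (fun x => ‖c.Gξ P x‖ ^ 2 + nk.W x * c.ξf P x ^ 2) (c.Qξ P) :=
  ⟨(int_normsq (𝒟.memG (c.ξ_D P))).add (nk.wok.hi (DClass.bd (c.ξ_D P)).sq).1, rfl⟩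
theorem Qξ_nonneg : 0 ≤ c.Qξ P := (c.hiQξ P).nonneg fun x => by
  have := nk.W_nonneg x; positivity
theorem bd_f : Bd c.f := (c.bd_σ.cmul c.Λ).mul (c.bdb' pr.cp')
theorem f_nonneg (x : X) : 0 ≤ c.f x :=
  mul_nonneg (mul_nonneg c.Λ_pos.le (c.σ_mem x).1) (pr.p'_nonneg _)
theorem int_f : Integrable c.f ν :=
  (((c.bdb' pr.cp').cmul c.Λ).int c.σ_int).congr (ae_of_all _ fun x => by simp only [f]; ring)
theorem int_df : Integrable c.df ν := by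
  have h1 : MemLp (fun x => c.Λ * c.σ x * pr.p'' (c.b x)) 2 ν :=
    ((c.bd_σ.cmul c.Λ).mul (c.bdb' pr.cp'')).memLp_two
      ((((c.bdb' pr.cp'').cmul c.Λ).int c.σ_int).congr (ae_of_all _ fun x => by simp only []; ring))
  exact (int_smul h1 c.gb2).add (((c.bdb' pr.cp').cmul c.Λ).smul_int c.dσ_int)
theorem hiFm : HI ν (fun x => c.f x ^ 2 * P.Ym x ^ 2) (c.Fm P) :=
  ⟨((c.bd_f.mul (DClass.bd P.Ym_D).sq).int c.int_f).congr
    (ae_of_all _ fun x => by simp only []; ring), rfl⟩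
theorem Fm_nonneg : 0 ≤ c.Fm P := (c.hiFm P).nonneg fun x => by positivity
theorem hiNm : HI ν (fun x => P.Ym x ^ 2 * c.nu x) (c.Nm P) :=
  ⟨(DClass.bd P.Ym_D).sq.int (c.int_nu nk.wok), rfl⟩
theorem hiK0 : HI ν (fun x => ‖P.G₁ x‖ ^ 2 + ‖P.G₂ x‖ ^ 2
    + (nk.ρ x + (c.f x + nk.P x) ^ 2) * (P.Y₁ x ^ 2 + P.Y₂ x ^ 2)
    - 2 * ‖c.df x + nk.dP x‖ * P.Y₁ x * P.Y₂ x) (c.K0 P) := by
  refine ⟨?_, rfl⟩
  have h1 := ((c.bd_f.add (DClass.bd nk.P_D)).mul P.bd_sq).int (c.int_f.add nk.P_int)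
  have h2 := (((DClass.bd P.is.d₁).mul (DClass.bd P.is.d₂)).cmul 2).int
    (c.int_df.add nk.dP_int).norm
  exact (((((int_normsq (𝒟.memG P.is.d₁)).add (int_normsq (𝒟.memG P.is.d₂))).add P.is.int).add
    h1).sub h2).congr (ae_of_all _ fun x => by simp only [Pi.add_apply, Pi.sub_apply]; ring)

theorem hiStab {z : X → ℝ} {G : X → V} (hz : 𝒟.D z 0 G) :
    Integrable (fun x => ‖G x‖ ^ 2 + nk.W x * z x ^ 2 + c.Λ ^ 2 * c.σ x ^ 2 *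
      (pr.p' (c.b x) ^ 2 + pr.p (c.b x) * pr.p'' (c.b x)) * z x ^ 2) ν := by
  have bz := DClass.bd hz
  have h1 := c.int_σ2 ((((c.bdb' pr.cp').sq.add ((c.bdb' pr.cp).mul (c.bdb' pr.cp''))).mul
    bz.sq).cmul (c.Λ ^ 2))
  exact (((int_normsq (𝒟.memG hz)).add (nk.wok.hi bz.sq).1).add h1).congr
    (ae_of_all _ fun x => by simp only [Pi.add_apply]; ring)

theorem ptD {ℓ : ℝ} (hℓ : ∀ x, ‖c.dσ x‖ ≤ ℓ) (x : X) :
    2 * c.f x ^ 2 * c.zf P x ^ 2 + 2 * (c.f x ^ 2 * P.Ym x ^ 2)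
      - 2 * (c.Λ * c.σ x * -pr.p'' (c.b x) * ‖c.gb x‖) * c.zf P x ^ 2
      - 2 * (c.Λ * (C0 / ε) * ℓ) * (c.chi x * c.zf P x ^ 2)
    ≤ c.f x ^ 2 * (P.Y₁ x ^ 2 + P.Y₂ x ^ 2) - 2 * ‖c.df x‖ * P.Y₁ x * P.Y₂ x := by
  by_cases hx : c.b x < ε
  · obtain ⟨e1, e2, e3⟩ := c.zero_of_lt hx
    have y1 : P.Y₁ x = c.zf P x + P.Ym x := by simp only [zf, e1, Pair.Yp, Pair.Ym]; ring
    have y2 : P.Y₂ x = c.zf P x - P.Ym x := by simp only [zf, e1, Pair.Yp, Pair.Ym]; ring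
    have hΛ := c.Λ_pos.le
    have hσ := (c.σ_mem x).1
    have hp := pr.p'_nonneg (c.b x)
    have hq : 0 ≤ -pr.p'' (c.b x) := neg_nonneg.2 (pr.p''_nonpos _)
    have a1 : ‖c.df x‖ ≤ c.Λ * c.σ x * -pr.p'' (c.b x) * ‖c.gb x‖ + c.Λ * (C0 / ε) * ℓ := by
      refine (norm_add_le _ _).trans (add_le_add (le_of_eq ?_) ?_)
      · rw [norm_smul, Real.norm_eq_abs, ← abs_neg, abs_of_nonneg] <;> [ring; skip]
        have : 0 ≤ c.Λ * c.σ x * -pr.p'' (c.b x) := by positivity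
        linarith
      · rw [norm_smul, Real.norm_eq_abs, abs_of_nonneg (by positivity)]
        exact mul_le_mul (mul_le_mul_of_nonneg_left (pr.p'_le _ (c.b_mem x)) hΛ) (hℓ x)
          (norm_nonneg _) (mul_nonneg hΛ pr.C0_nonneg)
    have a2 := mul_le_mul_of_nonneg_right a1 (sq_nonneg (c.zf P x))
    have a3 := mul_nonneg (norm_nonneg (c.df x)) (sq_nonneg (P.Ym x))
    rw [y1, y2, e3]; nlinarith
  · simp [f, df, chi, hx, pr.p'_zero _ (not_lt.1 hx), pr.p''_zero _ (not_lt.1 hx)]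

theorem ptE (h : Par ε δ) (z : ℝ) (x : X) :
    c.Λ ^ 2 * c.σ x ^ 2 * (pr.p' (c.b x) ^ 2 + pr.p (c.b x) * pr.p'' (c.b x)) * z ^ 2
      + z ^ 2 * (pr.p'' (c.b x) * ‖c.gb x‖ ^ 2 + pr.p' (c.b x) * c.N x) / c.P1 δ x
      + nk.W x * ((1 - c.chi x) * z ^ 2) + -pr.p'' (c.b x) / c.P1 δ x * z ^ 2 * c.dm δ x ^ 2
      - δ * c.Λ ^ 2 * (C0 / ε ^ 2) * (c.chi x * z ^ 2)
    ≤ 2 * c.f x ^ 2 * z ^ 2 - 2 * (c.Λ * c.σ x * -pr.p'' (c.b x) * ‖c.gb x‖) * z ^ 2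
      + nk.W x * z ^ 2 := by
  have hp := c.P1_pos h x
  have a1 : 0 ≤ c.f x ^ 2 * (δ / c.P1 δ x) := by have := h.δ_pos; positivity
  have a2 : 0 ≤ nk.W x * (c.chi x - c.b x * pr.p' (c.b x) / c.P1 δ x) := by
    refine mul_nonneg (nk.W_nonneg x) ?_
    unfold chi; split_ifs with hx
    · rw [sub_nonneg, div_le_one hp]
      have := pr.mul_p'_le _ (c.b_mem x); have := h.δ_pos; unfold P1; linarith
    · simp [pr.p'_zero _ (not_lt.1 hx)]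
  have a3 : 0 ≤ δ * c.Λ ^ 2 * (C0 / ε ^ 2 * c.chi x - c.σ x ^ 2 * -pr.p'' (c.b x)) := by
    refine mul_nonneg (mul_nonneg h.δ_pos.le (sq_nonneg _)) ?_
    have := mul_le_mul_of_nonneg_right (c.σ_sq_le x) (neg_nonneg.2 (pr.p''_nonpos (c.b x)))
    linarith [c.p''_le_chi x]
  have a4 := mul_nonneg (add_nonneg (add_nonneg a1 a2) a3) (sq_nonneg z)
  rw [← sub_nonneg]
  refine a4.trans (le_of_eq ?_)
  have hp' := hp.ne'
  simp only [f, N, dm]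
  field_simp
  unfold P1; ring

/-- L4. -/
theorem K0_ge (h : Par ε δ) {ℓ k : ℝ} (hℓ : ∀ x, ‖c.dσ x‖ ≤ ℓ) (hS : c.Stab k) :
    -k * c.xf (c.zf P) ^ 2 + c.H δ (c.zf P) (c.Gz P) + c.Dz δ (c.zf P)
      - 2 * P.t * c.x1 (c.zf P) + P.t * c.Qt + 2 * c.Qξ P + 2 * c.Fm P
      - 2 * P.t * (∫ x, |P.Ym x| * c.nu x ∂ν) + (a + τ₀) * P.S nk.W
      - (δ * c.Λ ^ 2 * (C0 / ε ^ 2) + 2 * (c.Λ * (C0 / ε) * ℓ)) * c.Z (c.zf P) ≤ c.K0 P := by
  have hW := nk.wok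
  have hz := c.z_D P
  have bz := DClass.bd hz
  have h0 := hS hz
  have H1 := (c.barta hW h hz).add ((c.hiH hW h hz).sub (c.hiJ h hz))
  have := (((((((((((HI.of (c.hiStab hz)).add H1).add (c.hiDz h bz)).sub
    ((c.hix1 hW bz).cmul (2 * P.t))).add ((c.hiQt hW).cmul P.t)).add ((c.hiQξ P).cmul 2)).add
    ((c.hiFm P).cmul 2)).sub ((HI.of ((DClass.bd P.Ym_D).abs.int (c.int_nu hW))).cmul
    (2 * P.t))).add ((P.hiS hW).cmul (a + τ₀))).sub ((c.hiZ bz).cmul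
    (δ * c.Λ ^ 2 * (C0 / ε ^ 2) + 2 * (c.Λ * (C0 / ε) * ℓ)))).add
    (((c.ELt hW hz).add (c.ELt hW (c.ξ_D P))).cmul (2 * P.t))).mono (c.hiK0 P) fun x => by
      have aA := c.normsq_G P x
      have aB : nk.W x * (P.Y₁ x ^ 2 + P.Y₂ x ^ 2) = nk.W x * (2 * c.zf P x ^ 2 + 2 * c.ξf P x ^ 2
          + 2 * P.t * c.β x * (c.zf P x + c.ξf P x) + P.t * c.β x ^ 2) := by
        rw [c.Y₁_eq P x, c.Y₂_eq P x]
        linear_combination (nk.W x * c.β x ^ 2) * P.t_sq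
      have y1 := P.is.nn₁ x
      have y2 := P.is.nn₂ x
      have aC : (1 + a + τ₀) * (nk.W x * (P.Y₁ x ^ 2 + P.Y₂ x ^ 2))
          + (c.f x ^ 2 * (P.Y₁ x ^ 2 + P.Y₂ x ^ 2) - 2 * ‖c.df x‖ * P.Y₁ x * P.Y₂ x)
          ≤ (nk.ρ x + (c.f x + nk.P x) ^ 2) * (P.Y₁ x ^ 2 + P.Y₂ x ^ 2)
            - 2 * ‖c.df x + nk.dP x‖ * P.Y₁ x * P.Y₂ x := by
        have s0 : 0 ≤ P.Y₁ x ^ 2 + P.Y₂ x ^ 2 := by positivity
        have b1 := mul_le_mul_of_nonneg_right (nk.curv x) s0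
        have b2 := mul_le_mul_of_nonneg_right (norm_add_le (c.df x) (nk.dP x))
          (mul_nonneg y1 y2)
        have b3 := mul_nonneg (norm_nonneg (nk.dP x)) (sq_nonneg (P.Y₁ x - P.Y₂ x))
        have b4 := mul_nonneg (mul_nonneg (c.f_nonneg x) (nk.P_nonneg x)) s0
        nlinarith
      have aD := c.ptD P hℓ x
      have aE := c.ptE h (c.zf P x) x
      have aF : P.t * (c.ξf P x * c.nu x) ≤ P.t * (|P.Ym x| * c.nu x) := by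
        refine mul_le_mul_of_nonneg_left
          (mul_le_mul_of_nonneg_right ?_ (c.nu_nonneg hW x)) P.t_nonneg
        have := mul_nonneg P.t_nonneg (c.β_mem x).1
        have := le_abs_self (P.Ym x)
        unfold ξf; linarith
      linarith
  simp only [zero_mul, add_zero, mul_zero] at this
  linarith

theorem Mm_le (h : Par ε δ) {r : ℝ} (hr : 0 < r) :
    ∫ x, c.Λ ^ 2 * (pr.p (c.b x) * pr.p' (c.b x) * P.Ym x ^ 2) * c.σ x ^ 2 ∂ν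
      ≤ r * c.Fm P + 64 * ε / r * c.J δ (c.zf P) (c.Gz P) + C0 * ε * c.Dz δ (c.zf P) := by
  have hW := nk.wok
  have hz := c.z_D P
  have bz := DClass.bd hz
  have hCε : 0 ≤ C0 * ε := by
    have := mul_nonneg pr.C0_nonneg (sq_nonneg ε)
    have e2 : C0 / ε * ε ^ 2 = C0 * ε := by field_simp [h.ε_pos.ne']
    linarith
  have := (HI.of (c.int_σ2 ((((c.bdb' pr.cp).mul (c.bdb' pr.cp')).mul
    (DClass.bd P.Ym_D).sq).cmul (c.Λ ^ 2)))).mono ((((c.hiFm P).cmul r).add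
    ((HI.of (c.int_g2 ((c.bdb' pr.cm').mul bz.sq))).cmul (1 / r))).add
    ((c.hiDz h bz).cmul (C0 * ε))) fun x => by
      have hp := c.P1_pos h x
      have hq : 0 ≤ -pr.p'' (c.b x) := neg_nonneg.2 (pr.p''_nonpos _)
      have hp' := pr.p'_nonneg (c.b x)
      by_cases hx : c.b x < ε
      · obtain ⟨e1, e2, e3⟩ := c.zero_of_lt hx
        have y1 : P.Ym x ^ 2 ≤ c.zf P x ^ 2 := by simpa [zf, e1] using P.Ym_sq_le x
        rw [pr.m'_one _ ⟨(c.b_mem x).1, by linarith [h.ε_pos]⟩]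
        have a1 : 2 * (c.f x * ‖c.gb x‖) ≤ r * c.f x ^ 2 + 1 / r * ‖c.gb x‖ ^ 2 := by
          have : r * c.f x ^ 2 + 1 / r * ‖c.gb x‖ ^ 2 - 2 * (c.f x * ‖c.gb x‖)
            = (r * c.f x - ‖c.gb x‖) ^ 2 / r := by field_simp; ring
          have : 0 ≤ (r * c.f x - ‖c.gb x‖) ^ 2 / r := by positivity
          linarith
        have a2 : c.Λ ^ 2 * c.σ x ^ 2 * pr.p' (c.b x) * c.P1 δ x
            ≤ 2 * (c.f x * ‖c.gb x‖) + pr.p' (c.b x) * (c.dm δ x ^ 2 / c.P1 δ x) := by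
          have : 2 * (c.f x * ‖c.gb x‖) + pr.p' (c.b x) * (c.dm δ x ^ 2 / c.P1 δ x)
              - c.Λ ^ 2 * c.σ x ^ 2 * pr.p' (c.b x) * c.P1 δ x
              = pr.p' (c.b x) * (‖c.gb x‖ ^ 2 / c.P1 δ x) := by
            simp only [f, dm]; field_simp; ring
          have : 0 ≤ pr.p' (c.b x) * (‖c.gb x‖ ^ 2 / c.P1 δ x) := by positivity
          linarith
        have a3 := mul_le_mul_of_nonneg_right (pr.p'_le_p'' _ (c.b_mem x))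
          (by positivity : 0 ≤ c.dm δ x ^ 2 / c.P1 δ x)
        have a4 : c.Λ ^ 2 * c.σ x ^ 2 * pr.p' (c.b x) * pr.p (c.b x)
            ≤ c.Λ ^ 2 * c.σ x ^ 2 * pr.p' (c.b x) * c.P1 δ x :=
          mul_le_mul_of_nonneg_left (by unfold P1; linarith [h.δ_pos]) (by positivity)
        have a5 := mul_le_mul_of_nonneg_right
          (a4.trans (a2.trans (add_le_add a1 a3))) (sq_nonneg (P.Ym x))
        have a6 := mul_le_mul_of_nonneg_left y1 (by positivity : 0 ≤ 1 / r * ‖c.gb x‖ ^ 2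
          + C0 * ε * -pr.p'' (c.b x) * (c.dm δ x ^ 2 / c.P1 δ x))
        have e4 : -pr.p'' (c.b x) / c.P1 δ x * c.zf P x ^ 2 * c.dm δ x ^ 2
          = -pr.p'' (c.b x) * (c.dm δ x ^ 2 / c.P1 δ x) * c.zf P x ^ 2 := by ring
        rw [e4]; nlinarith
      · have := pr.m'_nonneg (c.b x)
        rw [pr.p'_zero _ (not_lt.1 hx)]
        simp only [mul_zero, zero_mul]
        positivity
  have h2 := mul_le_mul_of_nonneg_left (c.zg_le hW h hz) (by positivity : 0 ≤ 1 / r)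
  have e : 1 / r * (64 * ε * c.J δ (c.zf P) (c.Gz P)) = 64 * ε / r * c.J δ (c.zf P) (c.Gz P) := by
    ring
  linarith

theorem Yp_sq_le (x : X) : P.Yp x ^ 2 ≤ 2 * c.zf P x ^ 2 + P.t / 2 * c.β x ^ 2 := by
  have e : P.Yp x = c.zf P x + P.t / 2 * c.β x := by unfold zf; ring
  have := P.t_sq
  rw [e]; nlinarith [sq_nonneg (c.zf P x - P.t / 2 * c.β x), sq_nonneg (c.β x)]

/-- L6. -/
theorem Nm_le (h : Par ε δ) {r : ℝ} (hr : 0 < r) :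
    c.Nm P ≤ 3 / 2 * (r * c.Fm P + 64 * ε / r * c.J δ (c.zf P) (c.Gz P) + C0 * ε * c.Dz δ (c.zf P))
      + 4 * ε * P.S nk.W + 3 / 2 * r * (2 * c.Qξ P + P.t / 2 * c.Qt)
      + 3 / 2 / r * (128 * ε * c.J δ (c.zf P) (c.Gz P) + 2 * P.t * ε * c.Φ) := by
  have hW := nk.wok
  have hz := c.z_D P
  have bz := DClass.bd hz
  have h1 := c.div hW (𝒟.mul P.Ym_D P.Ym_D) (fun s => pr.B' s - pr.B' 1) pr.B''
    (fun s _ => (pr.hB' s).sub_const _) pr.cB''.continuousOn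
  simp only [sub_self, mul_zero, zero_mul] at h1
  have := (c.hiNm P).mono ((((h1.add ((HI.of (c.int_σ2 ((((c.bdb' pr.cp).mul (c.bdb' pr.cp')).mul
    (DClass.bd P.Ym_D).sq).cmul (c.Λ ^ 2)))).cmul (3 / 2))).add ((P.hiS hW).cmul (4 * ε))).add
    ((((c.hiQξ P).cmul 2).add ((c.hiQt hW).cmul (P.t / 2))).cmul (3 / 2 * r))).add
    ((((HI.of (c.int_g2 ((c.bdb' pr.cm').mul bz.sq))).cmul 2).add
      ((HI.of (c.int_g2 (c.bdb' pr.cm'))).cmul (P.t / 2))).cmul (3 / 2 / r))) fun x => by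
      have hw := hW.nonneg x
      have ht := P.t_nonneg
      have hε := h.ε_pos
      have hp := pr.p_nonneg hε (c.b_mem x)
      have hp' := pr.p'_nonneg (c.b x)
      have hm' := pr.m'_nonneg (c.b x)
      have s1 : 2 * P.Ym x ^ 2 ≤ P.Y₁ x ^ 2 + P.Y₂ x ^ 2 := by
        unfold Pair.Ym; nlinarith [sq_nonneg (P.Y₁ x + P.Y₂ x)]
      have s2 := mul_le_mul_of_nonneg_left s1 (mul_nonneg hε.le hw)
      have s3 := mul_le_mul_of_nonneg_left (pr.tang_le _ (c.b_mem x))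
        (mul_nonneg hw (sq_nonneg (P.Ym x)))
      have s4 : 0 ≤ ε * nk.W x * P.Ym x ^ 2 := by positivity
      have n1 : 0 ≤ c.Λ ^ 2 * (pr.p (c.b x) * pr.p' (c.b x) * P.Ym x ^ 2) * c.σ x ^ 2 := by
        positivity
      simp only [inner_add_left, inner_smul_left, RCLike.conj_to_real]
      rcases le_total (c.b x) (2 * ε) with hb | hb
      · rw [pr.m'_one _ ⟨(c.b_mem x).1, hb⟩]
        have d0 : 0 ≤ pr.B' 1 - pr.B' (c.b x) := sub_nonneg.2 (pr.B'_le _)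
        have d1 : pr.B' 1 - pr.B' (c.b x) ≤ 3 / 2 := by
          linarith [pr.B'_nonneg (c.b x), pr.B'_one_le, h.ε_le]
        have g1 : ‖P.Gm x‖ ^ 2 ≤ 2 * ‖c.Gξ P x‖ ^ 2 + P.t / 2 * ‖c.v x‖ ^ 2 := by
          have e : P.Gm x = c.Gξ P x + (P.t / 2) • c.v x := by simp only [Gξ]; module
          have u1 := (le_abs_self _).trans (two_inner_le (c.Gξ P x) (c.v x) (P.t / 2) 1 one_pos)
          have t2 := P.t_sq
          rw [e, norm_add_sq_real, inner_smul_right, norm_smul, mul_pow, Real.norm_eq_abs, sq_abs]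
          have u2 : (P.t / 2) ^ 2 = P.t / 4 := by linarith
          rw [u2] at u1 ⊢; linarith
        have g2 : P.Ym x ^ 2 ≤ 2 * c.zf P x ^ 2 + P.t / 2 := by
          have := (P.Ym_sq_le x).trans (c.Yp_sq_le P x)
          have hb1 : c.β x ^ 2 ≤ 1 := by have := c.β_mem x; nlinarith [this.1, this.2]
          nlinarith
        have g3 := two_inner_le (P.Gm x) (c.gb x) (P.Ym x) (1 / r) (by positivity)
        have g4 : |2 * P.Ym x * ⟪P.Gm x, c.gb x⟫_ℝ|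
            ≤ 1 / r * ((2 * c.zf P x ^ 2 + P.t / 2) * ‖c.gb x‖ ^ 2)
              + r * (2 * ‖c.Gξ P x‖ ^ 2 + P.t / 2 * ‖c.v x‖ ^ 2) := by
          refine g3.trans (add_le_add (by gcongr) ?_)
          rw [div_div_eq_mul_div, div_one, mul_comm]; gcongr
        have g5 := mul_le_mul d1 g4 (abs_nonneg _) (by norm_num)
        have g6 := mul_le_mul_of_nonneg_left (le_abs_self (2 * P.Ym x * ⟪P.Gm x, c.gb x⟫_ℝ)) d0
        have g7 := mul_le_mul_of_nonneg_right d1 n1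
        have g8 : (pr.B' 1 - pr.B' (c.b x)) * c.b x ≤ 3 / 2 * (2 * ε) :=
          mul_le_mul d1 hb (c.b_mem x).1 (by norm_num)
        have g9 := mul_le_mul_of_nonneg_right g8 (mul_nonneg hw (sq_nonneg (P.Ym x)))
        have n2 : 0 ≤ r * (nk.W x * c.ξf P x ^ 2) := by positivity
        have n3 : 0 ≤ r * (P.t * (nk.W x * c.β x ^ 2)) := by positivity
        have e5 : 3 / 2 / r = 3 / 2 * (1 / r) := by ring
        rw [e5]
        simp only [nu, N]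
        linarith
      · rw [pr.B'_top _ hb] at s3
        simp only [nu, pr.B'_top _ hb, sub_self, zero_mul, add_zero]
        have n2 : 0 ≤ 3 / 2 * r * (2 * (‖c.Gξ P x‖ ^ 2 + nk.W x * c.ξf P x ^ 2)
          + P.t / 2 * (‖c.v x‖ ^ 2 + nk.W x * c.β x ^ 2)) := by positivity
        have n3 : 0 ≤ 3 / 2 / r * (2 * (pr.m' (c.b x) * c.zf P x ^ 2 * ‖c.gb x‖ ^ 2)
          + P.t / 2 * (pr.m' (c.b x) * ‖c.gb x‖ ^ 2)) := by positivity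
        linarith
  have h2 := c.Mm_le P h hr
  have h3 := c.zg_le hW h hz
  have h4 := mul_le_mul_of_nonneg_left (c.mg_le hW h.ε_pos) P.t_nonneg
  have h5 : 2 * ∫ x, pr.m' (c.b x) * c.zf P x ^ 2 * ‖c.gb x‖ ^ 2 ∂ν
      + P.t / 2 * ∫ x, pr.m' (c.b x) * ‖c.gb x‖ ^ 2 ∂ν
      ≤ 128 * ε * c.J δ (c.zf P) (c.Gz P) + 2 * P.t * ε * c.Φ := by linarith
  have h6 := mul_le_mul_of_nonneg_left h5 (by positivity : 0 ≤ 3 / 2 / r)
  linarith

theorem Em_le {s : ℝ} (hs : 0 < s) :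
    2 * ∫ x, |P.Ym x| * c.nu x ∂ν ≤ 1 / s * c.Nm P + s * c.M := by
  have hW := nk.wok
  exact ((HI.of ((DClass.bd P.Ym_D).abs.int (c.int_nu hW))).cmul 2).mono
    (((c.hiNm P).cmul (1 / s)).add ((c.hiM hW).cmul s)) fun x => by
      have a1 : 2 * |P.Ym x| ≤ 1 / s * P.Ym x ^ 2 + s := by
        have : 1 / s * P.Ym x ^ 2 + s - 2 * |P.Ym x| = (|P.Ym x| - s) ^ 2 / s := by
          rw [← sq_abs (P.Ym x)]; field_simp; ring
        have : 0 ≤ (|P.Ym x| - s) ^ 2 / s := by positivity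
        linarith
      have := mul_le_mul_of_nonneg_right a1 (c.nu_nonneg hW x)
      linarith

theorem Wz_le : ∫ x, nk.W x * c.zf P x ^ 2 ∂ν ≤ P.S nk.W + P.t / 2 * c.bb := by
  have hW := nk.wok
  have := (hW.hi (DClass.bd (c.z_D P)).sq).mono ((P.hiS hW).add
    ((hW.hi c.bd_β.sq).cmul (P.t / 2))) fun x => by
      have a1 : c.zf P x ^ 2 ≤ P.Y₁ x ^ 2 + P.Y₂ x ^ 2 + P.t / 2 * c.β x ^ 2 := by
        have := P.t_sq
        unfold zf Pair.Yp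
        nlinarith [sq_nonneg (P.Y₁ x - P.Y₂ x), sq_nonneg (c.β x),
          sq_nonneg (1 / 2 * P.Y₁ x + 1 / 2 * P.Y₂ x + P.t / 2 * c.β x)]
      have := mul_le_mul_of_nonneg_left a1 (hW.nonneg x)
      linarith
  have h2 := mul_le_mul_of_nonneg_left c.Wβ_le (by linarith [P.t_nonneg] : 0 ≤ P.t / 2)
  linarith

end Crit
end Crest.Agent.N346.P2
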