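import Crest.Agent.N346.P2.Core3

/-! Row 346, P2, main estimate, part 4: the contribution of the two vector fields (L9). -/

set_option autoImplicit false
set_option linter.unusedSectionVars false
open MeasureTheory Set
open scoped InnerProductSpace

noncomputable section
namespace Crest.Agent.N346.P2

variable {X : Type} [MeasurableSpace X] {V : Type} [NormedAddCommGroup V] [InnerProductSpace ℝ V]
  {ν : Measure X}

theorem ims (A B : V) {τ w : ℝ} (hτ : 0 ≤ τ) (hw : 0 ≤ w) (h : ‖B‖ ^ 2 ≤ 4 * τ * w) :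
    ⟪A, B⟫_ℝ ≤ τ * ‖A‖ ^ 2 + w := by
  have h1 := inner_sq_le A B
  have h2 := mul_le_mul_of_nonneg_left h (sq_nonneg ‖A‖)
  have h3 : ⟪A, B⟫_ℝ ^ 2 ≤ (τ * ‖A‖ ^ 2 + w) ^ 2 := by nlinarith [sq_nonneg (τ * ‖A‖ ^ 2 - w)]
  exact (abs_le_of_sq_le_sq' h3 (by positivity)).2

namespace Crit
variable {𝒟 : DClass ν V} {a q τ₀ ω : ℝ} {nk : Neck 𝒟 a q τ₀ ω} {ε C0 : ℝ} {pr : Prof ε C0}
  (c : Crit 𝒟 nk.W pr) {δ : ℝ}

def b0 (α γ : ℝ → ℝ) (x : X) : V := α (c.β x) • nk.e x + γ (c.β x) • c.v x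
def βf (α γ : ℝ → ℝ) (x : X) : V := nk.θ x • c.b0 α γ x

theorem bdβ {m : ℝ → ℝ} (hm : ContinuousOn m (Icc 0 1)) : Bd (fun x => m (c.β x)) :=
  Bd.comp c.bd_β.1 c.β_mem hm

theorem cont_of {m m' : ℝ → ℝ} (hm : ∀ s ∈ Icc (0 : ℝ) 1, HasDerivAt m (m' s) s) :
    ContinuousOn m (Icc 0 1) := fun s hs => (hm s hs).continuousAt.continuousWithinAt

theorem βf2 {α γ : ℝ → ℝ} (hα : ContinuousOn α (Icc 0 1)) (hγ : ContinuousOn γ (Icc 0 1)) :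
    MemLp (c.βf α γ) 2 ν :=
  nk.bd_θ.smul_memLp (((c.bdβ hα).smul_memLp nk.e_memLp).add ((c.bdβ hγ).smul_memLp c.v2))

theorem int_R {Y : X → ℝ} {k : ℝ} {G β : X → V} (hY : 𝒟.D Y k G) (hβ : MemLp β 2 ν) :
    Integrable (fun x => 2 * Y x * ⟪β x, G x⟫_ℝ - ‖β x‖ ^ 2 * Y x ^ 2) ν :=
  ((((DClass.bd hY).cmul 2).int (int_inner hβ (𝒟.memG hY))).sub
    ((DClass.bd hY).sq.int (int_normsq hβ))).congr
    (ae_of_all _ fun x => by simp only [Pi.sub_apply]; ring)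

/-- L9 for one component. -/
theorem R_ge {α α' γ γ' : ℝ → ℝ} (hα : ∀ s ∈ Icc (0 : ℝ) 1, HasDerivAt α (α' s) s)
    (hγ : ∀ s ∈ Icc (0 : ℝ) 1, HasDerivAt γ (γ' s) s) (cα : ContinuousOn α' (Icc 0 1))
    (cγ : ContinuousOn γ' (Icc 0 1))
    (psd : ∀ s ∈ Icc (0 : ℝ) 1, ∀ w E S U : ℝ, 0 ≤ E → E ≤ w → 0 ≤ U → S ^ 2 ≤ E * U →
      0 ≤ w - (α s ^ 2 * E + 2 * α s * γ s * S + γ s ^ 2 * U) - α' s * S - γ' s * U
        - γ s * w * s)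
    {Y : X → ℝ} {k : ℝ} {G : X → V} (hY : 𝒟.D Y k G) :
    k * k * (α 1 * q + γ 1 * c.Φt) - (1 + ω ^ 2) * (∫ x, nk.W x * Y x ^ 2 ∂ν)
      - ∫ x, nk.θ x * γ (c.β x) * Y x ^ 2 * c.nu x ∂ν
      ≤ ∫ x, (2 * Y x * ⟪c.βf α γ x, G x⟫_ℝ - ‖c.βf α γ x‖ ^ 2 * Y x ^ 2) ∂ν := by
  have hW := nk.wok
  have bY := DClass.bd hY
  have dα := 𝒟.comp α α' 0 1 c.β_D c.β_mem ⟨zero_le_one, le_rfl⟩ hα cα
  have dγ := 𝒟.comp γ γ' 0 1 c.β_D c.β_mem ⟨zero_le_one, le_rfl⟩ hγ cγ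
  have f1 := nk.hiFlux (𝒟.mul dα (𝒟.mul hY hY))
  have f2 := c.ELt hW (𝒟.mul nk.θ_D (𝒟.mul dγ (𝒟.mul hY hY)))
  have := (((f1.add f2).sub ((hW.hi bY.sq).cmul (1 + ω ^ 2))).sub
    (HI.of (((nk.bd_θ.mul (c.bdβ (cont_of hγ))).mul bY.sq).int (c.int_nu hW)))).mono
    (HI.of (int_R hY (c.βf2 (cont_of hα) (cont_of hγ)))) fun x => by
      have hθ := nk.θ_mem x
      have hw := hW.nonneg x
      have a1 := psd (c.β x) (c.β_mem x) (nk.W x) (‖nk.e x‖ ^ 2) ⟪nk.e x, c.v x⟫_ℝ (‖c.v x‖ ^ 2)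
        (sq_nonneg _) (nk.e_le x) (sq_nonneg _) (inner_sq_le _ _)
      have a2 := ims (c.b0 α γ x) (nk.dθ x) (τ := nk.θ x * (1 - nk.θ x)) (w := ω ^ 2 * nk.W x)
        (mul_nonneg hθ.1 (sub_nonneg.2 hθ.2)) (by positivity) (by linarith [nk.dθ_le x])
      have a3 : ‖c.b0 α γ x‖ ^ 2 = α (c.β x) ^ 2 * ‖nk.e x‖ ^ 2
          + 2 * α (c.β x) * γ (c.β x) * ⟪nk.e x, c.v x⟫_ℝ + γ (c.β x) ^ 2 * ‖c.v x‖ ^ 2 := by
        simp only [b0, norm_add_sq_real, inner_smul_left, inner_smul_right, norm_smul, mul_pow,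
          Real.norm_eq_abs, sq_abs, RCLike.conj_to_real]; ring
      have a4 : ‖c.βf α γ x‖ ^ 2 = nk.θ x ^ 2 * ‖c.b0 α γ x‖ ^ 2 := by
        rw [βf, norm_smul, mul_pow, Real.norm_eq_abs, sq_abs]
      rw [← a3] at a1
      have a5 := mul_nonneg (mul_nonneg hθ.1 a1) (sq_nonneg (Y x))
      have a6 := mul_le_mul_of_nonneg_right a2 (sq_nonneg (Y x))
      have a7 := mul_nonneg (mul_nonneg (sub_nonneg.2 hθ.2) hw) (sq_nonneg (Y x))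
      rw [a4]
      simp only [βf, b0, inner_add_left, inner_add_right, inner_smul_left, inner_smul_right,
        RCLike.conj_to_real, real_inner_self_eq_norm_sq] at a6 ⊢
      simp only [b0] at a5
      linarith
  linarith

variable (P : Pair 𝒟 nk.ρ)

def Np : ℝ := ∫ x, P.Yp x ^ 2 * c.nu x ∂ν
def xe : ℝ := ∫ x, nk.θ x * c.β x * c.nu x ∂ν
def K1 (a : ℝ) (β₁ β₂ : X → V) : ℝ := Kf ν a 1 nk.ρ (fun x => c.f x + nk.P x)
  (fun x => c.df x + nk.dP x) β₁ β₂ P.Y₁ P.Y₂ P.G₁ P.G₂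

theorem Kf_zero (a : ℝ) (β₁ β₂ : X → V) : Kf ν a 0 nk.ρ (fun x => c.f x + nk.P x)
    (fun x => c.df x + nk.dP x) β₁ β₂ P.Y₁ P.Y₂ P.G₁ P.G₂ = c.K0 P := by
  simp [Kf, K0]

theorem K1_eq (a : ℝ) {β₁ β₂ : X → V} (h₁ : MemLp β₁ 2 ν) (h₂ : MemLp β₂ 2 ν) :
    c.K1 P a β₁ β₂ = c.K0 P
      + a * ((∫ x, (2 * P.Y₁ x * ⟪β₁ x, P.G₁ x⟫_ℝ - ‖β₁ x‖ ^ 2 * P.Y₁ x ^ 2) ∂ν)
        + ∫ x, (2 * P.Y₂ x * ⟪β₂ x, P.G₂ x⟫_ℝ - ‖β₂ x‖ ^ 2 * P.Y₂ x ^ 2) ∂ν) := by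
  have := (c.hiK0 P).add (((HI.of (int_R P.is.d₁ h₁)).add (HI.of (int_R P.is.d₂ h₂))).cmul a)
  rw [← this.2, K1, Kf]
  congr 1; funext x; ring

theorem Np_le (h : Par ε δ) :
    c.Np P ≤ 24 * c.J δ (c.zf P) (c.Gz P) + P.t / 2 * (7 * ε * c.Φ) := by
  have hW := nk.wok
  have := (HI.of ((DClass.bd P.Yp_D).sq.int (c.int_nu hW))).mono
    (((HI.of ((DClass.bd (c.z_D P)).sq.int (c.int_nu hW))).cmul 2).add
      ((HI.of (c.bd_β.int (c.int_nu hW))).cmul (P.t / 2))) fun x => by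
      have a1 := c.Yp_sq_le P x
      have a2 : c.β x ^ 2 ≤ c.β x := by have := c.β_mem x; nlinarith [this.1, this.2]
      have a3 := mul_le_mul_of_nonneg_left a2 P.t_nonneg
      have := mul_le_mul_of_nonneg_right (show P.Yp x ^ 2 ≤ 2 * c.zf P x ^ 2 + P.t / 2 * c.β x by
        linarith) (c.nu_nonneg hW x)
      linarith
  have h2 := c.znu_le hW h (c.z_D P)
  have h3 := mul_le_mul_of_nonneg_left (c.βnu_le hW h) (by linarith [P.t_nonneg] : 0 ≤ P.t / 2)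
  unfold Np; linarith

theorem xe_nonneg : 0 ≤ c.xe := integral_nonneg fun x =>
  mul_nonneg (mul_nonneg (nk.θ_mem x).1 (c.β_mem x).1) (c.nu_nonneg nk.wok x)
theorem xe_le (h : Par ε δ) : c.xe ≤ 7 * ε * c.Φ := by
  have hW := nk.wok
  refine le_trans ?_ (c.βnu_le hW h)
  exact (HI.of ((nk.bd_θ.mul c.bd_β).int (c.int_nu hW))).mono
    (HI.of (c.bd_β.int (c.int_nu hW))) fun x => by
      have := mul_le_mul_of_nonneg_right (nk.θ_mem x).2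
        (mul_nonneg (c.β_mem x).1 (c.nu_nonneg hW x))
      linarith

/-- L9. -/
theorem K1_ge (h : Par ε δ) {μ I Bc Γ : ℝ} (F : Fields μ q I Bc Γ) (hI : I ≤ c.Φt)
    (hB : 0 ≤ Bc) (ha : 0 ≤ a) {s : ℝ} (hs : 0 < s) (y : ℝ) :
    c.K0 P + a * (P.t * μ - (1 + ω ^ 2) * P.S nk.W
      + Bc * (2 * y * (c.x1 (c.zf P) - c.xd (c.zf P) + P.t / 2 * c.xe) - y ^ 2 * c.M)
      - ((2 * Γ * s + 8 * ε * Γ) * c.Np P + 2 * Γ / s * c.Nm P + 4 * ε * Γ * P.S nk.W))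
      ≤ c.K1 P a (c.βf F.α₁ F.γ₁) (c.βf F.α₂ F.γ₂) := by
  have hW := nk.wok
  have hΓ : 0 ≤ Γ := (abs_nonneg _).trans (F.γ₁_le 0 ⟨le_rfl, zero_le_one⟩)
  rw [c.K1_eq P a (c.βf2 (cont_of F.hα₁) (cont_of F.hγ₁)) (c.βf2 (cont_of F.hα₂) (cont_of F.hγ₂))]
  refine add_le_add le_rfl (mul_le_mul_of_nonneg_left ?_ ha)
  have r1 := c.R_ge F.hα₁ F.hγ₁ F.cα₁ F.cγ₁ F.psd₁ P.is.d₁
  have r2 := c.R_ge F.hα₂ F.hγ₂ F.cα₂ F.cγ₂ F.psd₂ P.is.d₂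
  have b1 := DClass.bd P.is.d₁
  have b2 := DClass.bd P.is.d₂
  have bz := DClass.bd (c.z_D P)
  have e1 := ((hW.hi b1.sq).add (hW.hi b2.sq)).uniq (P.hiS hW) fun x => by ring
  have e2 : P.t * μ ≤ P.t * P.t * (F.α₁ 1 * q + F.γ₁ 1 * c.Φt) := by
    have := mul_le_mul_of_nonneg_left hI F.γ₁_one
    rw [← sq, P.t_sq]
    exact mul_le_mul_of_nonneg_left (by linarith [F.flux]) P.t_nonneg
  have ixd : HI ν (fun x => (1 - nk.θ x) * c.zf P x * c.nu x) (c.xd (c.zf P)) :=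
    HI.of ((((Bd.const 1).sub nk.bd_θ).mul bz).int (c.int_nu hW))
  have ixe : HI ν (fun x => nk.θ x * c.β x * c.nu x) c.xe :=
    HI.of ((nk.bd_θ.mul c.bd_β).int (c.int_nu hW))
  have iNp : HI ν (fun x => P.Yp x ^ 2 * c.nu x) (c.Np P) :=
    HI.of ((DClass.bd P.Yp_D).sq.int (c.int_nu hW))
  have := (((((((c.hix1 hW bz).sub ixd).add (ixe.cmul (P.t / 2))).cmul (2 * y)).sub
    ((c.hiM hW).cmul (y ^ 2))).cmul Bc).add
    ((HI.of (((nk.bd_θ.mul (c.bdβ (cont_of F.hγ₁))).mul b1.sq).int (c.int_nu hW))).add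
      (HI.of (((nk.bd_θ.mul (c.bdβ (cont_of F.hγ₂))).mul b2.sq).int (c.int_nu hW))))).mono
    (((iNp.cmul (2 * Γ * s + 8 * ε * Γ)).add ((c.hiNm P).cmul (2 * Γ / s))).add
      ((P.hiS hW).cmul (4 * ε * Γ))) fun x => by
      have hθ := nk.θ_mem x
      have hn := c.nu_nonneg hW x
      have hβ := c.β_mem x
      have y1 : P.Y₁ x = P.Yp x + P.Ym x := by simp only [Pair.Yp, Pair.Ym]; ring
      have y2 : P.Y₂ x = P.Yp x - P.Ym x := by simp only [Pair.Yp, Pair.Ym]; ring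
      have ez : c.zf P x = P.Yp x - P.t / 2 * c.β x := by unfold zf; ring
      -- the frozen coefficients
      have g1 := abs_le.1 (F.γ₁_le 0 ⟨le_rfl, zero_le_one⟩)
      have g2 := abs_le.1 (F.γ₂_le 0 ⟨le_rfl, zero_le_one⟩)
      have u0 : |2 * (P.Yp x * P.Ym x)| ≤ s * P.Yp x ^ 2 + P.Ym x ^ 2 / s := by
        have := two_inner_le (P.Ym x) (P.Yp x) 1 s hs
        simpa [mul_comm] using this
      have u1 : F.γ₁ 0 * P.Y₁ x ^ 2 + F.γ₂ 0 * P.Y₂ x ^ 2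
          ≤ -Bc * P.Yp x ^ 2 + 2 * Γ * (s * P.Yp x ^ 2 + P.Ym x ^ 2 / s) := by
        have v1 : (F.γ₁ 0 - F.γ₂ 0) * (2 * (P.Yp x * P.Ym x))
            ≤ 2 * Γ * (s * P.Yp x ^ 2 + P.Ym x ^ 2 / s) := by
          refine (le_abs_self _).trans ?_
          rw [abs_mul]
          exact mul_le_mul (abs_le.2 ⟨by linarith, by linarith⟩) u0 (abs_nonneg _) (by positivity)
        have v2 := mul_nonneg hB (sq_nonneg (P.Ym x))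
        have v3 : F.γ₁ 0 = -Bc - F.γ₂ 0 := by linarith [F.γ_zero]
        rw [y1, y2]; rw [v3] at v1 ⊢; linarith
      have u2 : F.γ₁ (c.β x) * P.Y₁ x ^ 2 + F.γ₂ (c.β x) * P.Y₂ x ^ 2
          ≤ F.γ₁ 0 * P.Y₁ x ^ 2 + F.γ₂ 0 * P.Y₂ x ^ 2
            + Γ * c.β x * (P.Y₁ x ^ 2 + P.Y₂ x ^ 2) := by
        have l1 := mul_le_mul_of_nonneg_right (abs_le.1 (F.γ₁_lip _ hβ)).2 (sq_nonneg (P.Y₁ x))
        have l2 := mul_le_mul_of_nonneg_right (abs_le.1 (F.γ₂_lip _ hβ)).2 (sq_nonneg (P.Y₂ x))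
        linarith
      have u3 : 2 * y * P.Yp x - y ^ 2 ≤ P.Yp x ^ 2 := by nlinarith [sq_nonneg (P.Yp x - y)]
      have u4 := mul_le_mul_of_nonneg_left u3 hB
      have u5 := mul_le_mul_of_nonneg_left ((add_le_add u4 (u2.trans (add_le_add_left u1 _))))
        (mul_nonneg hθ.1 hn)
      have s0 : 0 ≤ P.Y₁ x ^ 2 + P.Y₂ x ^ 2 := by positivity
      have n0 : 0 ≤ (2 * Γ * (s * P.Yp x ^ 2 + P.Ym x ^ 2 / s)
          + Γ * c.β x * (P.Y₁ x ^ 2 + P.Y₂ x ^ 2)) * c.nu x := by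
        have := hβ.1; positivity
      have u6 := mul_le_mul_of_nonneg_right hθ.2 n0
      have u7 : 0 ≤ (1 - nk.θ x) * (Bc * (y ^ 2 * c.nu x)) :=
        mul_nonneg (sub_nonneg.2 hθ.2) (by positivity)
      have u8 : c.β x * c.nu x ≤ 2 * ε * c.nu x + 4 * ε * nk.W x := by
        have := c.βnu_pt hW h.ε_pos x
        have := mul_le_mul_of_nonneg_left (c.b_mem x).2
          (mul_nonneg h.ε_pos.le (hW.nonneg x))
        linarith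
      have u9 := mul_le_mul_of_nonneg_left u8 (mul_nonneg hΓ s0)
      have u10 : P.Y₁ x ^ 2 + P.Y₂ x ^ 2 ≤ 4 * P.Yp x ^ 2 := by
        have := P.Ym_sq_le x
        rw [y1, y2]; linarith
      have u11 := mul_le_mul_of_nonneg_left u10
        (mul_nonneg (mul_nonneg h.ε_pos.le hΓ) hn)
      have e5 : P.Ym x ^ 2 / s = 1 / s * P.Ym x ^ 2 := by ring
      have e6 : 2 * Γ / s = 2 * Γ * (1 / s) := by ring
      rw [e5] at u5 u6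
      rw [e6, ez]
      linarith
  simp only [zero_mul] at r2
  have e3 : (1 + ω ^ 2) * P.S nk.W = (1 + ω ^ 2) * (∫ x, nk.W x * P.Y₁ x ^ 2 ∂ν)
      + (1 + ω ^ 2) * ∫ x, nk.W x * P.Y₂ x ^ 2 ∂ν := by rw [← e1]; ring
  linarith

theorem βf_vanish {μ I Bc Γ : ℝ} (F : Fields μ q I Bc Γ) (x : X) :
    (c.f x + nk.P x) • (c.βf F.α₁ F.γ₁ x + c.βf F.α₂ F.γ₂ x) = 0 := by
  simp only [βf, ← smul_add, smul_smul, add_mul, mul_comm (nk.P x), nk.θ_P, add_zero]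
  by_cases hx : c.b x < ε
  · obtain ⟨e1, e2, -⟩ := c.zero_of_lt hx
    simp only [b0, e1, e2, smul_zero, add_zero, ← add_smul, F.α_zero, zero_smul]
  · simp [f, pr.p'_zero _ (not_lt.1 hx)]

theorem βf_sq_le {α γ : ℝ → ℝ} {Γ : ℝ} (hα : ∀ s ∈ Icc (0 : ℝ) 1, |α s| ≤ 1)
    (hγ : ∀ s ∈ Icc (0 : ℝ) 1, |γ s| ≤ Γ) (x : X) :
    ‖c.βf α γ x‖ ^ 2 ≤ 2 * nk.W x + 2 * Γ ^ 2 * ‖c.v x‖ ^ 2 := by
  have hθ := nk.θ_mem x
  have a1 : ‖c.βf α γ x‖ ≤ ‖nk.e x‖ + Γ * ‖c.v x‖ := by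
    rw [βf, norm_smul, Real.norm_eq_abs, abs_of_nonneg hθ.1]
    refine (mul_le_of_le_one_left (norm_nonneg _) hθ.2).trans ((norm_add_le _ _).trans ?_)
    rw [norm_smul, norm_smul]
    exact add_le_add (mul_le_of_le_one_left (norm_nonneg _) (hα _ (c.β_mem x)))
      (mul_le_mul_of_nonneg_right (hγ _ (c.β_mem x)) (norm_nonneg _))
  have := mul_self_le_mul_self (norm_nonneg _) a1
  nlinarith [nk.e_le x, sq_nonneg (‖nk.e x‖ - Γ * ‖c.v x‖)]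

/-- the left side of the coercivity hypothesis -/
theorem H0_le (h : Par ε δ) {μ I Bc Γ : ℝ} (F : Fields μ q I Bc Γ) (ht : P.t = 0) :
    ∫ x, (‖P.G₁ x‖ ^ 2 + ‖P.G₂ x‖ ^ 2 + ‖c.βf F.α₁ F.γ₁ x‖ ^ 2 * P.Y₁ x ^ 2
      + ‖c.βf F.α₂ F.γ₂ x‖ ^ 2 * P.Y₂ x ^ 2) ∂ν
      ≤ (2 * (2 + 8 * (C0 / ε)) + 288 * Γ ^ 2) * c.J δ (c.zf P) (c.Gz P) + 2 * c.Qξ P
        + 2 * P.S nk.W := by
  have hW := nk.wok
  have hz := c.z_D P
  have bz := DClass.bd hz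
  have i1 := (DClass.bd P.is.d₁).sq.int (int_normsq (c.βf2 (cont_of F.hα₁) (cont_of F.hγ₁)))
  have i2 := (DClass.bd P.is.d₂).sq.int (int_normsq (c.βf2 (cont_of F.hα₂) (cont_of F.hγ₂)))
  have i0 : Integrable (fun x => ‖P.G₁ x‖ ^ 2 + ‖P.G₂ x‖ ^ 2
      + ‖c.βf F.α₁ F.γ₁ x‖ ^ 2 * P.Y₁ x ^ 2 + ‖c.βf F.α₂ F.γ₂ x‖ ^ 2 * P.Y₂ x ^ 2) ν :=
    ((((int_normsq (𝒟.memG P.is.d₁)).add (int_normsq (𝒟.memG P.is.d₂))).add i1).add i2).congr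
      (ae_of_all _ fun x => by simp only [Pi.add_apply]; ring)
  have := (HI.of i0).mono (((((HI.of (int_normsq (𝒟.memG hz))).cmul 2).add
    ((c.hiQξ P).cmul 2)).add ((P.hiS hW).cmul 2)).add
    ((HI.of (bz.sq.int (int_normsq c.v2))).cmul (8 * Γ ^ 2))) fun x => by
      have a1 := c.normsq_G P x
      rw [ht] at a1
      have a2 := mul_le_mul_of_nonneg_right (c.βf_sq_le F.α₁_le F.γ₁_le x) (sq_nonneg (P.Y₁ x))
      have a3 := mul_le_mul_of_nonneg_right (c.βf_sq_le F.α₂_le F.γ₂_le x) (sq_nonneg (P.Y₂ x))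
      have a4 : P.Y₁ x ^ 2 + P.Y₂ x ^ 2 ≤ 4 * c.zf P x ^ 2 := by
        have := mul_nonneg (P.is.nn₁ x) (P.is.nn₂ x)
        simp only [zf, ht, Pair.Yp]; nlinarith
      have a5 := mul_le_mul_of_nonneg_left a4 (by positivity : 0 ≤ 2 * Γ ^ 2 * ‖c.v x‖ ^ 2)
      have a6 := mul_nonneg (hW.nonneg x) (sq_nonneg (c.ξf P x))
      linarith
  have h2 := c.G_le hW h hz
  have h3 := mul_le_mul_of_nonneg_left (c.zv_le hW h hz) (by positivity : 0 ≤ 8 * Γ ^ 2)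
  linarith

end Crit
end Crest.Agent.N346.P2
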