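import Mathlib

/-! Row 346, P2, main estimate, part 5: the final algebra (L10), pure real inequalities. -/

set_option autoImplicit false

namespace Crest.Agent.N346.P2

theorem two_mul_le (x y r : ℝ) (hr : 0 < r) : |2 * x * y| ≤ r * x ^ 2 + y ^ 2 / r := by
  have h3 : 2 * |x| * |y| ≤ r * x ^ 2 + y ^ 2 / r := by
    rw [← sub_nonneg, ← sq_abs x, ← sq_abs y]
    have : r * |x| ^ 2 + |y| ^ 2 / r - 2 * |x| * |y| = (r * |x| - |y|) ^ 2 / r := by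
      field_simp; ring
    rw [this]; positivity
  rwa [abs_mul, abs_mul, abs_two]

theorem alg_stab {K s k x1 xf E : ℝ} (hs : 0 < s) (hs1 : s ≤ 1 / 2) (hK : 1 ≤ K) (hk : |k| ≤ K)
    (hE : 0 ≤ E) (h : (x1 - xf) ^ 2 ≤ 144 * K ^ 7 * s ^ 3 * E) :
    -k * x1 ^ 2 - K * s * x1 ^ 2 - 144 * K ^ 8 * s * E ≤ -k * xf ^ 2 := by
  set d := x1 - xf with hd
  have e : xf = x1 - d := by rw [hd]; ring
  have h1 := two_mul_le x1 d s hs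
  have h2 : |d ^ 2 - 2 * x1 * d| ≤ s * x1 ^ 2 + d ^ 2 / s + d ^ 2 := by
    refine (abs_sub _ _).trans ?_
    rw [abs_of_nonneg (sq_nonneg d)]; linarith
  have h3 : d ^ 2 / s ≤ 144 * K ^ 7 * s ^ 2 * E := by
    rw [div_le_iff₀ hs]; linarith
  have h4 : k * (d ^ 2 - 2 * x1 * d) ≤ K * (s * x1 ^ 2 + d ^ 2 / s + d ^ 2) := by
    refine (le_abs_self _).trans ?_
    rw [abs_mul]
    exact mul_le_mul hk h2 (abs_nonneg _) (by linarith)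
  have h5 : s ^ 2 + s ^ 3 ≤ s := by nlinarith [sq_nonneg s]
  have h6 := mul_le_mul_of_nonneg_left h5 (by positivity : 0 ≤ 144 * K ^ 7 * E)
  have h7 : d ^ 2 / s + d ^ 2 ≤ 144 * K ^ 7 * s * E := by linarith
  have h8 := mul_le_mul_of_nonneg_left h7 (by linarith : 0 ≤ K)
  rw [e]; linarith

theorem alg_proj {K s γ k0 T I q Qt ωb r1 r2 x1 H : ℝ} (hγ : 0 < γ) (hk0 : 0 ≤ k0) (hk0K : k0 ≤ K)
    (hI0 : 0 ≤ I) (hI : I ≤ K) (hT0 : 0 ≤ T) (hT : T ≤ 1) (hq : q = T * I)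
    (hk : k0 * (I * (1 - T ^ 2)) = 1) (hs : 0 ≤ s) (hs1 : s ≤ 1) (hQ : Qt ≤ (1 + 6 * s ^ 4) * I)
    (hr2 : |r2| ≤ ωb) (hw : k0 ^ 2 * ωb ≤ γ / 64)
    (h : -2 * (-k0 * x1) * x1 - 2 * (k0 * T * x1) * r1 - ((-k0 * x1) ^ 2 + (k0 * T * x1) ^ 2) * Qt
      - 2 * (-k0 * x1) * (k0 * T * x1) * (q - r2) ≤ H) :
    k0 * x1 ^ 2 - (12 * K ^ 3 * s + γ / 32 + γ / 16) * x1 ^ 2 - 16 / γ * (k0 ^ 2 * r1 ^ 2) ≤ H := by
  have hK : 0 ≤ K := hk0.trans hk0K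
  have a1 : (1 + T ^ 2) * Qt ≤ (1 + T ^ 2) * I + 12 * s ^ 4 * I := by
    have := mul_le_mul_of_nonneg_left hQ (by positivity : 0 ≤ 1 + T ^ 2)
    have h2 : T ^ 2 ≤ 1 := by nlinarith
    have := mul_le_mul_of_nonneg_right h2 (by positivity : 0 ≤ 6 * s ^ 4 * I)
    linarith
  have a2 := mul_le_mul_of_nonneg_left a1 (sq_nonneg (k0 * x1))
  have a3 : s ^ 4 * I * k0 ^ 2 ≤ s * K * K ^ 2 := by
    have : s ^ 4 ≤ s := by simpa using pow_le_pow_of_le_one hs hs1 (by norm_num : 1 ≤ 4)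
    gcongr
  have a4 := mul_le_mul_of_nonneg_right a3 (sq_nonneg x1)
  have a5 : T * r2 ≤ ωb := by
    refine (le_abs_self _).trans ?_
    rw [abs_mul, abs_of_nonneg hT0]
    exact (mul_le_of_le_one_left (abs_nonneg _) hT).trans hr2
  have a6 := mul_le_mul_of_nonneg_left a5 (sq_nonneg (k0 * x1))
  have a7 := mul_le_mul_of_nonneg_right hw (sq_nonneg x1)
  have a8 := (le_abs_self _).trans (two_mul_le x1 (k0 * T * r1) (γ / 16) (by positivity))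
  have a9 : (k0 * T * r1) ^ 2 / (γ / 16) ≤ 16 / γ * (k0 ^ 2 * r1 ^ 2) := by
    have h2 : T ^ 2 ≤ 1 := by nlinarith
    have := mul_le_mul_of_nonneg_right h2 (by positivity : 0 ≤ 16 / γ * (k0 ^ 2 * r1 ^ 2))
    calc _ = T ^ 2 * (16 / γ * (k0 ^ 2 * r1 ^ 2)) := by field_simp
      _ ≤ _ := by linarith
  have a10 : k0 * x1 ^ 2 * (k0 * (I * (1 - T ^ 2))) = k0 * x1 ^ 2 := by rw [hk, mul_one]
  subst hq
  linarith

/-- lower bound for `K₀ - a S` -/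
theorem alg0 {K s m γ k k0 θ τ0 c0 ω bb a t H D Qξ Fm S x1 xf Qt K0 r1 : ℝ}
    (hs : 0 < s) (hs1 : s ≤ 1 / 2) (hK : 1 ≤ K) (hk : |k| ≤ K) (hγ : 0 < γ)
    (hm : 1200 * K ^ 8 * s ≤ m) (hmγ : m ≤ γ) (hθ0 : 0 ≤ θ) (hθ1 : θ ≤ 1) (hθ : θ * k0 ≤ γ / 8)
    (ht : 0 ≤ t) (hH : 0 ≤ H) (hD : 0 ≤ D) (hQ : 0 ≤ Qξ) (hF : 0 ≤ Fm) (hS : 0 ≤ S)
    (w2 : 16 * k0 ^ 2 * (ω ^ 2 * bb) ≤ γ * (τ0 / 4)) (w3 : 8 * k0 ^ 2 * (ω ^ 2 * bb ^ 2) ≤ γ * c0)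
    (a1 : -k * xf ^ 2 + H + D - 2 * t * x1 + t * Qt + 2 * Qξ + 2 * Fm + (a + τ0) * S
      - 320 * K ^ 4 * s * (H + D + Qξ + Fm + S + t) ≤ K0)
    (a2 : (x1 - xf) ^ 2 ≤ 144 * K ^ 7 * s ^ 3 * (H + D + Qξ + Fm + S + t))
    (a3 : k0 * x1 ^ 2 - (12 * K ^ 3 * s + γ / 32 + γ / 16) * x1 ^ 2
      - 16 / γ * (k0 ^ 2 * r1 ^ 2) ≤ H)
    (a4 : r1 ^ 2 ≤ ω ^ 2 * bb * (S + t / 2 * bb)) :
    t * Qt - 2 * t * x1 + (k0 - k - γ / 4) * x1 ^ 2 + θ * H + D + 2 * Qξ + 2 * Fm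
      + 3 / 4 * τ0 * S - c0 * t - 464 * K ^ 8 * s * (H + D + Qξ + Fm + S + t) ≤ K0 - a * S := by
  have hE : 0 ≤ H + D + Qξ + Fm + S + t := by positivity
  have b1 := alg_stab hs hs1 hK hk hE a2
  have b2 : 16 / γ * (k0 ^ 2 * r1 ^ 2) ≤ τ0 / 4 * S + c0 * t := by
    rw [div_mul_eq_mul_div, div_le_iff₀ hγ]
    have := mul_le_mul_of_nonneg_left a4 (sq_nonneg k0)
    have := mul_le_mul_of_nonneg_right w2 hS
    have := mul_le_mul_of_nonneg_right w3 ht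
    linarith
  have b3 := mul_le_mul_of_nonneg_left a3 (sub_nonneg.2 hθ1)
  have b4 : 0 ≤ θ * ((12 * K ^ 3 * s + γ / 32 + γ / 16) * x1 ^ 2 + 16 / γ * (k0 ^ 2 * r1 ^ 2)) := by
    have : 0 ≤ K := by linarith
    positivity
  have b5 := mul_le_mul_of_nonneg_right hθ (sq_nonneg x1)
  have k3 : K ^ 3 ≤ K ^ 8 := pow_le_pow_right₀ hK (by norm_num)
  have k1 : K ≤ K ^ 8 := by simpa using pow_le_pow_right₀ hK (by norm_num : 1 ≤ 8)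
  have k4 : K ^ 4 ≤ K ^ 8 := pow_le_pow_right₀ hK (by norm_num)
  have b6 : 12 * K ^ 3 * s + K * s ≤ γ / 64 := by
    have := mul_le_mul_of_nonneg_right k3 hs.le
    have := mul_le_mul_of_nonneg_right k1 hs.le
    linarith
  have b7 := mul_le_mul_of_nonneg_right b6 (sq_nonneg x1)
  have b8 := mul_le_mul_of_nonneg_right k4 (mul_nonneg hs.le hE)
  have b9 := mul_nonneg hγ.le (sq_nonneg x1)
  linarith

/-- the contribution of the fields -/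
theorem alg_field {K s γ k0 T I q ωb r2 x1 xd xe H M Φt κ j0 t θ ω bb : ℝ} (hγ : 0 < γ)
    (hk0 : 0 ≤ k0) (hk0K : k0 ≤ K) (hK : 1 ≤ K)
    (hI0 : 0 ≤ I) (hI : I ≤ K) (hT0 : 0 ≤ T) (hT : T ≤ 1) (hq : q = T * I)
    (hk : k0 * (I * (1 - T ^ 2)) = 1) (hs : 0 < s) (hs1 : s ≤ 1 / 2)
    (hΦ : Φt ≤ (1 + 6 * s ^ 4) * I) (hr2 : |r2| ≤ ωb) (hw : k0 ^ 2 * ωb ≤ γ / 64)
    (hj : 0 < j0) (hM : j0 * M ≤ Φt - T * (q - r2)) (hκ0 : 0 ≤ κ) (hκ : κ ≤ 1)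
    (ht0 : 0 ≤ t) (ht1 : t ≤ 1) (hH : 0 ≤ H) (hθ : 0 ≤ θ)
    (hxd : xd ^ 2 ≤ 16 * ω ^ 2 * bb * H) (w4 : 256 * k0 ^ 2 * (ω ^ 2 * bb) ≤ γ * (θ / 4))
    (hxe0 : 0 ≤ xe) (hxe : xe ≤ 7 * s ^ 4 * K) :
    κ * k0 * x1 ^ 2 - ((γ / 16 + γ / 64 + 7 * K ^ 3 * s) * x1 ^ 2 + θ / 4 * H + K ^ 4 * s * t)
      ≤ κ / j0 * (2 * (j0 * k0 * x1) * (x1 - xd + t / 2 * xe) - (j0 * k0 * x1) ^ 2 * M) := by
  have hK0 : 0 ≤ K := by linarith
  have e : κ / j0 * (2 * (j0 * k0 * x1) * (x1 - xd + t / 2 * xe) - (j0 * k0 * x1) ^ 2 * M)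
      = κ * (2 * k0 * x1 * (x1 - xd + t / 2 * xe) - (k0 * x1) ^ 2 * (j0 * M)) := by
    field_simp
  rw [e]
  have a5 : T * r2 ≤ ωb := by
    refine (le_abs_self _).trans ?_
    rw [abs_mul, abs_of_nonneg hT0]
    exact (mul_le_of_le_one_left (abs_nonneg _) hT).trans hr2
  have a1 : j0 * M ≤ I * (1 - T ^ 2) + 6 * s ^ 4 * I + ωb := by rw [hq] at hM; linarith
  have a2 := mul_le_mul_of_nonneg_left a1 (sq_nonneg (k0 * x1))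
  have s4 : s ^ 4 ≤ s := by
    simpa using pow_le_pow_of_le_one hs.le (by linarith) (by norm_num : 1 ≤ 4)
  have a3 : s ^ 4 * I * k0 ^ 2 ≤ s * K * K ^ 2 := by gcongr
  have a4 := mul_le_mul_of_nonneg_right a3 (sq_nonneg x1)
  have a7 := mul_le_mul_of_nonneg_right hw (sq_nonneg x1)
  have a8 := (le_abs_self _).trans (two_mul_le x1 (k0 * xd) (γ / 16) (by positivity))
  have a9 : (k0 * xd) ^ 2 / (γ / 16) ≤ θ / 4 * H := by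
    rw [div_le_iff₀ (by positivity)]
    have := mul_le_mul_of_nonneg_left hxd (sq_nonneg k0)
    have := mul_le_mul_of_nonneg_right w4 hH
    linarith
  have a10 : k0 * x1 ^ 2 * (k0 * (I * (1 - T ^ 2))) = k0 * x1 ^ 2 := by rw [hk, mul_one]
  have a11 := (neg_le_abs _).trans (two_mul_le x1 (k0 * (t / 2 * xe)) s hs)
  have a12 : (k0 * (t / 2 * xe)) ^ 2 / s ≤ K ^ 4 * s * t := by
    rw [div_le_iff₀ hs]
    have u1 : k0 * xe ≤ K * (7 * s ^ 4 * K) := by gcongr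
    have u2 : s ^ 3 ≤ (1 / 2) ^ 3 := by gcongr
    have u3 : K * (7 * s ^ 4 * K) ≤ K ^ 2 * s := by
      have := mul_le_mul_of_nonneg_left u2 (by positivity : 0 ≤ 7 * K ^ 2 * s)
      have : 0 ≤ K ^ 2 * s := by positivity
      linarith
    have u4 : (k0 * xe) ^ 2 ≤ (K ^ 2 * s) ^ 2 :=
      pow_le_pow_left₀ (by positivity) (u1.trans u3) 2
    have u5 : (t / 2) ^ 2 ≤ t := by
      have := mul_le_mul_of_nonneg_left ht1 ht0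
      linarith
    have := mul_le_mul u4 u5 (sq_nonneg _) (sq_nonneg _)
    linarith
  have k3 : s * x1 ^ 2 ≤ K ^ 3 * s * x1 ^ 2 := by
    have := mul_le_mul_of_nonneg_right (one_le_pow₀ hK : 1 ≤ K ^ 3)
      (by positivity : 0 ≤ s * x1 ^ 2)
    linarith
  have b1 : k0 * x1 ^ 2 - ((γ / 16 + γ / 64 + 7 * K ^ 3 * s) * x1 ^ 2 + θ / 4 * H + K ^ 4 * s * t)
      ≤ 2 * k0 * x1 * (x1 - xd + t / 2 * xe) - (k0 * x1) ^ 2 * (j0 * M) := by linarith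
  have b2 := mul_le_mul_of_nonneg_left b1 hκ0
  have b3 := mul_le_mul_of_nonneg_right hκ (by positivity :
    0 ≤ (γ / 16 + γ / 64 + 7 * K ^ 3 * s) * x1 ^ 2 + θ / 4 * H + K ^ 4 * s * t)
  linarith

theorem alg_quad {h γ A t x : ℝ} (hh : 0 < h) (hγ : 0 < γ) (h1 : γ * h ≤ 1)
    (hA : 1 / h + γ / 4 ≤ A) (ht : t ^ 2 = t) :
    -(t * (h - γ * h ^ 2 / 5)) ≤ -2 * t * x + A * x ^ 2 := by
  set u := h - γ * h ^ 2 / 5 with hu
  have u0 : 0 < u := by rw [hu]; nlinarith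
  have u1 : 1 ≤ (1 / h + γ / 4) * u := by
    have : (1 / h + γ / 4) * u = 1 + γ * h / 20 * (1 - γ * h) := by rw [hu]; field_simp; ring
    rw [this]
    have : 0 ≤ γ * h / 20 * (1 - γ * h) := mul_nonneg (by positivity) (by linarith)
    linarith
  have u2 : 1 ≤ A * u := u1.trans (mul_le_mul_of_nonneg_right hA u0.le)
  have u3 := mul_le_mul_of_nonneg_right u2 (sq_nonneg x)
  have u4 := sq_nonneg (x - u * t)
  have u5 : u ^ 2 * t ^ 2 = u ^ 2 * t := by rw [ht]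
  have : 0 ≤ u * (-2 * t * x + A * x ^ 2 + t * u) := by linarith
  have := nonneg_of_mul_nonneg_right this u0
  linarith

/-- the final bound for `K₁` -/
theorem alg1 {K s m γ k k0 κ θ τ0 c0 ω a t H D Qξ Fm S x1 Qt K0 K1 μ I Fi : ℝ}
    (hs : 0 < s) (hs1 : s ≤ 1 / 2) (hK : 1 ≤ K) (hγ : 0 < γ) (hm : 1200 * K ^ 8 * s ≤ m) (hmγ : m ≤ γ)
    (hmθ : m ≤ θ / 2) (hm1 : m ≤ 1) (hmτ : m ≤ τ0 / 4) (hmc : m ≤ c0) (hω : ω ^ 2 ≤ τ0 / 4)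
    (ha0 : 0 ≤ a) (ha : a ≤ 1) (ht : 0 ≤ t) (ht2 : t ^ 2 = t)
    (hH : 0 ≤ H) (hD : 0 ≤ D) (hQ : 0 ≤ Qξ) (hF : 0 ≤ Fm) (hS : 0 ≤ S)
    (hh : 0 < I - μ) (hγI : γ * (I - μ) ≤ 1) (hc : 20 * c0 ≤ γ * (I - μ) ^ 2)
    (hA : 1 / (I - μ) + γ - γ / 16 ≤ k0 + a * κ * k0 - k) (hQt : I - 7 * s ^ 4 * K ≤ Qt)
    (a0 : t * Qt - 2 * t * x1 + (k0 - k - γ / 4) * x1 ^ 2 + θ * H + D + 2 * Qξ + 2 * Fm
      + 3 / 4 * τ0 * S - c0 * t - 464 * K ^ 8 * s * (H + D + Qξ + Fm + S + t) ≤ K0 - a * S)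
    (af : κ * k0 * x1 ^ 2
      - ((γ / 16 + γ / 64 + 7 * K ^ 3 * s) * x1 ^ 2 + θ / 4 * H + K ^ 4 * s * t) ≤ Fi)
    (a9 : K0 + a * (t * μ - (1 + ω ^ 2) * S + Fi
      - 650 * K ^ 2 * s * (H + D + Qξ + Fm + S + t)) ≤ K1) :
    t * ((1 + a) * μ + c0) ≤ K1 := by
  have hK0 : 0 ≤ K := by linarith
  have hE : 0 ≤ H + D + Qξ + Fm + S + t := by positivity
  have hm0 : 0 ≤ m := le_trans (by positivity) hm
  have hθ : 0 ≤ θ := by linarith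
  have b1 := mul_le_mul_of_nonneg_left af ha0
  have b2 := mul_le_mul_of_nonneg_right ha (by positivity :
    0 ≤ (γ / 16 + γ / 64 + 7 * K ^ 3 * s) * x1 ^ 2 + θ / 4 * H + K ^ 4 * s * t
      + ω ^ 2 * S + 650 * K ^ 2 * s * (H + D + Qξ + Fm + S + t))
  have k3 : K ^ 3 * s ≤ K ^ 8 * s := by gcongr; norm_num
  have k1 : s ^ 4 * K ≤ K ^ 8 * s := by
    have s4 : s ^ 4 ≤ s := by
      simpa using pow_le_pow_of_le_one hs.le (by linarith) (by norm_num : 1 ≤ 4)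
    have : K ≤ K ^ 8 := by simpa using pow_le_pow_right₀ hK (by norm_num : 1 ≤ 8)
    rw [mul_comm (K ^ 8)]; gcongr
  have k4 : K ^ 4 * s ≤ K ^ 8 * s := by gcongr; norm_num
  have k2 : K ^ 2 * s ≤ K ^ 8 * s := by gcongr; norm_num
  have b3 := mul_le_mul_of_nonneg_right k2 hE
  have b4 := mul_le_mul_of_nonneg_right k4 ht
  have b5 := mul_le_mul_of_nonneg_right hm hE
  have b6 := mul_le_mul_of_nonneg_right hω hS
  have q1 := alg_quad (x := x1) (A := k0 - k - γ / 4 + a * κ * k0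
    - (γ / 16 + γ / 64 + 7 * K ^ 3 * s)) hh hγ hγI (by linarith) ht2
  have c1 := mul_le_mul_of_nonneg_right hmθ hH
  have c2 := mul_le_mul_of_nonneg_right hm1 hD
  have c3 := mul_le_mul_of_nonneg_right hm1 hQ
  have c4 := mul_le_mul_of_nonneg_right hm1 hF
  have c5 := mul_le_mul_of_nonneg_right hmτ hS
  have c6 := mul_le_mul_of_nonneg_right hmc ht
  have c7 := mul_le_mul_of_nonneg_left hQt ht
  have c8 := mul_le_mul_of_nonneg_right hc ht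
  have c9 := mul_le_mul_of_nonneg_right k1 ht
  have d1 := mul_nonneg hθ hH
  have d2 := mul_nonneg hm0 hS
  have d3 : 0 ≤ K ^ 8 * s * (H + D + Qξ + Fm + S) := by positivity
  have d4 := mul_le_mul_of_nonneg_right hm ht
  have d5 := mul_nonneg hm0 ht
  linarith

theorem exists_small (C m : ℝ) (hm : 0 < m) :
    ∃ r : ℝ, 0 < r ∧ ∀ x : ℝ, 0 ≤ x → x ≤ r → C * x ≤ m := by
  refine ⟨m / (|C| + 1), by positivity, fun x h0 hx => ?_⟩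
  rw [le_div_iff₀ (by positivity)] at hx
  have := mul_le_mul_of_nonneg_right (le_abs_self C) h0
  linarith

end Crest.Agent.N346.P2
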