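import Crest.Agent.N346.P2.Core4
import Crest.Agent.N346.P2.Core5

/-! Row 346, P2, main estimate, part 6: all error terms at the scale `ε = s⁴`, `δ = ε⁴`. -/

set_option autoImplicit false
set_option linter.unusedSectionVars false
open MeasureTheory Set
open scoped InnerProductSpace

noncomputable section
namespace Crest.Agent.N346.P2

variable {X : Type} [MeasurableSpace X] {V : Type} [NormedAddCommGroup V] [InnerProductSpace ℝ V]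
  {ν : Measure X}

namespace Crit
variable {𝒟 : DClass ν V} {a q τ₀ ω : ℝ} {nk : Neck 𝒟 a q τ₀ ω} {s C0 : ℝ}
  {pr : Prof (s ^ 4) C0} (c : Crit 𝒟 nk.W pr) (P : Pair 𝒟 nk.ρ)

structure Sc (K : ℝ) : Prop where
  s_pos : 0 < s
  s_le : s ≤ 1 / 2
  K1 : 1 ≤ K
  Φ_le : c.Φ ≤ K
  Λ2 : c.Λ ^ 2 ≤ K
  Λ1 : c.Λ ≤ K
  C0_le : C0 ≤ K
  C0_nonneg : 0 ≤ C0
  sob : c.Sob K
  vol : c.vol ≤ K
  bb : c.bb ≤ K
  dσ : ∀ x, ‖c.dσ x‖ ≤ (s ^ 4) ^ 3

def JJ : ℝ := c.J ((s ^ 4) ^ 4) (c.zf P) (c.Gz P)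
def HH : ℝ := c.H ((s ^ 4) ^ 4) (c.zf P) (c.Gz P)
def DD : ℝ := c.Dz ((s ^ 4) ^ 4) (c.zf P)
def EE : ℝ := c.HH P + c.DD P + c.Qξ P + c.Fm P + P.S nk.W + P.t

variable {c} {K : ℝ}

theorem Sc.pow_le (h : c.Sc K) {i j : ℕ} (hij : i ≤ j) : s ^ j ≤ s ^ i :=
  pow_le_pow_of_le_one h.s_pos.le (by linarith [h.s_le]) hij
theorem Sc.s3 (h : c.Sc K) : s ^ 3 ≤ 1 / 8 :=
  (pow_le_pow_left₀ h.s_pos.le h.s_le 3).trans (by norm_num)
theorem Sc.s4 (h : c.Sc K) : s ^ 4 ≤ s / 8 := by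
  have := mul_le_mul_of_nonneg_left h.s3 h.s_pos.le
  linarith
theorem Sc.par (h : c.Sc K) : Par (s ^ 4) ((s ^ 4) ^ 4) :=
  ⟨pow_pos h.s_pos 4, by linarith [h.s4, h.s_le], pow_pos (pow_pos h.s_pos 4) 4,
    pow_le_one₀ (pow_pos h.s_pos 4).le (by linarith [h.s4, h.s_le])⟩
theorem Sc.Kpow (h : c.Sc K) {i j : ℕ} (hij : i ≤ j) : K ^ i ≤ K ^ j := pow_le_pow_right₀ h.K1 hij

theorem Sc.nn (h : c.Sc K) : 0 ≤ c.JJ P ∧ c.JJ P ≤ c.HH P ∧ 0 ≤ c.DD P ∧ 0 ≤ c.Qξ P ∧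
    0 ≤ c.Fm P ∧ 0 ≤ P.S nk.W ∧ 0 ≤ P.t :=
  ⟨c.J_nonneg, c.J_le_H nk.wok h.par (c.z_D P), c.Dz_nonneg h.par (DClass.bd (c.z_D P)),
    c.Qξ_nonneg P, c.Fm_nonneg P, P.S_nonneg nk.wok, P.t_nonneg⟩

theorem Sc.Z_le (h : c.Sc K) : s ^ 4 * c.Z (c.zf P) ≤ 10 * K ^ 2 * c.JJ P := by
  have hK := h.K1
  have hs := h.s_pos
  have h1 := h.sob (c.z_D P)
  rw [← c.Z_eq] at h1
  have h2 := mul_le_mul_of_nonneg_left (c.G_le nk.wok h.par (c.z_D P)) (by linarith : 0 ≤ K)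
  have h3 := mul_le_mul_of_nonneg_left (h1.trans h2) (pow_pos hs 4).le
  have e : s ^ 4 * (K * ((2 + 8 * (C0 / s ^ 4)) * c.JJ P))
      = K * (2 * s ^ 4 + 8 * C0) * c.JJ P := by field_simp
  have h4 : K * (2 * s ^ 4 + 8 * C0) ≤ 10 * K ^ 2 := by
    have : 2 * s ^ 4 + 8 * C0 ≤ 10 * K := by linarith [h.s4, h.s_le, h.C0_le]
    nlinarith
  have h5 := mul_le_mul_of_nonneg_right h4 (h.nn P).1
  unfold JJ at *
  linarith

theorem Sc.Φt_le (h : c.Sc K) : c.Φt ≤ 3 / 2 * K := by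
  have h1 := c.Φt_le nk.wok h.par.ε_pos
  have h2 := c.Φ_nonneg h.par.ε_pos nk.wok
  have h3 := mul_le_mul_of_nonneg_right h.par.ε_le h2
  linarith [h.Φ_le]

theorem Sc.Nm_le (h : c.Sc K) : c.Nm P ≤ 288 * K * s ^ 2 * c.EE P := by
  have hs := h.s_pos
  have hK := h.K1
  obtain ⟨n1, n2, n3, n4, n5, n6, n7⟩ := h.nn P
  have h1 := c.Nm_le P h.par (r := s ^ 2) (by positivity)
  have e1 : 64 * s ^ 4 / s ^ 2 = 64 * s ^ 2 := by field_simp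
  have e2 : 3 / 2 / s ^ 2 * (128 * s ^ 4 * c.JJ P + 2 * P.t * s ^ 4 * c.Φ)
      = s ^ 2 * (192 * c.JJ P + 3 * (P.t * c.Φ)) := by field_simp; ring
  have u1 : s ^ 4 ≤ s ^ 2 := h.pow_le (by norm_num)
  have a1 : C0 * s ^ 4 * c.DD P ≤ K * s ^ 2 * c.DD P := by
    have := h.C0_le; have := h.C0_nonneg; gcongr
  have a2 := mul_le_mul_of_nonneg_right u1 n6
  have a3 := mul_le_mul_of_nonneg_left ((c.Qt_le nk.wok).trans h.Φt_le) n7
  have a4 := mul_le_mul_of_nonneg_left h.Φ_le n7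
  have a5 : 3 / 2 * c.Fm P + 288 * c.JJ P + 3 / 2 * (K * c.DD P) + 4 * P.S nk.W + 3 * c.Qξ P
      + 3 / 4 * (P.t * c.Qt) + 3 * (P.t * c.Φ) ≤ 288 * K * c.EE P := by
    have := mul_le_mul_of_nonneg_right hK n5
    have := mul_le_mul_of_nonneg_right hK n1
    have := mul_le_mul_of_nonneg_left n2 (by linarith : 0 ≤ K)
    have := mul_le_mul_of_nonneg_right hK n6
    have := mul_le_mul_of_nonneg_right hK n4
    have := mul_nonneg (by linarith : 0 ≤ K) n3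
    have := mul_nonneg (by linarith : 0 ≤ K) n7
    unfold EE; linarith
  have a6 := mul_le_mul_of_nonneg_left a5 (sq_nonneg s)
  unfold JJ DD at *
  rw [e1, e2] at h1
  linarith

theorem Sc.EE_nonneg (h : c.Sc K) : 0 ≤ c.EE P := by
  obtain ⟨n1, n2, n3, n4, n5, n6, n7⟩ := h.nn P
  unfold EE; linarith

theorem Sc.a1 (h : c.Sc K) {k : ℝ} (hS : c.Stab k) :
    -k * c.xf (c.zf P) ^ 2 + c.HH P + c.DD P - 2 * P.t * c.x1 (c.zf P) + P.t * c.Qt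
      + 2 * c.Qξ P + 2 * c.Fm P + (a + τ₀) * P.S nk.W - 320 * K ^ 4 * s * c.EE P ≤ c.K0 P := by
  have hs := h.s_pos
  have hK := h.K1
  have hK0 : 0 ≤ K := by linarith
  obtain ⟨n1, n2, n3, n4, n5, n6, n7⟩ := h.nn P
  have hE := h.EE_nonneg P
  have h1 := c.K0_ge P h.par h.dσ hS
  have h2 := mul_le_mul_of_nonneg_left (c.Em_le P hs) n7
  have h3 : 1 / s * c.Nm P ≤ 288 * K * s * c.EE P := by
    rw [one_div, inv_mul_le_iff₀ hs]; linarith [h.Nm_le P]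
  have h4 : P.t * (1 / s * c.Nm P) ≤ 288 * K * s * c.EE P :=
    (mul_le_mul P.t_le h3 (mul_nonneg (by positivity) ((c.hiNm P).nonneg fun x =>
      mul_nonneg (sq_nonneg _) (c.nu_nonneg nk.wok x))) zero_le_one).trans (by linarith)
  have h5 := mul_le_mul_of_nonneg_left ((c.M_le nk.wok).trans h.Φt_le) (mul_nonneg n7 hs.le)
  have h6 : P.t ≤ c.EE P := by unfold EE; linarith
  have h7 := mul_le_mul_of_nonneg_left h6 (mul_nonneg hK0 hs.le)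
  have e : ((s ^ 4) ^ 4 * c.Λ ^ 2 * (C0 / (s ^ 4) ^ 2) + 2 * (c.Λ * (C0 / s ^ 4) * (s ^ 4) ^ 3))
      * c.Z (c.zf P) = s ^ 4 * (c.Λ ^ 2 * C0 + 2 * (c.Λ * C0)) * (s ^ 4 * c.Z (c.zf P)) := by
    field_simp
  have u1 : c.Λ ^ 2 * C0 + 2 * (c.Λ * C0) ≤ 3 * K ^ 2 := by
    have := mul_le_mul h.Λ2 h.C0_le h.C0_nonneg hK0
    have := mul_le_mul h.Λ1 h.C0_le h.C0_nonneg hK0
    linarith
  have u2 : s ^ 4 * (c.Λ ^ 2 * C0 + 2 * (c.Λ * C0)) * (s ^ 4 * c.Z (c.zf P))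
      ≤ s * (3 * K ^ 2) * (10 * K ^ 2 * c.EE P) := by
    have hJ : c.JJ P ≤ c.EE P := by unfold EE; linarith
    have := c.Λ_pos
    have := h.C0_nonneg
    refine mul_le_mul (mul_le_mul (by linarith [h.s4]) u1 (by positivity) hs.le)
      ((h.Z_le P).trans (by gcongr)) (mul_nonneg (by positivity)
        (c.Z_nonneg (DClass.bd (c.z_D P)))) (by positivity)
  have u3 := mul_le_mul_of_nonneg_right (show K ≤ K ^ 4 by simpa using h.Kpow (by norm_num : 1 ≤ 4))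
    (mul_nonneg hs.le hE)
  have u4 : 0 ≤ K ^ 4 * (s * c.EE P) := by positivity
  rw [e] at h1
  unfold HH DD
  linarith

theorem Sc.a2 (h : c.Sc K) :
    (c.x1 (c.zf P) - c.xf (c.zf P)) ^ 2 ≤ 144 * K ^ 7 * s ^ 3 * c.EE P := by
  have hs := h.s_pos
  have hK := h.K1
  have hK0 : 0 ≤ K := by linarith
  obtain ⟨n1, n2, n3, n4, n5, n6, n7⟩ := h.nn P
  have hΦ := c.Φ_nonneg h.par.ε_pos nk.wok
  have h1 := c.x1_sub_xf nk.wok h.par (c.z_D P)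
  have k1 : K ≤ K ^ 7 := by simpa using h.Kpow (by norm_num : 1 ≤ 7)
  have u0 : s ^ 4 * c.Φ ≤ s ^ 3 * K := mul_le_mul (h.pow_le (by norm_num)) h.Φ_le hΦ (by positivity)
  have t1 : c.JJ P * (6 * s ^ 4 * c.Φ) ≤ c.JJ P * (6 * (s ^ 3 * K ^ 7)) := by
    have : s ^ 3 * K ≤ s ^ 3 * K ^ 7 := by gcongr
    exact mul_le_mul_of_nonneg_left (by linarith) n1
  have t2 : (∫ x, nk.W x * c.zf P x ^ 2 ∂ν) * (4 * s ^ 4 * c.Φ)
      ≤ (P.S nk.W + P.t) * (4 * (s ^ 3 * K ^ 7)) := by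
    have v1 : ∫ x, nk.W x * c.zf P x ^ 2 ∂ν ≤ (P.S nk.W + P.t) * K := by
      have := c.Wz_le P
      have := mul_le_mul_of_nonneg_left h.bb n7
      have := mul_le_mul_of_nonneg_left hK n6
      have := mul_nonneg n7 hK0
      linarith
    have v2 := mul_le_mul v1 (show 4 * s ^ 4 * c.Φ ≤ 4 * (s ^ 3 * K) by linarith)
      (by positivity) (by positivity)
    have v3 : (P.S nk.W + P.t) * (s ^ 3 * K ^ 2) ≤ (P.S nk.W + P.t) * (s ^ 3 * K ^ 7) := by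
      have := h.Kpow (by norm_num : 2 ≤ 7); gcongr
    linarith
  have hL : s * (Real.log (1 + (s ^ 4) ^ 4) - Real.log ((s ^ 4) ^ 4)) ≤ 16 := by
    have l1 := Real.log_le_sub_one_of_pos (show 0 < 1 + (s ^ 4) ^ 4 by positivity)
    have l2 := h.par.δ_le
    have l3 := Real.log_le_sub_one_of_pos (inv_pos.2 hs)
    rw [Real.log_inv] at l3
    have l4 : Real.log ((s ^ 4) ^ 4) = 16 * Real.log s := by
      rw [Real.log_pow, Real.log_pow]; push_cast; ring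
    have l5 : Real.log (1 + (s ^ 4) ^ 4) - Real.log ((s ^ 4) ^ 4) ≤ 16 * s⁻¹ := by linarith
    have := mul_le_mul_of_nonneg_left l5 hs.le
    rwa [mul_left_comm, mul_inv_cancel₀ hs.ne', mul_one] at this
  have e1 : (s ^ 4) ^ 4 * c.Λ ^ 2 * (C0 / s ^ 4) = s ^ 12 * (c.Λ ^ 2 * C0) := by field_simp
  have u1 : c.Λ ^ 2 * C0 ≤ K ^ 2 := by
    have := mul_le_mul h.Λ2 h.C0_le h.C0_nonneg hK0; linarith
  have u2 : 0 ≤ c.Λ ^ 2 * C0 := mul_nonneg (sq_nonneg _) h.C0_nonneg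
  have hv : 0 ≤ c.vol := ENNReal.toReal_nonneg
  have t3 : C0 * s ^ 4 * (2 * ((Real.log (1 + (s ^ 4) ^ 4) - Real.log ((s ^ 4) ^ 4)) * c.Φ)
      + 2 * c.Φ + 2 * (s ^ 12 * (c.Λ ^ 2 * C0)) * c.vol) ≤ 36 * (s ^ 3 * K ^ 7) := by
    have v1 := mul_le_mul hL h.Φ_le hΦ (by norm_num)
    have v2 : s * c.Φ ≤ 1 * K := mul_le_mul (by linarith [h.s_le]) h.Φ_le hΦ zero_le_one
    have v3 : s ^ 13 * (c.Λ ^ 2 * C0) * c.vol ≤ 1 * K ^ 2 * K := by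
      have : s ^ 13 ≤ 1 := by simpa using h.pow_le (by norm_num : 0 ≤ 13)
      have := h.vol
      gcongr
    have k3 : K ≤ K ^ 3 := by simpa using h.Kpow (by norm_num : 1 ≤ 3)
    have v4 : s * (2 * ((Real.log (1 + (s ^ 4) ^ 4) - Real.log ((s ^ 4) ^ 4)) * c.Φ)
      + 2 * c.Φ + 2 * (s ^ 12 * (c.Λ ^ 2 * C0)) * c.vol) ≤ 36 * K ^ 3 := by linarith
    have v5 := mul_le_mul_of_nonneg_left v4 (mul_nonneg h.C0_nonneg (pow_pos hs 3).le)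
    have v6 : C0 * s ^ 3 * K ^ 3 ≤ K ^ 4 * s ^ 3 * K ^ 3 := by
      have : C0 ≤ K ^ 4 := h.C0_le.trans (by simpa using h.Kpow (by norm_num : 1 ≤ 4))
      gcongr
    linarith
  have t3' := mul_le_mul_of_nonneg_left t3 n3
  have t4 : c.Z (c.zf P) * ((s ^ 12 * (c.Λ ^ 2 * C0)) ^ 2 * c.vol)
      ≤ 10 * (s ^ 3 * K ^ 7) * c.JJ P := by
    have v1 : s ^ 20 * (c.Λ ^ 2 * C0) ^ 2 * c.vol ≤ s ^ 3 * (K ^ 2) ^ 2 * K := by
      have := h.pow_le (by norm_num : 3 ≤ 20)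
      have := h.vol
      gcongr
    have := mul_le_mul (h.Z_le P) v1 (by positivity) (by positivity)
    linarith
  have hp : 0 ≤ s ^ 3 * K ^ 7 := by positivity
  have f1 := mul_le_mul_of_nonneg_left n2 hp
  have f2 := mul_nonneg hp n1
  have f3 := mul_nonneg hp n4
  have f4 := mul_nonneg hp n5
  have f5 := mul_nonneg hp n6
  have f6 := mul_nonneg hp n7
  rw [e1] at h1
  unfold EE
  unfold JJ DD at *
  linarith

theorem Sc.a9 (h : c.Sc K) {μ I Bc Γ : ℝ} (F : Fields μ q I Bc Γ) (hI : I ≤ c.Φt)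
    (hB : 0 ≤ Bc) (ha : 0 ≤ a) (hΓ : Γ ≤ K) (y : ℝ) :
    c.K0 P + a * (P.t * μ - (1 + ω ^ 2) * P.S nk.W
      + Bc * (2 * y * (c.x1 (c.zf P) - c.xd (c.zf P) + P.t / 2 * c.xe) - y ^ 2 * c.M)
      - 650 * K ^ 2 * s * c.EE P) ≤ c.K1 P a (c.βf F.α₁ F.γ₁) (c.βf F.α₂ F.γ₂) := by
  have hs := h.s_pos
  have hK := h.K1
  have hK0 : 0 ≤ K := by linarith
  have hΓ0 : 0 ≤ Γ := (abs_nonneg _).trans (F.γ₁_le 0 ⟨le_rfl, zero_le_one⟩)
  obtain ⟨n1, n2, n3, n4, n5, n6, n7⟩ := h.nn P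
  have hE := h.EE_nonneg P
  refine le_trans (add_le_add le_rfl (mul_le_mul_of_nonneg_left ?_ ha))
    (c.K1_ge P h.par F hI hB ha hs y)
  have hΦ := c.Φ_nonneg h.par.ε_pos nk.wok
  have u1 : c.Np P ≤ 24 * K * c.EE P := by
    have v1 := c.Np_le P h.par
    have v2 : s ^ 4 * c.Φ ≤ 1 / 8 * K := mul_le_mul h.par.ε_le h.Φ_le hΦ (by norm_num)
    have v3 := mul_le_mul_of_nonneg_left v2 n7
    have v4 := mul_le_mul_of_nonneg_right hK n1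
    have v5 : K * (c.JJ P + P.t) ≤ K * c.EE P :=
      mul_le_mul_of_nonneg_left (by unfold EE; linarith) hK0
    have := mul_nonneg hK0 n7
    unfold JJ at *
    linarith
  have u2 : 2 * Γ * s + 8 * s ^ 4 * Γ ≤ 3 * (K * s) := by
    have := mul_le_mul_of_nonneg_right h.s4 hΓ0
    have := mul_le_mul_of_nonneg_right hΓ hs.le
    linarith
  have hNp : 0 ≤ c.Np P := integral_nonneg fun x =>
    mul_nonneg (sq_nonneg _) (c.nu_nonneg nk.wok x)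
  have u3 := mul_le_mul u2 u1 hNp (by positivity)
  have u4 : 2 * Γ / s * c.Nm P ≤ 576 * K ^ 2 * s * c.EE P := by
    have v1 := mul_le_mul_of_nonneg_left (h.Nm_le P) (by positivity : 0 ≤ 2 * Γ / s)
    have e : 2 * Γ / s * (288 * K * s ^ 2 * c.EE P) = Γ * (576 * K * s * c.EE P) := by
      field_simp; ring
    have v2 := mul_le_mul_of_nonneg_right hΓ (by positivity : 0 ≤ 576 * K * s * c.EE P)
    linarith
  have u5 : s ^ 4 * Γ * P.S nk.W ≤ s / 8 * K ^ 2 * c.EE P := by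
    have : P.S nk.W ≤ c.EE P := by unfold EE; linarith
    have : Γ ≤ K ^ 2 := hΓ.trans (by simpa using h.Kpow (by norm_num : 1 ≤ 2))
    have := h.s4
    gcongr
  have : 0 ≤ K ^ 2 * s * c.EE P := by positivity
  linarith

end Crit
end Crest.Agent.N346.P2
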