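import Crest.Agent.N346.Sp.Main
import Crest.Agent.N346.P2.All

/-!
# Row 346: part P2 is complete.
-/

namespace Crest.Agent.N346.P2

theorem p2U_done : P2UStmt := p2u Sp.sp

theorem p2C_done : P2CStmt := p2c Sp.sp

end Crest.Agent.N346.P2
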