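import Crest.Agent.N346.P2.IsoRaw
import Crest.Agent.N346.P2.Conc
import Crest.Agent.N346.Basic2

/-! Row 346, P2f: the sharp Euclidean isocapacitary inequality. -/

set_option autoImplicit false
open MeasureTheory Set Filter Topology Metric Module
open scoped ENNReal
open Crest.Agent.R230 Crest.Agent.N346.Bs
open Crest.GeometryTopology.CoordMetric
open Crest.MathPhysics.ExteriorData

noncomputable section
namespace Crest.Agent.N346.P2

variable {n : ℕ}

theorem volume_real_unitBall (hn : 0 < n) :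
    volume.real (closedBall (0 : E n) 1) = unitSphereArea n / n := by
  have : Nonempty (Fin n) := ⟨⟨0, hn⟩⟩
  have hn' : (0 : ℝ) < n := by exact_mod_cast hn
  have hG : 0 < Real.Gamma ((n : ℝ) / 2) := Real.Gamma_pos_of_pos (by positivity)
  have hpi := Real.pi_pos
  rw [measureReal_def, EuclideanSpace.volume_closedBall,
    Fintype.card_fin, Real.Gamma_add_one (by positivity),
    ENNReal.ofReal_one, one_pow, one_mul, ENNReal.toReal_ofReal (by positivity), unitSphereArea,
    Real.sqrt_eq_rpow, ← Real.rpow_natCast, ← Real.rpow_mul hpi.le,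
    show 1 / 2 * (n : ℝ) = n / 2 by ring]
  field_simp

theorem beta_eq (hn : 3 ≤ n) : 1 + 2 * aa n = (n : ℝ) / (n - 2) := by
  have : (3 : ℝ) ≤ n := by exact_mod_cast hn
  have h : (n : ℝ) - 2 ≠ 0 := by linarith
  rw [aa]; field_simp; ring

theorem beta_pos (hn : 3 ≤ n) : 0 < 1 + 2 * aa n := by
  have : (3 : ℝ) ≤ n := by exact_mod_cast hn
  rw [beta_eq hn]; exact div_pos (by linarith) (by linarith)

theorem cn_pos (hn : 3 ≤ n) : 0 < cn n := by
  have : (3 : ℝ) ≤ n := by exact_mod_cast hn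
  have hω := unitSphereArea_pos (n := n) (by omega)
  have h2 : 0 < (n : ℝ) - 2 := by linarith
  unfold cn
  positivity

/-- The sharp isocapacitary inequality at level `t`. -/
theorem iso_level (hn : 3 ≤ n) {u : E n → ℝ} (hu : ContDiff ℝ 1 u) (hc : HasCompactSupport u)
    {t : ℝ} (ht : 0 < t) : volume {x | t ≤ u x} ≤
      ENNReal.ofReal (cn n * ((∫ x, ‖fderiv ℝ u x‖ ^ 2) / t ^ 2) ^ (1 + 2 * aa n)) := by
  have hN : (3 : ℝ) ≤ n := by exact_mod_cast hn
  have hω := unitSphereArea_pos (n := n) (by omega)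
  have h2 : 0 < (n : ℝ) - 2 := by linarith
  have h0 : 0 < (n : ℝ) := by linarith
  obtain ⟨k, rfl⟩ : ∃ k, n = k + 1 := ⟨n - 1, by omega⟩
  have h := Iso.iso_raw (n := k) (finrank_euclideanSpace_fin (𝕜 := ℝ)) (by omega) hu hc ht
  have e1 : (k : ℝ) + 1 = ((k + 1 : ℕ) : ℝ) := by push_cast; ring
  have e2 : (k : ℝ) - 1 = ((k + 1 : ℕ) : ℝ) - 2 := by push_cast; ring
  rw [e1, e2, rt, volume_real_unitBall (by omega), finrank_euclideanSpace_fin] at h
  have hfin : volume {x | t ≤ u x} ≠ ∞ := Iso.mu_ne_top hu.continuous hc ht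
  rw [← ofReal_measureReal hfin, cn, beta_eq hn]
  apply ENNReal.ofReal_le_ofReal
  have hm : 0 ≤ volume.real {x | t ≤ u x} := measureReal_nonneg
  have hI : 0 ≤ ∫ x, ‖fderiv ℝ u x‖ ^ 2 := integral_nonneg fun _ => by positivity
  generalize volume.real {x | t ≤ u x} = m at h hm ⊢
  generalize ∫ x, ‖fderiv ℝ u x‖ ^ 2 = I at h hI ⊢
  generalize unitSphereArea (k + 1) = ω at h hω ⊢
  generalize ((k + 1 : ℕ) : ℝ) = N at h h0 h2 ⊢
  have hw : 0 < ω / N := by positivity
  have e3 : (N - 2) * ω = N * (N - 2) * (ω / N) := by field_simp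
  rw [e3]
  generalize ω / N = w at h hw ⊢
  have hb : 0 < (w ^ (1 / N)) ^ 2 := by positivity
  have h3 : m ^ ((N - 2) / N) ≤ I / t ^ 2 * (N * (N - 2) * (w ^ (1 / N)) ^ 2)⁻¹ := by
    rw [← div_eq_mul_inv, div_div, le_div_iff₀ (by positivity)]
    linarith
  have h4 := Real.rpow_le_rpow (by positivity) h3 (show 0 ≤ N / (N - 2) by positivity)
  rw [← Real.rpow_mul hm, show (N - 2) / N * (N / (N - 2)) = 1 by field_simp, Real.rpow_one,
    Real.mul_rpow (by positivity) (by positivity), mul_comm] at h4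
  refine h4.trans (le_of_eq ?_)
  congr 1
  rw [Real.inv_rpow (by positivity), ← Real.rpow_neg (by positivity),
    Real.mul_rpow (by positivity) hb.le, Real.mul_rpow (x := N * (N - 2)) (by positivity) hw.le,
    ← Real.rpow_natCast, ← Real.rpow_mul hw.le, ← Real.rpow_mul hw.le, mul_left_comm,
    ← Real.rpow_one_add' hw.le (by
      have : 1 + -(N / (N - 2)) = -2 / (N - 2) := by field_simp; ring
      rw [this]; exact div_ne_zero (by norm_num) h2.ne')]
  congr 2
  push_cast
  field_simp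
  ring

theorem isoFlat : IsoFlatStmt := by
  intro n hn u hu hc
  have h := iso_level hn hu hc one_pos
  simp only [one_pow, div_one, ← sum_pd_sq, ← sq] at h
  exact (measure_mono fun x (hx : 1 < u x) => le_of_lt hx).trans h

end Crest.Agent.N346.P2
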