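import Mathlib
import Crest.Agent.R230.BM

/-!
Row 346, P2: the sharp Euclidean isocapacitary inequality for `C¹` functions with compact support,
directly from the Brunn–Minkowski inequality.
-/

set_option autoImplicit false
set_option linter.unusedSectionVars false
set_option linter.deprecated false
open MeasureTheory Set Filter Topology Metric Module
open scoped ENNReal Pointwise
open Crest.Agent.R230

noncomputable section
namespace Crest.Agent.N346.Iso

variable {E : Type*} [NormedAddCommGroup E] [InnerProductSpace ℝ E] [FiniteDimensional ℝ E]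
  [MeasurableSpace E] [BorelSpace E]

/-- Growth of `ε`-neighbourhoods (Brunn–Minkowski). -/
lemma bm_grow {n : ℕ} (hn : finrank ℝ E = n + 1) {A : Set E} (hA : IsCompact A) (hA0 : A.Nonempty)
    {ε : ℝ} (hε : 0 ≤ ε) :
    ENNReal.ofReal (((n : ℝ) + 1) * rt (closedBall (0 : E) 1) * ε) *
      volume A ^ ((n : ℝ) / (n + 1)) ≤ volume ((A + ε • closedBall (0 : E) 1) \ A) := by
  have hpos : 0 < finrank ℝ E := by omega
  have hB : IsCompact (closedBall (0 : E) 1) := isCompact_closedBall _ _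
  have hB0 : (ε • closedBall (0 : E) 1).Nonempty :=
    ⟨ε • (0 : E), smul_mem_smul_set (mem_closedBall_self zero_le_one)⟩
  have hS : IsCompact (A + ε • closedBall (0 : E) 1) := hA.add (hB.smul ε)
  have h1 := BM_add hpos hA (hB.smul ε) hA0 hB0
  rw [rt_smul hpos _ hε] at h1
  have ha := rt_nonneg A
  have hb : 0 ≤ ε * rt (closedBall (0 : E) 1) := mul_nonneg hε (rt_nonneg _)
  have h2 : (rt A + ε * rt (closedBall (0 : E) 1)) ^ (n + 1)
      ≤ volume.real (A + ε • closedBall (0 : E) 1) := by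
    rw [← rt_pow hpos, hn]
    exact pow_le_pow_left₀ (add_nonneg ha hb) h1 _
  have h3 := pow_add_mul_le_add_pow ha (by positivity :
    0 ≤ 2 * rt A + ε * rt (closedBall (0 : E) 1)) (n + 1)
  have h4 : rt A ^ (n + 1) = volume.real A := by rw [← rt_pow hpos, hn]
  have hsub : A ⊆ A + ε • closedBall (0 : E) 1 := fun x hx =>
    ⟨x, hx, ε • (0 : E), smul_mem_smul_set (mem_closedBall_self zero_le_one), by simp⟩
  have h5 : volume.real ((A + ε • closedBall (0 : E) 1) \ A)
      = volume.real (A + ε • closedBall (0 : E) 1) - volume.real A :=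
    measureReal_diff hsub hA.measurableSet hS.measure_lt_top.ne
  have h6 : volume A ^ ((n : ℝ) / (n + 1)) = ENNReal.ofReal (rt A ^ n) := by
    rw [← ofReal_measureReal hA.measure_lt_top.ne, ← h4,
      ENNReal.ofReal_rpow_of_nonneg (by positivity) (by positivity), ← Real.rpow_natCast,
      ← Real.rpow_mul ha, ← Real.rpow_natCast]
    congr 2
    push_cast
    field_simp
  have hfin : volume ((A + ε • closedBall (0 : E) 1) \ A) ≠ ∞ :=
    ((measure_mono diff_subset).trans_lt hS.measure_lt_top).ne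
  rw [h6, ← ENNReal.ofReal_mul (by have := rt_nonneg (closedBall (0 : E) 1); positivity),
    ← ofReal_measureReal hfin, h5]
  apply ENNReal.ofReal_le_ofReal
  simp only [Nat.add_sub_cancel] at h3
  push_cast at h3
  nlinarith

omit [MeasurableSpace E] [BorelSpace E] in
/-- Uniform differentiability. -/
lemma unif_diff {v : E → ℝ} (hv : ContDiff ℝ 1 v) (hc : HasCompactSupport v) {δ : ℝ}
    (hδ : 0 < δ) : ∃ ε₀ : ℝ, 0 < ε₀ ∧ ∀ x y, ‖y - x‖ ≤ ε₀ →
      |v y - v x| ≤ (‖fderiv ℝ v x‖ + δ) * ‖y - x‖ := by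
  have hu : UniformContinuous (fderiv ℝ v) :=
    (hc.fderiv ℝ).uniformContinuous_of_continuous (hv.continuous_fderiv one_ne_zero)
  obtain ⟨ε₀, hε₀, h⟩ := Metric.uniformContinuous_iff.1 hu δ hδ
  refine ⟨ε₀ / 2, by positivity, fun x y hy => ?_⟩
  have := (convex_closedBall x (ε₀ / 2)).norm_image_sub_le_of_norm_fderiv_le (𝕜 := ℝ) (f := v)
    (C := ‖fderiv ℝ v x‖ + δ) (x := x) (y := y)
    (fun z _ => hv.differentiable one_ne_zero z) (fun z hz => ?_)
    (mem_closedBall_self (by positivity)) (by rwa [mem_closedBall, dist_eq_norm])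
  · simpa using this
  · have h1 : dist (fderiv ℝ v z) (fderiv ℝ v x) < δ :=
      h (lt_of_le_of_lt (mem_closedBall.1 hz) (by linarith))
    rw [dist_eq_norm] at h1
    have := norm_le_norm_add_norm_sub' (fderiv ℝ v z) (fderiv ℝ v x)
    linarith

/-- The distribution function. -/
def mu (v : E → ℝ) (s : ℝ) : ℝ≥0∞ := volume {x | s ≤ v x}

lemma mu_anti (v : E → ℝ) : Antitone (mu v) := fun _ _ h =>
  measure_mono fun _ hx => le_trans h hx

lemma isCompact_lev {v : E → ℝ} (hv : Continuous v) (hc : HasCompactSupport v) {s : ℝ}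
    (hs : 0 < s) : IsCompact {x | s ≤ v x} :=
  hc.isCompact.of_isClosed_subset (isClosed_le continuous_const hv) fun x hx =>
    subset_tsupport _ (by
      have : s ≤ v x := hx
      simp only [Function.mem_support]; linarith)

lemma mu_ne_top {v : E → ℝ} (hv : Continuous v) (hc : HasCompactSupport v) {s : ℝ}
    (hs : 0 < s) : mu v s ≠ ∞ := (isCompact_lev hv hc hs).measure_lt_top.ne

lemma w_mono (v : E → ℝ) {p : ℝ} (hp : 0 ≤ p) : Monotone fun s => mu v s ^ (-p) := by
  intro a b h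
  simp only [ENNReal.rpow_neg]
  exact ENNReal.inv_le_inv.2 (ENNReal.rpow_le_rpow (mu_anti v h) hp)

lemma tendsto_mu {v : E → ℝ} (hv : Continuous v) (hc : HasCompactSupport v) {s : ℝ}
    (hs : 0 < s) {h : ℕ → ℝ} (hanti : Antitone h) (hlim : Tendsto h atTop (𝓝 0)) :
    Tendsto (fun k => mu v (s - h k)) atTop (𝓝 (mu v s)) := by
  have h0 : ∀ k, 0 ≤ h k := fun k => hanti.le_of_tendsto hlim k
  have hI : (⋂ k, {x | s - h k ≤ v x}) = {x | s ≤ v x} := by
    ext x
    simp only [mem_iInter, mem_setOf_eq]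
    constructor
    · intro hx
      have : Tendsto (fun k => s - h k) atTop (𝓝 (s - 0)) := tendsto_const_nhds.sub hlim
      rw [sub_zero] at this
      exact le_of_tendsto' this hx
    · intro hx k; linarith [h0 k]
  have := tendsto_measure_iInter_atTop (μ := (volume : Measure E))
    (s := fun k => {x | s - h k ≤ v x})
    (fun k => (isClosed_le continuous_const hv).measurableSet.nullMeasurableSet)
    (fun a b hab x hx => by
      have h1 : s - h b ≤ v x := hx
      have := hanti hab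
      show s - h a ≤ v x
      linarith) ?_
  · rw [hI] at this
    exact this
  · obtain ⟨k, hk⟩ := (hlim.eventually (gt_mem_nhds hs)).exists
    exact ⟨k, mu_ne_top hv hc (by linarith)⟩

/-- One step of Brunn–Minkowski on all levels, integrated. -/
lemma step {n : ℕ} (hn : finrank ℝ E = n + 1) {v : E → ℝ} (hv : ContDiff ℝ 1 v)
    (hc : HasCompactSupport v) {t : ℝ} (hm : mu v t ≠ 0) {R M δ ε : ℝ}
    (hR : tsupport v ⊆ closedBall 0 R) (hM : ∀ x, ‖fderiv ℝ v x‖ ≤ M) (hε : 0 < ε) (hε1 : ε ≤ 1)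
    (hδ : 0 ≤ δ)
    (hu : ∀ x y, ‖y - x‖ ≤ ε → |v y - v x| ≤ (‖fderiv ℝ v x‖ + δ) * ‖y - x‖) :
    ENNReal.ofReal (((n : ℝ) + 1) * rt (closedBall (0 : E) 1)) *
      ∫⁻ s in Ioc 0 t, mu v (s - ε * (M + δ)) ^ (-((n : ℝ) / (n + 1))) * mu v s ^ ((n : ℝ) / (n + 1))
      ≤ ∫⁻ x in closedBall 0 (R + 1) ∩ {x | v x < t},
        mu v (v x) ^ (-((n : ℝ) / (n + 1))) * ENNReal.ofReal (‖fderiv ℝ v x‖ + δ) := by
  set p : ℝ := (n : ℝ) / (n + 1) with hp
  have hp0 : 0 ≤ p := by positivity
  set c : ℝ := ((n : ℝ) + 1) * rt (closedBall (0 : E) 1) with hcdef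
  have hc0 : 0 ≤ c := by have := rt_nonneg (closedBall (0 : E) 1); positivity
  set w : ℝ → ℝ≥0∞ := fun s => mu v s ^ (-p) with hw
  have hwm : Monotone w := w_mono v hp0
  have hvc := hv.continuous
  have hdc : Continuous fun x => ‖fderiv ℝ v x‖ := (hv.continuous_fderiv one_ne_zero).norm
  set S : Set (ℝ × E) := {q | q.2 ∈ closedBall (0 : E) (R + 1) ∧ v q.2 < q.1 ∧
    q.1 ≤ v q.2 + ε * (‖fderiv ℝ v q.2‖ + δ)} with hS
  have hSm : MeasurableSet S := by
    refine (measurable_snd measurableSet_closedBall).inter (MeasurableSet.inter ?_ ?_)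
    · exact measurableSet_lt (hvc.measurable.comp measurable_snd) measurable_fst
    · exact measurableSet_le measurable_fst (by fun_prop)
  set F : ℝ × E → ℝ≥0∞ := S.indicator fun q => w (v q.2) with hF
  have hFm : Measurable F :=
    (hwm.measurable.comp (hvc.measurable.comp measurable_snd)).indicator hSm
  have h1 : ∀ s ∈ Ioc (0 : ℝ) t, ENNReal.ofReal (c * ε) * (w (s - ε * (M + δ)) * mu v s ^ p)
      ≤ ∫⁻ x, F (s, x) := by
    intro s hs
    have hA := isCompact_lev hvc hc hs.1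
    have hA0 : {x | s ≤ v x}.Nonempty := by
      apply nonempty_of_measure_ne_zero (μ := (volume : Measure E))
      exact fun h => hm (le_antisymm ((mu_anti v hs.2).trans (le_of_eq h)) bot_le)
    have hg := bm_grow hn hA hA0 hε.le
    have hDm : MeasurableSet (({x | s ≤ v x} + ε • closedBall (0 : E) 1) \ {x | s ≤ v x}) :=
      (hA.add ((isCompact_closedBall _ _).smul ε)).measurableSet.diff hA.measurableSet
    calc ENNReal.ofReal (c * ε) * (w (s - ε * (M + δ)) * mu v s ^ p)
        = w (s - ε * (M + δ)) * (ENNReal.ofReal (c * ε) * mu v s ^ p) := by ring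
      _ ≤ w (s - ε * (M + δ)) *
          volume (({x | s ≤ v x} + ε • closedBall (0 : E) 1) \ {x | s ≤ v x}) := by
          gcongr; exact hg
      _ = ∫⁻ x, (({x | s ≤ v x} + ε • closedBall (0 : E) 1) \ {x | s ≤ v x}).indicator
          (fun _ => w (s - ε * (M + δ))) x := (lintegral_indicator_const hDm _).symm
      _ ≤ ∫⁻ x, F (s, x) := by
          refine lintegral_mono fun x => ?_
          by_cases hx : x ∈ ({x | s ≤ v x} + ε • closedBall (0 : E) 1) \ {x | s ≤ v x}
          swap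
          · rw [indicator_of_notMem hx]; exact bot_le
          rw [indicator_of_mem hx]
          obtain ⟨⟨y, hy, _, ⟨u, hu1, rfl⟩, rfl⟩, hx2⟩ := hx
          have hy' : s ≤ v y := hy
          have hx3 : v (y + ε • u) < s := not_le.1 hx2
          have hun : ‖u‖ ≤ 1 := by simpa using hu1
          have hn1 : ‖y - (y + ε • u)‖ ≤ ε := by
            rw [sub_add_cancel_left, norm_neg, norm_smul, Real.norm_of_nonneg hε.le]
            nlinarith
          have h2 := (le_abs_self _).trans (hu (y + ε • u) y hn1)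
          have h3 : (‖fderiv ℝ v (y + ε • u)‖ + δ) * ‖y - (y + ε • u)‖
              ≤ (‖fderiv ℝ v (y + ε • u)‖ + δ) * ε := by gcongr
          have hyR : ‖y‖ ≤ R := by
            have : y ∈ tsupport v := subset_tsupport _ (by
              simp only [Function.mem_support]; linarith [hs.1])
            simpa using hR this
          have hmem : (s, y + ε • u) ∈ S := by
            refine ⟨?_, hx3, by dsimp only; linarith⟩
            simp only [mem_closedBall, dist_zero_right]
            have := norm_add_le y (ε • u)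
            rw [norm_smul, Real.norm_of_nonneg hε.le] at this
            nlinarith
          show _ ≤ S.indicator (fun q => w (v q.2)) (s, y + ε • u)
          rw [indicator_of_mem hmem]
          apply hwm
          have := hM (y + ε • u)
          nlinarith
  have h2 : ∀ x, ∫⁻ s in Ioc 0 t, F (s, x) ≤ (closedBall 0 (R + 1) ∩ {x | v x < t}).indicator
      (fun x => ENNReal.ofReal ε * (w (v x) * ENNReal.ofReal (‖fderiv ℝ v x‖ + δ))) x := by
    intro x
    by_cases hx : x ∈ closedBall 0 (R + 1) ∩ {x | v x < t}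
    · rw [indicator_of_mem hx]
      calc ∫⁻ s in Ioc 0 t, F (s, x) ≤ ∫⁻ s, F (s, x) := setLIntegral_le_lintegral _ _
        _ ≤ ∫⁻ s, (Ioc (v x) (v x + ε * (‖fderiv ℝ v x‖ + δ))).indicator (fun _ => w (v x)) s := by
            refine lintegral_mono fun s => ?_
            by_cases hs : (s, x) ∈ S
            · show S.indicator (fun q => w (v q.2)) (s, x) ≤ _
              rw [indicator_of_mem hs, indicator_of_mem (show s ∈ Ioc _ _ from ⟨hs.2.1, hs.2.2⟩)]
            · show S.indicator (fun q => w (v q.2)) (s, x) ≤ _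
              rw [indicator_of_notMem hs]; exact bot_le
        _ = _ := by
            rw [lintegral_indicator_const measurableSet_Ioc, Real.volume_Ioc, add_sub_cancel_left,
              ENNReal.ofReal_mul hε.le]
            ring
    · rw [indicator_of_notMem hx]
      refine le_of_eq (setLIntegral_eq_zero measurableSet_Ioc fun s hs => ?_)
      show S.indicator (fun q => w (v q.2)) (s, x) = 0
      exact indicator_of_notMem (fun h => hx ⟨h.1, lt_of_lt_of_le h.2.1 hs.2⟩) _
  have hKm : MeasurableSet (closedBall (0 : E) (R + 1) ∩ {x | v x < t}) :=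
    measurableSet_closedBall.inter (isOpen_lt hvc continuous_const).measurableSet
  have h3 : ENNReal.ofReal ε * (ENNReal.ofReal c *
      ∫⁻ s in Ioc 0 t, w (s - ε * (M + δ)) * mu v s ^ p) ≤ ENNReal.ofReal ε *
      ∫⁻ x in closedBall 0 (R + 1) ∩ {x | v x < t},
        w (v x) * ENNReal.ofReal (‖fderiv ℝ v x‖ + δ) := by
    calc _ = ∫⁻ s in Ioc 0 t, ENNReal.ofReal (c * ε) * (w (s - ε * (M + δ)) * mu v s ^ p) := by
          rw [lintegral_const_mul' _ _ ENNReal.ofReal_ne_top, ENNReal.ofReal_mul hc0]; ring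
      _ ≤ ∫⁻ s in Ioc 0 t, ∫⁻ x, F (s, x) := setLIntegral_mono' measurableSet_Ioc h1
      _ = ∫⁻ x, ∫⁻ s in Ioc 0 t, F (s, x) :=
          lintegral_lintegral_swap (f := fun s x => F (s, x)) hFm.aemeasurable
      _ ≤ _ := lintegral_mono h2
      _ = _ := by
          rw [lintegral_indicator hKm, lintegral_const_mul' _ _ ENNReal.ofReal_ne_top]
  exact (ENNReal.mul_le_mul_iff_right (by simpa using hε) ENNReal.ofReal_ne_top).1 h3

/-- The weighted `L¹` inequality (coarea + isoperimetric). -/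
lemma l1_ineq {n : ℕ} (hn : finrank ℝ E = n + 1) {v : E → ℝ} (hv : ContDiff ℝ 1 v)
    (hc : HasCompactSupport v) {t : ℝ} (ht : 0 < t) (hm : mu v t ≠ 0) :
    ENNReal.ofReal (((n : ℝ) + 1) * rt (closedBall (0 : E) 1) * t)
      ≤ ∫⁻ x in {x | v x < t}, mu v (v x) ^ (-((n : ℝ) / (n + 1))) * ‖fderiv ℝ v x‖ₑ := by
  set p : ℝ := (n : ℝ) / (n + 1) with hp
  have hp0 : 0 ≤ p := by positivity
  set c : ℝ := ((n : ℝ) + 1) * rt (closedBall (0 : E) 1) with hcdef
  have hc0 : 0 ≤ c := by have := rt_nonneg (closedBall (0 : E) 1); positivity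
  set w : ℝ → ℝ≥0∞ := fun s => mu v s ^ (-p) with hw
  have hwm : Monotone w := w_mono v hp0
  have hvc := hv.continuous
  have hdc : Continuous (fderiv ℝ v) := hv.continuous_fderiv one_ne_zero
  obtain ⟨R, hR⟩ := hc.isCompact.isBounded.subset_closedBall (0 : E)
  obtain ⟨M, hM⟩ := hdc.bounded_above_of_compact_support (hc.fderiv ℝ)
  have hM0 : 0 ≤ M := (norm_nonneg _).trans (hM 0)
  have hLm : MeasurableSet {x | v x < t} := (isOpen_lt hvc continuous_const).measurableSet
  have hwt : w t ≠ ∞ := by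
    simp only [hw, ENNReal.rpow_neg]
    exact ENNReal.inv_ne_top.2 (ENNReal.rpow_pos (pos_iff_ne_zero.2 hm) (mu_ne_top hvc hc ht)).ne'
  have key : ∀ δ : ℝ, 0 < δ → ENNReal.ofReal (c * t) ≤
      ∫⁻ x in closedBall 0 (R + 1) ∩ {x | v x < t},
        w (v x) * ENNReal.ofReal (‖fderiv ℝ v x‖ + δ) := by
    intro δ hδ
    obtain ⟨ε₀, hε₀, hu⟩ := unif_diff hv hc hδ
    set e : ℕ → ℝ := fun k => min ε₀ 1 / ((k : ℝ) + 1) with he
    have hmin : 0 < min ε₀ 1 := lt_min hε₀ one_pos
    have he0 : ∀ k, 0 < e k := fun k => by positivity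
    have he1 : ∀ k, e k ≤ min ε₀ 1 := fun k =>
      div_le_self hmin.le (by linarith [(Nat.cast_nonneg k : (0 : ℝ) ≤ k)])
    have hanti : Antitone fun k => e k * (M + δ) := fun a b hab => by
      have : (a : ℝ) ≤ b := by exact_mod_cast hab
      simp only [he]
      gcongr
    have hlim : Tendsto (fun k => e k * (M + δ)) atTop (𝓝 0) := by
      have := (tendsto_const_div_atTop_nhds_zero_nat (min ε₀ 1)).comp (tendsto_add_atTop_nat 1)
      have h2 := this.mul_const (M + δ)
      rw [zero_mul] at h2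
      refine h2.congr fun k => ?_
      simp [he]
    have hst := fun k => step hn hv hc hm hR hM (he0 k) ((he1 k).trans (min_le_right _ _)) hδ.le
      (fun x y hy => hu x y (hy.trans ((he1 k).trans (min_le_left _ _))))
    have hmeas : ∀ k, Measurable fun s => w (s - e k * (M + δ)) * mu v s ^ p := fun k =>
      (hwm.measurable.comp (measurable_id.sub_const _)).mul
        ((mu_anti v).measurable.pow_const p)
    have hF : ENNReal.ofReal t ≤
        liminf (fun k => ∫⁻ s in Ioc 0 t, w (s - e k * (M + δ)) * mu v s ^ p) atTop := by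
      refine le_trans ?_ (lintegral_liminf_le hmeas)
      have : ∫⁻ _ in Ioc (0 : ℝ) t, (1 : ℝ≥0∞) = ENNReal.ofReal t := by simp
      rw [← this]
      refine setLIntegral_mono' measurableSet_Ioc fun s hs => le_of_eq ?_
      have hs0 : mu v s ≠ 0 := fun h => hm (le_antisymm ((mu_anti v hs.2).trans h.le) bot_le)
      have hs1 := mu_ne_top hvc hc hs.1
      have hne : mu v s ^ p ≠ ∞ := ENNReal.rpow_ne_top_of_nonneg hp0 hs1
      have hT : Tendsto (fun k => w (s - e k * (M + δ)) * mu v s ^ p) atTop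
          (𝓝 (w s * mu v s ^ p)) :=
        ENNReal.Tendsto.mul_const ((ENNReal.continuous_rpow_const.tendsto _).comp
          (tendsto_mu hvc hc hs.1 hanti hlim)) (Or.inr hne)
      rw [hT.liminf_eq]
      simp only [hw]
      rw [← ENNReal.rpow_add _ _ hs0 hs1]
      simp
    calc ENNReal.ofReal (c * t) = ENNReal.ofReal c * ENNReal.ofReal t := ENNReal.ofReal_mul hc0
      _ ≤ ENNReal.ofReal c *
        liminf (fun k => ∫⁻ s in Ioc 0 t, w (s - e k * (M + δ)) * mu v s ^ p) atTop := by gcongr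
      _ = liminf (fun k => ENNReal.ofReal c *
          ∫⁻ s in Ioc 0 t, w (s - e k * (M + δ)) * mu v s ^ p) atTop :=
          (ENNReal.liminf_const_mul_of_ne_top ENNReal.ofReal_ne_top).symm
      _ ≤ _ := liminf_le_of_frequently_le' (Frequently.of_forall hst)
  have hfin : w t * volume (closedBall (0 : E) (R + 1)) ≠ ∞ :=
    ENNReal.mul_ne_top hwt (isCompact_closedBall _ _).measure_lt_top.ne
  refine ENNReal.le_of_forall_pos_le_add fun η hη _ => ?_
  obtain ⟨δ, hδ, hδη⟩ := ENNReal.exists_nnreal_pos_mul_lt hfin (ENNReal.coe_pos.2 hη).ne'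
  have hKm : MeasurableSet (closedBall (0 : E) (R + 1) ∩ {x | v x < t}) :=
    measurableSet_closedBall.inter hLm
  calc ENNReal.ofReal (c * t) ≤ _ := key δ hδ
    _ ≤ ∫⁻ x in closedBall 0 (R + 1) ∩ {x | v x < t},
        (w (v x) * ‖fderiv ℝ v x‖ₑ + δ * w t) := by
        refine setLIntegral_mono' hKm fun x hx => ?_
        rw [ENNReal.ofReal_add (norm_nonneg _) δ.coe_nonneg, ofReal_norm_eq_enorm, mul_add,
          ENNReal.ofReal_coe_nnreal, mul_comm (δ : ℝ≥0∞)]
        gcongr
        exact hwm (le_of_lt hx.2)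
    _ = (∫⁻ x in closedBall 0 (R + 1) ∩ {x | v x < t}, w (v x) * ‖fderiv ℝ v x‖ₑ)
        + δ * w t * volume (closedBall (0 : E) (R + 1) ∩ {x | v x < t}) := by
        rw [lintegral_add_right _ measurable_const, setLIntegral_const]
    _ ≤ _ := by
        refine add_le_add (lintegral_mono_set inter_subset_right) (le_trans ?_ hδη.le)
        rw [mul_assoc]
        gcongr
        exact inter_subset_left

/-- The distribution function of `mu v ∘ v`. -/
lemma dist_le {v : E → ℝ} (hv : Continuous v) (m : ℝ≥0∞) :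
    volume {x | mu v (v x) ≤ m} ≤ m := by
  have hS : MeasurableSet {x | mu v (v x) ≤ m} :=
    measurableSet_le ((mu_anti v).measurable.comp hv.measurable) measurable_const
  rw [hS.measure_eq_iSup_isCompact]
  refine iSup_le fun K => iSup_le fun hK => iSup_le fun hKc => ?_
  rcases K.eq_empty_or_nonempty with rfl | hne
  · simp
  obtain ⟨x₀, hx₀, hmin⟩ := hKc.exists_isMinOn hne hv.continuousOn
  exact (measure_mono fun y hy => hmin hy).trans (hK hx₀)

lemma weight_sq_le {v : E → ℝ} (hv : Continuous v) (hc : HasCompactSupport v) {t : ℝ}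
    (ht : 0 < t) (hm : mu v t ≠ 0) {r : ℝ} (hr : 1 < r) :
    ∫⁻ x in {x | v x < t}, mu v (v x) ^ (-r)
      ≤ ENNReal.ofReal ((mu v t).toReal ^ (1 - r) / (r - 1)) := by
  have hr0 : 0 < r := by linarith
  have hmt := mu_ne_top hv hc ht
  set m₀ := (mu v t).toReal with hm₀
  have hm0 : 0 < m₀ := ENNReal.toReal_pos hm hmt
  have hmu : mu v t = ENNReal.ofReal m₀ := (ENNReal.ofReal_toReal hmt).symm
  have hLm : MeasurableSet {x | v x < t} := (isOpen_lt hv continuous_const).measurableSet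
  have hFm : Measurable fun x => mu v (v x) ^ (-r) :=
    (w_mono v hr0.le).measurable.comp hv.measurable
  have hle : ∀ x, v x < t → mu v (v x) ^ (-r) ≤ ENNReal.ofReal (m₀ ^ (-r)) := fun x hx => by
    have := w_mono v hr0.le hx.le
    simp only at this
    rwa [hmu, ENNReal.ofReal_rpow_of_pos hm0] at this
  have h1 : ∫⁻ x in {x | v x < t}, mu v (v x) ^ (-r)
      = ∫⁻ x in {x | v x < t}, ENNReal.ofReal (mu v (v x) ^ (-r)).toReal :=
    setLIntegral_congr_fun hLm fun x hx =>
      (ENNReal.ofReal_toReal (ne_top_of_le_ne_top ENNReal.ofReal_ne_top (hle x hx))).symm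
  rw [h1, lintegral_eq_lintegral_meas_lt _ (Eventually.of_forall fun _ => ENNReal.toReal_nonneg)
    hFm.ennreal_toReal.aemeasurable]
  set τ₀ := m₀ ^ (-r) with hτ₀
  have hτ0 : 0 < τ₀ := Real.rpow_pos_of_pos hm0 _
  have h2 : ∀ τ ∈ Ioi (0 : ℝ), (volume.restrict {x | v x < t})
      {x | τ < (mu v (v x) ^ (-r)).toReal} ≤
      (Ioc 0 τ₀).indicator (fun τ => ENNReal.ofReal (τ ^ (-r⁻¹) - m₀)) τ := by
    intro τ hτ
    have hτ' : 0 < τ := hτ
    rw [Measure.restrict_apply' hLm]
    by_cases h : τ ≤ τ₀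
    · rw [indicator_of_mem (show τ ∈ Ioc 0 τ₀ from ⟨hτ, h⟩), ENNReal.ofReal_sub _ hm0.le, ← hmu]
      have hτm : mu v t ≤ ENNReal.ofReal (τ ^ (-r⁻¹)) := by
        rw [hmu]
        apply ENNReal.ofReal_le_ofReal
        have := Real.rpow_le_rpow_of_nonpos hτ' h (neg_nonpos.2 (inv_nonneg.2 hr0.le))
        rwa [hτ₀, ← Real.rpow_mul hm0.le, neg_mul_neg, mul_inv_cancel₀ hr0.ne',
          Real.rpow_one] at this
      apply ENNReal.le_sub_of_add_le_right hmt
      have hdisj : Disjoint ({x | τ < (mu v (v x) ^ (-r)).toReal} ∩ {x | v x < t})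
          {x | t ≤ v x} := disjoint_left.2 fun x hx hx' =>
            absurd (show v x < t from hx.2) (not_lt.2 (show t ≤ v x from hx'))
      rw [mu, ← measure_union hdisj (isClosed_le continuous_const hv).measurableSet]
      refine (measure_mono ?_).trans (dist_le hv _)
      rintro x (hx | hx)
      · show mu v (v x) ≤ _
        have h3 : ENNReal.ofReal τ ≤ mu v (v x) ^ (-r) :=
          (ENNReal.ofReal_le_ofReal (le_of_lt hx.1)).trans ENNReal.ofReal_toReal_le
        have h4 := ENNReal.rpow_le_rpow h3 (inv_nonneg.2 hr0.le)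
        rw [← ENNReal.rpow_mul, neg_mul, mul_inv_cancel₀ hr0.ne', ENNReal.rpow_neg_one] at h4
        rw [← ENNReal.ofReal_rpow_of_pos hτ', ENNReal.rpow_neg]
        exact ENNReal.le_inv_iff_le_inv.1 h4
      · exact (mu_anti v hx).trans hτm
    · rw [indicator_of_notMem (fun h' => h h'.2)]
      refine le_of_eq (measure_mono_null (fun x hx => ?_) measure_empty)
      have := ENNReal.toReal_le_of_le_ofReal hτ0.le (hle x hx.2)
      have h5 : τ < (mu v (v x) ^ (-r)).toReal := hx.1
      exact h (by linarith)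
  have hri : -1 < -r⁻¹ := neg_lt_neg (inv_lt_one_of_one_lt₀ hr)
  have hint : IntervalIntegrable (fun τ : ℝ => τ ^ (-r⁻¹) - m₀) volume 0 τ₀ :=
    (intervalIntegral.intervalIntegrable_rpow' hri).sub intervalIntegrable_const
  calc _ ≤ ∫⁻ τ in Ioi 0, (Ioc 0 τ₀).indicator (fun τ => ENNReal.ofReal (τ ^ (-r⁻¹) - m₀)) τ :=
        setLIntegral_mono' measurableSet_Ioi h2
    _ ≤ ∫⁻ τ, (Ioc 0 τ₀).indicator (fun τ => ENNReal.ofReal (τ ^ (-r⁻¹) - m₀)) τ :=
        setLIntegral_le_lintegral _ _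
    _ = ∫⁻ τ in Ioc 0 τ₀, ENNReal.ofReal (τ ^ (-r⁻¹) - m₀) := lintegral_indicator measurableSet_Ioc _
    _ = ENNReal.ofReal (∫ τ in Ioc 0 τ₀, (τ ^ (-r⁻¹) - m₀)) := by
        refine (ofReal_integral_eq_lintegral_ofReal hint.1 ?_).symm
        refine (ae_restrict_iff' measurableSet_Ioc).2 (Eventually.of_forall fun τ hτ => ?_)
        have := Real.rpow_le_rpow_of_nonpos hτ.1 hτ.2 (neg_nonpos.2 (inv_nonneg.2 hr0.le))
        rw [hτ₀, ← Real.rpow_mul hm0.le, neg_mul_neg, mul_inv_cancel₀ hr0.ne',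
          Real.rpow_one] at this
        show 0 ≤ τ ^ (-r⁻¹) - m₀
        linarith
    _ = _ := by
        rw [← intervalIntegral.integral_of_le hτ0.le, intervalIntegral.integral_sub
          (intervalIntegral.intervalIntegrable_rpow' hri) intervalIntegrable_const,
          integral_rpow (Or.inl hri), Real.zero_rpow (by linarith),
          intervalIntegral.integral_const, hτ₀, ← Real.rpow_mul hm0.le]
        congr 1
        have e1 : -r * (-r⁻¹ + 1) = 1 - r := by field_simp; ring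
        have e2 : m₀ ^ (-r) * m₀ = m₀ ^ (1 - r) := by
          rw [← Real.rpow_add_one hm0.ne']; congr 1; ring
        have hr1 : r - 1 ≠ 0 := by linarith
        have e3 : -r⁻¹ + 1 = (r - 1) / r := by field_simp; ring
        rw [e1, sub_zero, sub_zero, smul_eq_mul, e2, e3]
        field_simp
        ring

lemma l2_ineq {n : ℕ} (hn : finrank ℝ E = n + 1) {v : E → ℝ} (hv : ContDiff ℝ 1 v)
    (hc : HasCompactSupport v) {t : ℝ} (ht : 0 < t) (hm : mu v t ≠ 0) {p : ℝ}
    (hp : p = (n : ℝ) / (n + 1)) (hr : 1 < 2 * p) :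
    (((n : ℝ) + 1) * rt (closedBall (0 : E) 1) * t) ^ 2
      ≤ (mu v t).toReal ^ (1 - 2 * p) / (2 * p - 1) * ∫ x, ‖fderiv ℝ v x‖ ^ 2 := by
  have hvc := hv.continuous
  have hdc : Continuous (fderiv ℝ v) := hv.continuous_fderiv one_ne_zero
  have hI0 : 0 ≤ ∫ x, ‖fderiv ℝ v x‖ ^ 2 := integral_nonneg fun _ => by positivity
  have hp0 : 0 ≤ p := by linarith
  have hint : Integrable fun x => ‖fderiv ℝ v x‖ ^ 2 :=
    (hdc.norm.pow 2).integrable_of_hasCompactSupport
      (HasCompactSupport.intro (hc.fderiv ℝ).isCompact fun x hx => by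
        simp [image_eq_zero_of_notMem_tsupport hx])
  have hH := ENNReal.lintegral_mul_le_Lp_mul_Lq (volume.restrict {x | v x < t})
    Real.HolderConjugate.two_two (f := fun x => mu v (v x) ^ (-p))
    (g := fun x => ‖fderiv ℝ v x‖ₑ)
    ((w_mono v hp0).measurable.comp hvc.measurable).aemeasurable hdc.enorm.aemeasurable
  have hA : ∫⁻ x in {x | v x < t}, (mu v (v x) ^ (-p)) ^ (2 : ℝ)
      ≤ ENNReal.ofReal ((mu v t).toReal ^ (1 - 2 * p) / (2 * p - 1)) := by
    refine le_trans (le_of_eq ?_) (weight_sq_le hvc hc ht hm hr)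
    refine lintegral_congr fun x => ?_
    rw [← ENNReal.rpow_mul]; congr 1; ring
  have hB : ∫⁻ x in {x | v x < t}, ‖fderiv ℝ v x‖ₑ ^ (2 : ℝ)
      ≤ ENNReal.ofReal (∫ x, ‖fderiv ℝ v x‖ ^ 2) := by
    rw [ofReal_integral_eq_lintegral_ofReal hint (Eventually.of_forall fun _ => by positivity)]
    refine (setLIntegral_le_lintegral _ _).trans (le_of_eq (lintegral_congr fun x => ?_))
    rw [ENNReal.ofReal_pow (norm_nonneg _), ofReal_norm_eq_enorm, ENNReal.rpow_two]
  have hL := l1_ineq hn hv hc ht hm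
  rw [← hp] at hL
  replace hL := hL.trans hH
  have hq : 0 ≤ (mu v t).toReal ^ (1 - 2 * p) / (2 * p - 1) :=
    div_nonneg (Real.rpow_nonneg ENNReal.toReal_nonneg _) (by linarith)
  have hb := rt_nonneg (closedBall (0 : E) 1)
  have ha : 0 ≤ ((n : ℝ) + 1) * rt (closedBall (0 : E) 1) * t := by positivity
  generalize (mu v t).toReal ^ (1 - 2 * p) / (2 * p - 1) = X at hA hq ⊢
  generalize ∫ x, ‖fderiv ℝ v x‖ ^ 2 = Y at hB hI0 ⊢
  generalize ((n : ℝ) + 1) * rt (closedBall (0 : E) 1) * t = a at ha hL ⊢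
  have hL2 : ENNReal.ofReal a ≤ ENNReal.ofReal ((X * Y) ^ (1 / 2 : ℝ)) := by
    rw [Real.mul_rpow hq hI0, ENNReal.ofReal_mul (Real.rpow_nonneg hq _),
      ← ENNReal.ofReal_rpow_of_nonneg hq (by norm_num),
      ← ENNReal.ofReal_rpow_of_nonneg hI0 (by norm_num)]
    exact hL.trans (mul_le_mul' (ENNReal.rpow_le_rpow hA (by norm_num))
      (ENNReal.rpow_le_rpow hB (by norm_num)))
  have hXY := mul_nonneg hq hI0
  have hL3 := (ENNReal.ofReal_le_ofReal_iff (Real.rpow_nonneg hXY _)).1 hL2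
  rw [← Real.sqrt_eq_rpow] at hL3
  exact (Real.le_sqrt ha hXY).1 hL3

/-- The sharp isocapacitary inequality, raw form (`dim E = n + 1 ≥ 3`). -/
theorem iso_raw {n : ℕ} (hn : finrank ℝ E = n + 1) (h2 : 2 ≤ n) {v : E → ℝ} (hv : ContDiff ℝ 1 v)
    (hc : HasCompactSupport v) {t : ℝ} (ht : 0 < t) :
    ((n : ℝ) + 1) * ((n : ℝ) - 1) * rt (closedBall (0 : E) 1) ^ 2 * t ^ 2 *
      volume.real {x | t ≤ v x} ^ (((n : ℝ) - 1) / (n + 1)) ≤ ∫ x, ‖fderiv ℝ v x‖ ^ 2 := by
  have hn2 : (2 : ℝ) ≤ n := by exact_mod_cast h2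
  have hI0 : 0 ≤ ∫ x, ‖fderiv ℝ v x‖ ^ 2 := integral_nonneg fun _ => by positivity
  have e0 : volume.real {x | t ≤ v x} = (mu v t).toReal := rfl
  have hn1 : 0 < (n : ℝ) - 1 := by linarith
  have hn3 : 0 < (n : ℝ) + 1 := by linarith
  rw [e0]
  by_cases hm : mu v t = 0
  · rw [hm, ENNReal.toReal_zero, Real.zero_rpow (div_pos hn1 hn3).ne', mul_zero]
    exact hI0
  have hr : 1 < 2 * ((n : ℝ) / (n + 1)) := by
    rw [← mul_div_assoc, lt_div_iff₀ hn3]; linarith
  have hm0 : 0 < (mu v t).toReal := ENNReal.toReal_pos hm (mu_ne_top hv.continuous hc ht)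
  have hL3 := l2_ineq hn hv hc ht hm rfl hr
  have e1 : 1 - 2 * ((n : ℝ) / (n + 1)) = -(((n : ℝ) - 1) / (n + 1)) := by field_simp; ring
  have e2 : 2 * ((n : ℝ) / (n + 1)) - 1 = ((n : ℝ) - 1) / (n + 1) := by linarith
  rw [e1, e2, Real.rpow_neg hm0.le] at hL3
  have hX : 0 < (mu v t).toReal ^ (((n : ℝ) - 1) / (n + 1)) := Real.rpow_pos_of_pos hm0 _
  generalize (mu v t).toReal ^ (((n : ℝ) - 1) / (n + 1)) = X at *
  generalize ∫ x, ‖fderiv ℝ v x‖ ^ 2 = Y at *
  have hL4 := mul_le_mul_of_nonneg_left hL3 (mul_pos hX (div_pos hn1 hn3)).le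
  calc _ = X * (((n : ℝ) - 1) / (n + 1)) *
        (((n : ℝ) + 1) * rt (closedBall (0 : E) 1) * t) ^ 2 := by field_simp
    _ ≤ _ := hL4
    _ = _ := by field_simp

end Crest.Agent.N346.Iso
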