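import Crest.Agent.N346.P2.Conc
import Crest.Agent.N346.P2.Basic
import Crest.Agent.N346.Basic2

/-!
Row 346, P2k (helper30), part 1: frame algebra, the volume measure, smooth members of the class and
integration by parts against a vector density.
-/

set_option autoImplicit false
open MeasureTheory Filter Topology Set Matrix
open scoped ContDiff ENNReal InnerProductSpace
open Crest.GeometryTopology.CoordMetric
open Crest.MathPhysics.ExteriorData

noncomputable section
namespace Crest.Agent.N346.P2.NK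
open Crest.Agent.N346.Bs

variable {n : ℕ} {g F : MetricField n}

theorem inner_eq (v w : E n) : ⟪v, w⟫_ℝ = ∑ a, v a * w a := by
  simp [PiLp.inner_apply, mul_comm]

theorem frame_inv (h : Fr g F) (x : E n) : F x * (F x)ᵀ = (g x)⁻¹ := by
  have h1 : (g x * F x) * (F x)ᵀ = 1 := by
    rw [mul_eq_one_comm, ← Matrix.mul_assoc]; exact h.orth x
  exact (inv_eq_right_inv (by rw [← Matrix.mul_assoc]; exact h1)).symm

theorem fgrad_eq (u : E n → ℝ) (x : E n) :
    (fgrad F u x).ofLp = (F x)ᵀ *ᵥ fun i => pderiv i u x := by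
  ext a; simp [fgrad, mulVec, dotProduct]

theorem fvec_eq (EE : VectorField n) (x : E n) :
    (fvec g F EE x).ofLp = (volDensity g x)⁻¹ • ((F x)ᵀ *ᵥ (g x *ᵥ EE x)) := by
  ext a
  simp only [fvec, mulVec, dotProduct, Pi.smul_apply, smul_eq_mul, transpose_apply,
    Finset.mul_sum, div_eq_inv_mul, mul_assoc]

theorem frame_dot (h : Fr g F) (x : E n) (v w : Fin n → ℝ) :
    ((F x)ᵀ *ᵥ v) ⬝ᵥ ((F x)ᵀ *ᵥ w) = v ⬝ᵥ (g x)⁻¹ *ᵥ w := by
  rw [mulVec_transpose, ← dotProduct_mulVec, mulVec_mulVec, frame_inv h]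

theorem norm_fgrad_sq (h : Fr g F) (u : E n → ℝ) (x : E n) :
    ‖fgrad F u x‖ ^ 2 = gradSq g u x := by
  rw [norm_sq_eq, gradSq, gradDot_eq, qb_eq_dot, ← frame_dot h, ← fgrad_eq]; rfl

theorem norm_fgrad (h : Fr g F) (u : E n → ℝ) (x : E n) :
    ‖fgrad F u x‖ = √(gradSq g u x) := by
  rw [← norm_fgrad_sq h, Real.sqrt_sq (norm_nonneg _)]

theorem inv_mulVec (h : Fr g F) (x : E n) (v : Fin n → ℝ) : (g x)⁻¹ *ᵥ (g x *ᵥ v) = v := by
  rw [mulVec_mulVec, nonsing_inv_mul _ (det_pos h.riem x).ne'.isUnit, one_mulVec]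

theorem norm_fvec_sq (h : Fr g F) (EE : VectorField n) (x : E n) :
    ‖fvec g F EE x‖ ^ 2 = eSq g EE x := by
  have e : ‖fvec g F EE x‖ ^ 2 = (fvec g F EE x).ofLp ⬝ᵥ (fvec g F EE x).ofLp := norm_sq_eq _
  rw [e, fvec_eq, smul_dotProduct, dotProduct_smul, frame_dot h, inv_mulVec h, dotProduct_comm,
    ← qb_eq_dot, eSq, ← volDensity_sq h.riem x]
  simp only [smul_eq_mul]
  rw [show vecNormSq g EE x = qb (g x) (EE x) (EE x) from rfl]
  field_simp

theorem inner_fgrad_fvec (h : Fr g F) (u : E n → ℝ) (EE : VectorField n) (x : E n) :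
    ⟪fvec g F EE x, fgrad F u x⟫_ℝ * volDensity g x = ∑ i, pderiv i u x * EE x i := by
  have e : ⟪fvec g F EE x, fgrad F u x⟫_ℝ = (fgrad F u x).ofLp ⬝ᵥ (fvec g F EE x).ofLp := by
    rw [real_inner_comm, inner_eq]; rfl
  rw [e, fvec_eq, fgrad_eq, dotProduct_smul, frame_dot h, inv_mulVec h, smul_eq_mul]
  have := (volDensity_pos h.riem x).ne'
  field_simp
  rfl

theorem fgrad_of_pd {u v : E n → ℝ} {c : ℝ} {x : E n} (hu : ∀ i, pderiv i u x = c * pderiv i v x) :
    fgrad F u x = c • fgrad F v x := by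
  ext a
  simp only [fgrad, hu, PiLp.smul_apply, smul_eq_mul, Finset.mul_sum]
  exact Finset.sum_congr rfl fun i _ => by ring

theorem continuous_fgrad (h : Fr g F) {u : E n → ℝ} (hu : ContDiff ℝ 1 u) :
    Continuous (fgrad F u) :=
  (PiLp.continuous_toLp 2 _).comp (continuous_pi fun a => continuous_finsetSum _ fun i _ =>
    (h.smooth i a).continuous.mul (continuous_pd hu i))

theorem continuous_fvec (h : Fr g F) {EE : VectorField n} (hE : ∀ i, Continuous fun x => EE x i) :
    Continuous (fvec g F EE) :=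
  (PiLp.continuous_toLp 2 _).comp (continuous_pi fun a => (continuous_finsetSum _ fun i _ =>
    continuous_finsetSum _ fun j _ =>
      ((h.smooth i a).continuous.mul (contDiff_g h.riem i j).continuous).mul (hE j)).div
    (contDiff_volDensity h.riem).continuous fun x => (volDensity_pos h.riem x).ne')

theorem hcs_fgrad {u : E n → ℝ} {c : ℝ} (hc : HasCompactSupport fun x => u x - c) :
    HasCompactSupport (fgrad F u) := by
  refine .intro hc fun x hx => ?_
  have := fun i => pd_of_notMem hx i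
  simp only [pd_sub_const] at this
  ext a; simp [fgrad, this]

/-! ### the measure -/

theorem meas_dens (h : Fr g F) : Measurable fun x => ENNReal.ofReal (volDensity g x) :=
  (contDiff_volDensity h.riem).continuous.measurable.ennreal_ofReal

theorem integral_nu (h : Fr g F) (f : E n → ℝ) :
    ∫ x, f x ∂(nu g) = ∫ x, f x * volDensity g x := by
  rw [nu, integral_withDensity_eq_integral_toReal_smul (meas_dens h)
    (ae_of_all _ fun _ => ENNReal.ofReal_lt_top)]
  simp only [ENNReal.toReal_ofReal (volDensity_pos h.riem _).le, smul_eq_mul, mul_comm]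

theorem vol_bdd (h : Fr g F) : ∃ M : ℝ, ∀ x, volDensity g x ≤ M := by
  obtain ⟨Λ, hΛ, -, h2⟩ := h.bd
  exact ⟨√(Λ ^ n), fun x => Real.sqrt_le_sqrt (det_le h.riem (by linarith) (h2 x))⟩

theorem integrable_nu (h : Fr g F) {V : Type*} [NormedAddCommGroup V] [NormedSpace ℝ V]
    {f : E n → V} (hf : Integrable f) : Integrable f (nu g) := by
  obtain ⟨M, hM⟩ := vol_bdd h
  have h1 : nu g ≤ ENNReal.ofReal M • (volume : Measure (E n)) := by
    rw [nu, ← withDensity_const]
    exact withDensity_mono (ae_of_all _ fun x => ENNReal.ofReal_le_ofReal (hM x))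
  exact (hf.smul_measure ENNReal.ofReal_ne_top).mono_measure h1

theorem ae_of_nu (h : Fr g F) {p : E n → Prop} (hp : ∀ᵐ x ∂(nu g), p x) : ∀ᵐ x, p x := by
  have := (ae_withDensity_iff (meas_dens h)).1 hp
  filter_upwards [this] with x hx
  exact hx (by simpa using volDensity_pos h.riem x)

theorem int_cs (h : Fr g F) {V : Type*} [NormedAddCommGroup V] [NormedSpace ℝ V]
    {f : E n → V} (hf : Continuous f) (hc : HasCompactSupport f) : Integrable f (nu g) :=
  integrable_nu h (hf.integrable_of_hasCompactSupport hc)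

theorem memLp_cs (h : Fr g F) {f : E n → E n} (hf : Continuous f) (hc : HasCompactSupport f) :
    MemLp f 2 (nu g) := by
  rw [memLp_two_iff_integrable_sq_norm hf.aestronglyMeasurable]
  exact int_cs h (hf.norm.pow 2) (hc.comp_left (g := fun v : E n => ‖v‖ ^ 2) (by simp))

theorem of_contDiff (h : Fr g F) {u : E n → ℝ} {c : ℝ} (hu : ContDiff ℝ 1 u)
    (hc : HasCompactSupport fun x => u x - c) : DD g F u c (fgrad F u) := by
  have hu' : ContDiff ℝ 1 fun x => u x - c := hu.sub contDiff_const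
  obtain ⟨M, hM⟩ := hu'.continuous.bounded_above_of_compact_support hc
  refine ⟨hu.continuous.measurable, ⟨M + |c|, fun x => ?_⟩,
    memLp_cs h (continuous_fgrad h hu) (hcs_fgrad hc), fun _ x => u x - c, M, fun _ => hu',
    fun _ => hc, fun _ x => hM x, ae_of_all _ fun _ => tendsto_const_nhds, ?_⟩
  · have := abs_add_le (u x - c) c
    have h2 : |u x - c| ≤ M := hM x
    rw [sub_add_cancel] at this; linarith
  · have : ∀ x, fgrad F (fun x => u x - c) x - fgrad F u x = 0 := fun x => by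
      rw [fgrad_of_pd (v := u) (c := 1) fun i => by rw [pd_sub_const, one_mul], one_smul, sub_self]
    simp [this]

/-- integration by parts in the class -/
theorem dd_ibp (h : Fr g F) {u : E n → ℝ} {c : ℝ} {G : E n → E n} (hu : DD g F u c G)
    {V : VectorField n} (hV : ∀ i, ContDiff ℝ 1 fun x => V x i) (h2 : MemLp (fvec g F V) 2 (nu g))
    (hd : Integrable (divE V)) :
    ∫ x, ⟪fvec g F V x, G x⟫_ℝ ∂(nu g) = -∫ x, (u x - c) * divE V x := by
  obtain ⟨v, M, hv, hc, hM, hae, hL⟩ := hu.approx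
  have hvm : ∀ j, MemLp (fgrad F (v j)) 2 (nu g) := fun j =>
    memLp_cs h (continuous_fgrad h (hv j)) (hcs_fgrad (c := 0) (by simpa using hc j))
  have e : ∀ j, ∫ x, ⟪fvec g F V x, fgrad F (v j) x⟫_ℝ ∂(nu g) = -∫ x, v j x * divE V x := by
    intro j
    rw [integral_nu h, ibp_divE (hv j) (hc j) hV, neg_neg]
    simp only [inner_fgrad_fvec h]
  have t1 : Tendsto (fun j => -∫ x, v j x * divE V x) atTop (𝓝 (-∫ x, (u x - c) * divE V x)) := by
    refine (tendsto_integral_of_dominated_convergence (fun x => M * ‖divE V x‖)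
      (fun j => (hv j).continuous.aestronglyMeasurable.mul hd.1) (hd.norm.const_mul M)
      (fun j => ae_of_all _ fun x => ?_) ?_).neg
    · rw [Pi.mul_apply, norm_mul]; exact mul_le_mul_of_nonneg_right (hM j x) (norm_nonneg _)
    · filter_upwards [ae_of_nu h hae] with x hx using hx.mul_const _
  have t2 : Tendsto (fun j => ∫ x, ⟪fvec g F V x, fgrad F (v j) x⟫_ℝ ∂(nu g)) atTop
      (𝓝 (∫ x, ⟪fvec g F V x, G x⟫_ℝ ∂(nu g))) := by
    have h3 : Tendsto (fun j => (hvm j).toLp _) atTop (𝓝 (hu.memG.toLp _)) :=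
      (Lp.tendsto_Lp_iff_tendsto_eLpNorm'' _ hvm _ hu.memG).2 hL
    have h4 := (tendsto_const_nhds (x := h2.toLp _)).inner (𝕜 := ℝ) h3
    have e2 : ∀ {H : E n → E n} (hH : MemLp H 2 (nu g)),
        ⟪h2.toLp _, hH.toLp _⟫_ℝ = ∫ x, ⟪fvec g F V x, H x⟫_ℝ ∂(nu g) := fun hH => by
      rw [L2.inner_def]
      refine integral_congr_ae ?_
      filter_upwards [h2.coeFn_toLp, hH.coeFn_toLp] with x h1 h2
      rw [h1, h2]
    simpa only [e2] using h4
  simp only [e] at t2
  exact tendsto_nhds_unique t2 t1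

theorem continuous_scalarCurv (hg : IsRiemannianOn g Set.univ) : Continuous (scalarCurv g) := by
  have h1 : ∀ k i j, ContDiff ℝ ∞ fun x => christoffel g x k i j := fun k i j =>
    contDiff_const.mul (ContDiff.sum fun l _ => (contDiff_inv hg k l).mul
      (((contDiff_pd (contDiff_g hg j l) i).add (contDiff_pd (contDiff_g hg i l) j)).sub
        (contDiff_pd (contDiff_g hg i j) l)))
  have h2 : ∀ i j, ContDiff ℝ ∞ fun x => ricci g x i j := fun i j =>
    (((ContDiff.sum fun k _ => contDiff_pd (h1 k i j) k).sub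
      (contDiff_pd (ContDiff.sum fun k _ => h1 k k i) j)).add
      (ContDiff.sum fun k _ => ContDiff.sum fun l _ => (h1 k k l).mul (h1 l i j))).sub
      (ContDiff.sum fun k _ => ContDiff.sum fun l _ => (h1 k j l).mul (h1 l k i))
  exact (ContDiff.sum fun i _ => ContDiff.sum fun j _ =>
    (contDiff_inv hg i j).mul (h2 i j)).continuous

end Crest.Agent.N346.P2.NK

end
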