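import Crest.Agent.N346.P2.Abs

/-! Row 346, part P2e: the function `G` of the phase-field functional (pure real analysis,
helper28). -/

set_option autoImplicit false
open MeasureTheory Set Filter Topology

noncomputable section
namespace Crest.Agent.N346.P2.Top

/-- `log G'` above `Is` -/
def gl (a μ q y I : ℝ) : ℝ :=
  (1 + 2 * a) * Real.log (I ^ 2 - q ^ 2) - (2 + 2 * a) * Real.log (I - μ) + 4 * y / √I

/-- `G'` -/
def gp (a μ q y Is I : ℝ) : ℝ := Real.exp (gl a μ q y (max I Is))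

/-- `G` -/
def Gf (a μ q y Is I : ℝ) : ℝ := ∫ s in Is..I, gp a μ q y Is s

variable {a μ q y Is : ℝ}

theorem hasDerivAt_gl (hq : 0 ≤ q) (hμ : q < μ) {I : ℝ} (hI : μ < I) :
    HasDerivAt (gl a μ q y) (2 * (kstar a μ q I - y / (I * √I))) I := by
  have h0 : 0 < I := by linarith
  have h1 : 0 < I ^ 2 - q ^ 2 := by nlinarith
  have h2 : 0 < I - μ := by linarith
  have h3 : 0 < √I := Real.sqrt_pos.2 h0
  have d1 := (((hasDerivAt_pow 2 I).sub_const (q ^ 2)).log h1.ne').const_mul (1 + 2 * a)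
  have d2 := (((hasDerivAt_id I).sub_const μ).log h2.ne').const_mul (2 + 2 * a)
  have d3 := (hasDerivAt_const I (4 * y)).div (Real.hasDerivAt_sqrt h0.ne') h3.ne'
  refine ((d1.sub d2).add d3).congr_deriv ?_
  simp only [kstar, Real.sq_sqrt h0.le, id, Nat.cast_ofNat, Nat.add_one_sub_one, pow_one]
  field_simp
  ring

theorem gp_pos (I : ℝ) : 0 < gp a μ q y Is I := Real.exp_pos _

theorem continuous_gp (hq : 0 ≤ q) (hμ : q < μ) (hI : μ < Is) : Continuous (gp a μ q y Is) := by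
  refine Real.continuous_exp.comp (continuous_iff_continuousAt.2 fun I => ?_)
  exact ContinuousAt.comp (g := gl a μ q y) (f := fun I => max I Is)
    (hasDerivAt_gl hq hμ (hI.trans_le (le_max_right _ _))).continuousAt
    (continuous_id.max continuous_const).continuousAt

theorem hasDerivAt_Gf (hq : 0 ≤ q) (hμ : q < μ) (hI : μ < Is) (I : ℝ) :
    HasDerivAt (Gf a μ q y Is) (gp a μ q y Is I) I :=
  ((continuous_gp hq hμ hI).integral_hasStrictDerivAt Is I).hasDerivAt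

theorem monotone_Gf (hq : 0 ≤ q) (hμ : q < μ) (hI : μ < Is) : Monotone (Gf a μ q y Is) :=
  monotone_of_hasDerivAt_nonneg (hasDerivAt_Gf hq hμ hI) fun I => (gp_pos I).le

theorem continuous_Gf (hq : 0 ≤ q) (hμ : q < μ) (hI : μ < Is) : Continuous (Gf a μ q y Is) :=
  continuous_iff_continuousAt.2 fun I => (hasDerivAt_Gf hq hμ hI I).continuousAt

theorem gp_of_le {I : ℝ} (h : I ≤ Is) : gp a μ q y Is I = Real.exp (gl a μ q y Is) := by
  rw [gp, max_eq_right h]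

theorem hasDerivAt_gp (hq : 0 ≤ q) (hμ : q < μ) (hI : μ < Is) {I : ℝ} (h : Is < I) :
    HasDerivAt (gp a μ q y Is) (gp a μ q y Is I * (2 * (kstar a μ q I - y / (I * √I)))) I := by
  have d := (hasDerivAt_gl (a := a) (y := y) hq hμ (hI.trans h)).exp
  rw [gp, max_eq_left h.le]
  refine d.congr_of_eventuallyEq ?_
  filter_upwards [lt_mem_nhds h] with s hs
  rw [gp, max_eq_left hs.le]

theorem exists_gp_ge (hq : 0 ≤ q) (hμ : q < μ) (hI : μ < Is) (Ib : ℝ) :
    ∃ m : ℝ, 0 < m ∧ ∀ I, Is ≤ I → I ≤ Ib → m ≤ gp a μ q y Is I := by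
  rcases le_or_gt Is Ib with h | h
  · obtain ⟨I₀, -, h₀⟩ := isCompact_Icc.exists_isMinOn (nonempty_Icc.2 h)
      (continuous_gp (a := a) (y := y) hq hμ hI).continuousOn
    exact ⟨_, gp_pos I₀, fun I h1 h2 => h₀ ⟨h1, h2⟩⟩
  · exact ⟨1, one_pos, fun I h1 h2 => by linarith⟩

theorem gp_ge (ha : 0 < a) (ha1 : a ≤ 1) (hq : 0 ≤ q) (hμ : q < μ) (hI : μ < Is) (hy : 0 < y)
    {I : ℝ} (h : Is ≤ I) (h' : 12 * q ^ 2 ≤ y * I ^ 2) :
    (1 - y / 4) * I ^ (2 * a) ≤ gp a μ q y Is I := by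
  have h0 : 0 < I := by linarith
  have h1 : 0 < I ^ 2 - q ^ 2 := by nlinarith
  have h2 : 0 < I - μ := by linarith
  set r : ℝ := (I ^ 2 - q ^ 2) / I ^ 2 with hr
  have hr0 : 0 < r := by positivity
  have hr1 : r ≤ 1 := (div_le_one (by positivity)).2 (by nlinarith)
  have hr2 : 1 - y / 12 ≤ r := by rw [hr, le_div_iff₀ (by positivity)]; nlinarith
  have e1 : Real.log (I ^ 2 - q ^ 2) = Real.log r + 2 * Real.log I := by
    rw [hr, Real.log_div h1.ne' (by positivity), Real.log_pow]; push_cast; ring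
  have e2 : Real.log (I - μ) ≤ Real.log I := Real.log_le_log h2 (by linarith)
  have e3 : Real.log r ≤ 0 := Real.log_nonpos hr0.le hr1
  have e4 : 0 ≤ 4 * y / √I := by positivity
  have e5 : 3 * Real.log r + Real.log I * (2 * a) ≤ gl a μ q y I := by
    rw [gl, e1]; nlinarith
  have e6 : 1 - y / 4 ≤ r ^ 3 := by
    have := one_add_mul_le_pow (a := r - 1) (by linarith) 3
    push_cast at this
    rw [add_sub_cancel] at this
    linarith
  rw [gp, max_eq_left h]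
  refine le_trans ?_ (Real.exp_le_exp.2 e5)
  rw [Real.exp_add, ← Real.rpow_def_of_pos h0, show (3 : ℝ) = (3 : ℕ) by norm_num,
    Real.exp_nat_mul, Real.exp_log hr0]
  gcongr

theorem coercive (ha : 0 < a) (ha1 : a ≤ 1) (hq : 0 ≤ q) (hμ : q < μ) (hI : μ < Is) (hy : 0 < y)
    (K : ℝ) : ∃ Ib : ℝ, ∀ Q : ℝ,
      Gf a μ q y Is Q - (1 - y / 2) / (1 + 2 * a) * Q ^ (1 + 2 * a) ≤ K → Q ≤ Ib := by
  set I₁ : ℝ := max (max Is 1) (12 * q ^ 2 / y) with hI₁
  have h1 : Is ≤ I₁ := (le_max_left _ _).trans (le_max_left _ _)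
  have h2 : 1 ≤ I₁ := (le_max_right _ _).trans (le_max_left _ _)
  have h3 : 12 * q ^ 2 / y ≤ I₁ := le_max_right _ _
  set H : ℝ → ℝ := fun Q => Gf a μ q y Is Q - (1 - y / 2) / (1 + 2 * a) * Q ^ (1 + 2 * a) with hH
  have hd : ∀ Q, 0 < Q → HasDerivAt H (gp a μ q y Is Q - (1 - y / 2) * Q ^ (2 * a)) Q :=
    fun Q hQ => by
      refine ((hasDerivAt_Gf hq hμ hI Q).sub ((Real.hasDerivAt_rpow_const (p := 1 + 2 * a)
        (Or.inl hQ.ne')).const_mul _)).congr_deriv ?_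
      rw [add_sub_cancel_left]; field_simp
  refine ⟨max I₁ (I₁ + (K - H I₁) / (y / 4)), fun Q hQ => ?_⟩
  rcases le_total Q I₁ with h | h
  · exact h.trans (le_max_left _ _)
  refine le_trans ?_ (le_max_right _ _)
  have := (convex_Ici I₁).mul_sub_le_image_sub_of_le_deriv (f := H) (C := y / 4)
    (fun s hs => (hd s (by linarith [mem_Ici.1 hs])).continuousAt.continuousWithinAt)
    (fun s hs => (hd s (by linarith [mem_Ici.1 (interior_subset hs)])).differentiableAt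
      |>.differentiableWithinAt) (fun s hs => ?_) I₁ self_mem_Ici Q h h
  · rw [← sub_le_iff_le_add', le_div_iff₀ (by positivity)]
    change H Q ≤ K at hQ
    linarith
  · have hs' : I₁ ≤ s := mem_Ici.1 (interior_subset hs)
    rw [(hd s (by linarith)).deriv]
    have h4 := gp_ge ha ha1 hq hμ hI hy (h1.trans hs') (by
      rw [div_le_iff₀ hy] at h3
      have : I₁ ≤ s ^ 2 := by nlinarith
      nlinarith)
    have h5 : 1 ≤ s ^ (2 * a) := Real.one_le_rpow (h2.trans hs') (by positivity)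
    nlinarith

/-- the bound for the area, as a function of the small parameter -/
def Psi (a μ q cn y : ℝ) : ℝ :=
  (((μ + √(μ ^ 2 - q ^ 2) + y) ^ 2 - q ^ 2) / (μ + √(μ ^ 2 - q ^ 2) + y) + y) /
    (√(1 - (q / (μ + √(μ ^ 2 - q ^ 2) + y)) ^ 2) *
      √((1 - y) / (cn * (1 + 2 * a)) / Real.exp (gl a μ q y (μ + √(μ ^ 2 - q ^ 2) + y)))) + y

theorem exists_param {cn η : ℝ} (ha : 0 < a) (hq : 0 ≤ q) (hμ : q < μ) (hcn : 0 < cn)
    (hη : 0 < η) : ∃ y : ℝ, 0 < y ∧ y ≤ 1 / 2 ∧ y ≤ √μ ∧ Psi a μ q cn y ^ 2 ≤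
      (1 + η) * (cn * (1 + 2 * a)) * (2 * (μ + √(μ ^ 2 - q ^ 2))) ^ (2 + 2 * a) := by
  have h0 : 0 < μ := by linarith
  have h1 : 0 < μ ^ 2 - q ^ 2 := by nlinarith
  have h2 := Real.sq_sqrt h1.le
  have h3 : 0 < √(μ ^ 2 - q ^ 2) := Real.sqrt_pos.2 h1
  unfold Psi
  generalize √(μ ^ 2 - q ^ 2) = w at h2 h3
  set I := μ + w with hI
  have hI0 : 0 < I := by positivity
  have h4 : I ^ 2 - q ^ 2 = 2 * I * w := by rw [hI]; linear_combination -h2
  have h5 : 0 < I ^ 2 - q ^ 2 := by rw [h4]; positivity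
  have h6 : 1 - (q / I) ^ 2 = (I ^ 2 - q ^ 2) / I ^ 2 := by field_simp
  have h7 : Real.exp (gl a μ q 0 I) * (I ^ 2 - q ^ 2) = (2 * I) ^ (2 + 2 * a) := by
    rw [gl, show I - μ = w by rw [hI]; ring, Real.rpow_def_of_pos (by positivity)]
    conv_lhs => rw [← Real.exp_log h5]
    rw [Real.log_exp, ← Real.exp_add, h4, Real.log_mul (by positivity) h3.ne']
    congr 1; ring
  have hc : ContinuousAt (fun y : ℝ => ((((I + y) ^ 2 - q ^ 2) / (I + y) + y) /
      (√(1 - (q / (I + y)) ^ 2) *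
        √((1 - y) / (cn * (1 + 2 * a)) / Real.exp (gl a μ q y (I + y)))) + y) ^ 2) 0 := by
    have a1 : (I + 0) ^ 2 - q ^ 2 ≠ 0 := by rw [add_zero]; exact h5.ne'
    have a2 : I + 0 - μ ≠ 0 := by rw [hI]; linarith
    have a3 : √(I + 0) ≠ 0 := by positivity
    have a4 : I + 0 ≠ 0 := by positivity
    have c1 : ContinuousAt (fun y : ℝ => Real.exp (gl a μ q y (I + y))) 0 := by
      unfold gl; fun_prop (disch := assumption)
    have a5 : √(1 - (q / (I + 0)) ^ 2) *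
        √((1 - 0) / (cn * (1 + 2 * a)) / Real.exp (gl a μ q 0 (I + 0))) ≠ 0 := by
      rw [add_zero, h6, sub_zero]; positivity
    have a6 := (Real.exp_pos (gl a μ q 0 (I + 0))).ne'
    fun_prop (disch := assumption)
  have hv : ((((I + 0) ^ 2 - q ^ 2) / (I + 0) + 0) / (√(1 - (q / (I + 0)) ^ 2) *
      √((1 - 0) / (cn * (1 + 2 * a)) / Real.exp (gl a μ q 0 (I + 0)))) + 0) ^ 2 <
      (1 + η) * (cn * (1 + 2 * a)) * (2 * I) ^ (2 + 2 * a) := by
    simp only [add_zero, sub_zero]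
    rw [div_pow, mul_pow, Real.sq_sqrt (by rw [h6]; positivity), Real.sq_sqrt (by positivity), h6,
      ← h7]
    have e : ((I ^ 2 - q ^ 2) / I) ^ 2 / ((I ^ 2 - q ^ 2) / I ^ 2 *
        (1 / (cn * (1 + 2 * a)) / Real.exp (gl a μ q 0 I))) =
        cn * (1 + 2 * a) * (Real.exp (gl a μ q 0 I) * (I ^ 2 - q ^ 2)) := by
      field_simp
    rw [e, mul_assoc (1 + η)]
    exact lt_mul_of_one_lt_left (by positivity) (by linarith)
  have ev := (hc.eventually_lt_const hv).and ((ge_mem_nhds (by norm_num : (0 : ℝ) < 1 / 2)).and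
    (ge_mem_nhds (Real.sqrt_pos.2 h0)))
  obtain ⟨y, ⟨b1, b2, b3⟩, b4⟩ := ((ev.filter_mono nhdsWithin_le_nhds).and
    (self_mem_nhdsWithin (s := Ioi (0 : ℝ)))).exists
  exact ⟨y, b4, b2, b3, b1.le⟩

end Crest.Agent.N346.P2.Top
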