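import Crest.Agent.N346.P2.Abs

/-! Row 346, part P2e: integrability helpers and existence of a minimiser (helper28). -/

set_option autoImplicit false
open MeasureTheory Set Filter Topology

noncomputable section
namespace Crest.Agent.N346.P2.Top

variable {X : Type} [MeasurableSpace X] {V : Type} [NormedAddCommGroup V] [InnerProductSpace ℝ V]
  {ν : Measure X} {𝒟 : DClass ν V} {ε C0 : ℝ}

theorem D_congr {u u' : X → ℝ} {c c' : ℝ} {G G' : X → V} (h : 𝒟.D u c G) (hu : ∀ x, u x = u' x)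
    (hc : c = c') (hG : ∀ x, G x = G' x) : 𝒟.D u' c' G' := by
  rwa [← funext hu, ← hc, ← funext hG]

theorem D_one_sub {u : X → ℝ} {c : ℝ} {G : X → V} (h : 𝒟.D u c G) :
    𝒟.D (fun x => 1 - u x) (1 - c) (fun x => -G x) :=
  D_congr (𝒟.add (𝒟.const 1) (𝒟.smul (-1) h)) (fun x => by ring) (by ring) fun x => by simp

theorem continuous_p (pr : Prof ε C0) : Continuous pr.p :=
  continuous_iff_continuousAt.2 fun s => (pr.hp s).continuousAt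

theorem continuous_p' (pr : Prof ε C0) : Continuous pr.p' :=
  continuous_iff_continuousAt.2 fun s => (pr.hp' s).continuousAt

theorem p_nonneg (pr : Prof ε C0) (hε : 0 < ε) {s : ℝ} (hs : s ∈ Icc (0 : ℝ) 1) : 0 ≤ pr.p s :=
  (le_min (div_nonneg hs.1 hε.le) zero_le_one).trans (pr.le_p s hs)

theorem p_le_mul (pr : Prof ε C0) {s : ℝ} (hs : s ∈ Icc (0 : ℝ) 1) : pr.p s ≤ C0 / ε * s := by
  have := (convex_Icc (0 : ℝ) 1).image_sub_le_mul_sub_of_deriv_le (f := pr.p) (C := C0 / ε)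
    (continuous_p pr).continuousOn (fun x _ => (pr.hp x).differentiableAt.differentiableWithinAt)
    (fun x hx => by rw [(pr.hp x).deriv]; exact pr.p'_le x (interior_subset hx)) 0
    ⟨le_rfl, zero_le_one⟩ s hs hs.1
  simpa [pr.p_zero] using this

theorem one_sub_p_sq (pr : Prof ε C0) (hε : 0 < ε) {s : ℝ} (hs : s ∈ Icc (0 : ℝ) 1) :
    1 - pr.p s ^ 2 ∈ Icc (0 : ℝ) 1 :=
  ⟨sub_nonneg.2 (pow_le_one₀ (p_nonneg pr hε hs) (pr.p_le_one s)), by linarith [sq_nonneg (pr.p s)]⟩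

theorem integrable_normSq {u : X → ℝ} {c : ℝ} {G : X → V} (h : 𝒟.D u c G) :
    Integrable (fun x => ‖G x‖ ^ 2) ν := (𝒟.memG h).integrable_norm_pow two_ne_zero

theorem integrable_W_sq {W u : X → ℝ} {c : ℝ} {G : X → V} (h : 𝒟.D u c G) (hW : Integrable W ν) :
    Integrable (fun x => W x * u x ^ 2) ν := by
  obtain ⟨M, hM⟩ := 𝒟.bdd h
  refine hW.mul_bdd (c := M ^ 2) ((𝒟.meas h).pow_const 2).aestronglyMeasurable
    (.of_forall fun x => ?_)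
  rw [norm_pow, Real.norm_eq_abs]
  exact pow_le_pow_left₀ (abs_nonneg _) (hM x) 2

theorem Qf_eq {W u : X → ℝ} {c : ℝ} {G : X → V} (h : 𝒟.D u c G) (hW : Integrable W ν) :
    Qf ν W u G = (∫ x, ‖G x‖ ^ 2 ∂ν) + ∫ x, W x * u x ^ 2 ∂ν :=
  integral_add (integrable_normSq h) (integrable_W_sq h hW)

theorem grad_le_Qf {W u : X → ℝ} {c : ℝ} {G : X → V} (h : 𝒟.D u c G) (hW : Integrable W ν)
    (hW0 : ∀ x, 0 ≤ W x) : ∫ x, ‖G x‖ ^ 2 ∂ν ≤ Qf ν W u G := by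
  rw [Qf_eq h hW]
  exact le_add_of_nonneg_right (integral_nonneg fun x => mul_nonneg (hW0 x) (sq_nonneg _))

omit [InnerProductSpace ℝ V] in
theorem Qf_nonneg {W : X → ℝ} (hW0 : ∀ x, 0 ≤ W x) (u : X → ℝ) (G : X → V) : 0 ≤ Qf ν W u G :=
  integral_nonneg fun x => add_nonneg (sq_nonneg _) (mul_nonneg (hW0 x) (sq_nonneg _))

/-- the volume term -/
def Vf (ν : Measure X) (pr : Prof ε C0) (σ u : X → ℝ) : ℝ := ∫ x, σ x ^ 2 * (1 - pr.p (u x) ^ 2) ∂ν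

omit [MeasurableSpace X] in
theorem Vf_integrand (pr : Prof ε C0) (hε : 0 < ε) {σ u : X → ℝ} (hσ : ∀ x, σ x ∈ Icc (0 : ℝ) 1)
    (hu : ∀ x, u x ∈ Icc (0 : ℝ) 1) (x : X) :
    0 ≤ σ x ^ 2 * (1 - pr.p (u x) ^ 2) ∧ σ x ^ 2 * (1 - pr.p (u x) ^ 2) ≤ σ x := by
  obtain ⟨h1, h2⟩ := one_sub_p_sq pr hε (hu x)
  obtain ⟨h3, h4⟩ := hσ x
  exact ⟨by positivity, by nlinarith [mul_le_mul_of_nonneg_left h2 (sq_nonneg (σ x))]⟩

theorem measurable_Vf (pr : Prof ε C0) {σ u : X → ℝ} (hσ : Measurable σ) (hu : Measurable u) :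
    Measurable fun x => σ x ^ 2 * (1 - pr.p (u x) ^ 2) :=
  (hσ.pow_const 2).mul (measurable_const.sub
    (((continuous_p pr).measurable.comp hu).pow_const 2))

theorem Vf_nonneg (pr : Prof ε C0) (hε : 0 < ε) {σ u : X → ℝ} (hσ : ∀ x, σ x ∈ Icc (0 : ℝ) 1)
    (hu : ∀ x, u x ∈ Icc (0 : ℝ) 1) : 0 ≤ Vf ν pr σ u :=
  integral_nonneg fun x => (Vf_integrand pr hε hσ hu x).1

theorem Vf_le (pr : Prof ε C0) (hε : 0 < ε) {σ u : X → ℝ} (hσ : ∀ x, σ x ∈ Icc (0 : ℝ) 1)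
    (hσi : Integrable σ ν) (hu : ∀ x, u x ∈ Icc (0 : ℝ) 1) : Vf ν pr σ u ≤ ∫ x, σ x ∂ν :=
  integral_mono_of_nonneg (.of_forall fun x => (Vf_integrand pr hε hσ hu x).1) hσi
    (.of_forall fun x => (Vf_integrand pr hε hσ hu x).2)

theorem Vf_le_vol (pr : Prof ε C0) (hε : 0 < ε) {σ u : X → ℝ} (hσ : ∀ x, σ x ∈ Icc (0 : ℝ) 1)
    (hu : ∀ x, u x ∈ Icc (0 : ℝ) 1) (hum : Measurable u) (hf : ν {x | u x < ε} ≠ ⊤) :
    Vf ν pr σ u ≤ ν.real {x | u x < ε} := by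
  have hm : MeasurableSet {x | u x < ε} := measurableSet_lt hum measurable_const
  rw [← integral_indicator_one hm]
  refine integral_mono_of_nonneg (.of_forall fun x => (Vf_integrand pr hε hσ hu x).1)
    ((integrableOn_const hf).integrable_indicator hm) (.of_forall fun x => ?_)
  by_cases h : u x < ε
  · rw [indicator_of_mem (by exact h)]
    exact (Vf_integrand pr hε hσ hu x).2.trans (hσ x).2
  · rw [indicator_of_notMem (by exact h)]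
    simp [pr.p_one _ (not_lt.1 h)]

/-- the direct method -/
theorem exists_min (pr : Prof ε C0) (hε : 0 < ε) {W σ : X → ℝ} (hWm : Measurable W)
    (hW0 : ∀ x, 0 ≤ W x) (hW : Integrable W ν) (hσm : Measurable σ)
    (hσ : ∀ x, σ x ∈ Icc (0 : ℝ) 1) (hσi : Integrable σ ν) {Gf : ℝ → ℝ} (hGc : Continuous Gf)
    (hG : Monotone Gf) {κ : ℝ} (hκ : 0 ≤ κ)
    (cpt : ∀ (u : ℕ → X → ℝ) (G : ℕ → X → V) (M : ℝ), (∀ j, 𝒟.D (u j) 1 (G j)) →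
      (∀ j x, u j x ∈ Icc (0 : ℝ) 1) → (∀ j, ∫ x, ‖G j x‖ ^ 2 ∂ν ≤ M) →
      ∃ (φ : ℕ → ℕ) (v : X → ℝ) (H : X → V), StrictMono φ ∧ 𝒟.D v 1 H ∧
        (∀ x, v x ∈ Icc (0 : ℝ) 1) ∧
        (∀ᵐ x ∂ν, Tendsto (fun j => u (φ j) x) atTop (𝓝 (v x))) ∧
        ∀ δ : ℝ, 0 < δ → ∀ᶠ j in atTop, ∫ x, ‖H x‖ ^ 2 ∂ν ≤ ∫ x, ‖G (φ j) x‖ ^ 2 ∂ν + δ)
    {u₀ : X → ℝ} {G₀ : X → V} (h₀ : 𝒟.D u₀ 1 G₀) (hu₀ : ∀ x, u₀ x ∈ Icc (0 : ℝ) 1) {Ib : ℝ}
    (hIb : ∀ u G, 𝒟.D u 1 G → (∀ x, u x ∈ Icc (0 : ℝ) 1) →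
      Gf (Qf ν W u G) - κ * Vf ν pr σ u ≤ Gf (Qf ν W u₀ G₀) - κ * Vf ν pr σ u₀ →
      Qf ν W u G ≤ Ib) :
    ∃ b gb, 𝒟.D b 1 gb ∧ (∀ x, b x ∈ Icc (0 : ℝ) 1) ∧
      ∀ u G, 𝒟.D u 1 G → (∀ x, u x ∈ Icc (0 : ℝ) 1) →
        Gf (Qf ν W b gb) - κ * Vf ν pr σ b ≤ Gf (Qf ν W u G) - κ * Vf ν pr σ u := by
  set S : Set ℝ := {r | ∃ u G, 𝒟.D u 1 G ∧ (∀ x, u x ∈ Icc (0 : ℝ) 1) ∧
    r = Gf (Qf ν W u G) - κ * Vf ν pr σ u} with hS
  have hne : S.Nonempty := ⟨_, u₀, G₀, h₀, hu₀, rfl⟩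
  have hbd : BddBelow S := ⟨Gf 0 - κ * ∫ x, σ x ∂ν, by
    rintro _ ⟨u, G, -, hu, rfl⟩
    exact sub_le_sub (hG (Qf_nonneg hW0 u G))
      (mul_le_mul_of_nonneg_left (Vf_le pr hε hσ hσi hu) hκ)⟩
  have hseq : ∀ j : ℕ, ∃ u G, 𝒟.D u 1 G ∧ (∀ x, u x ∈ Icc (0 : ℝ) 1) ∧ Qf ν W u G ≤ Ib ∧
      Gf (Qf ν W u G) - κ * Vf ν pr σ u ≤ sInf S + 1 / ((j : ℝ) + 1) := fun j => by
    obtain ⟨_, ⟨u, G, hD, hu, rfl⟩, h⟩ := Real.lt_sInf_add_pos hne (Nat.one_div_pos_of_nat (n := j))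
    rcases le_total (Gf (Qf ν W u G) - κ * Vf ν pr σ u)
      (Gf (Qf ν W u₀ G₀) - κ * Vf ν pr σ u₀) with h' | h'
    · exact ⟨u, G, hD, hu, hIb u G hD hu h', h.le⟩
    · exact ⟨u₀, G₀, h₀, hu₀, hIb u₀ G₀ h₀ hu₀ le_rfl, h'.trans h.le⟩
  choose u G hD hu hQ hJ using hseq
  obtain ⟨φ, v, H, hφ, hv, hvm, hlim, hlsc⟩ := cpt u G Ib hD hu
    fun j => (grad_le_Qf (hD j) hW hW0).trans (hQ j)
  refine ⟨v, H, hv, hvm, fun u' G' hD' hu' => le_trans ?_ (csInf_le hbd ⟨u', G', hD', hu', rfl⟩)⟩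
  have t1 : Tendsto (fun j => ∫ x, W x * u (φ j) x ^ 2 ∂ν) atTop (𝓝 (∫ x, W x * v x ^ 2 ∂ν)) := by
    refine tendsto_integral_of_dominated_convergence W
      (fun j => (hWm.mul ((𝒟.meas (hD _)).pow_const 2)).aestronglyMeasurable) hW
      (fun j => .of_forall fun x => ?_) ?_
    · rw [Real.norm_of_nonneg (mul_nonneg (hW0 x) (sq_nonneg _))]
      exact mul_le_of_le_one_right (hW0 x) (pow_le_one₀ (hu _ x).1 (hu _ x).2)
    · filter_upwards [hlim] with x hx using (hx.pow 2).const_mul _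
  have t2 : Tendsto (fun j => Vf ν pr σ (u (φ j))) atTop (𝓝 (Vf ν pr σ v)) := by
    refine tendsto_integral_of_dominated_convergence σ
      (fun j => (measurable_Vf pr hσm (𝒟.meas (hD _))).aestronglyMeasurable) hσi
      (fun j => .of_forall fun x => ?_) ?_
    · rw [Real.norm_of_nonneg (Vf_integrand pr hε hσ (hu _) x).1]
      exact (Vf_integrand pr hε hσ (hu _) x).2
    · filter_upwards [hlim] with x hx using
        (((((continuous_p pr).tendsto _).comp hx).pow 2).const_sub 1).const_mul _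
  have t3 : Tendsto (fun j => sInf S + 1 / ((φ j : ℝ) + 1) + κ * Vf ν pr σ (u (φ j))) atTop
      (𝓝 (sInf S + 0 + κ * Vf ν pr σ v)) :=
    ((tendsto_one_div_add_atTop_nhds_zero_nat.comp hφ.tendsto_atTop).const_add _).add
      (t2.const_mul κ)
  have key : ∀ δ : ℝ, 0 < δ → Gf (Qf ν W v H - δ) ≤ sInf S + 0 + κ * Vf ν pr σ v := fun δ hδ => by
    refine ge_of_tendsto t3 ?_
    filter_upwards [hlsc (δ / 2) (half_pos hδ),
      t1.eventually (lt_mem_nhds (sub_lt_self _ (half_pos hδ)))] with j h1 h2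
    have h3 : Qf ν W v H - δ ≤ Qf ν W (u (φ j)) (G (φ j)) := by
      rw [Qf_eq hv hW, Qf_eq (hD _) hW]; linarith
    linarith [hG h3, hJ (φ j)]
  have t4 : Tendsto (fun δ : ℝ => Gf (Qf ν W v H - δ)) (𝓝[>] 0) (𝓝 (Gf (Qf ν W v H - 0))) :=
    ((hGc.comp (continuous_const.sub continuous_id)).tendsto 0).mono_left nhdsWithin_le_nhds
  have := le_of_tendsto t4 (eventually_nhdsWithin_of_forall key)
  rw [sub_zero] at this
  linarith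

end Crest.Agent.N346.P2.Top
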